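import Mathlib
import Crest.Prelude.Def_TangentSplitting

/-!
R266 / A / St4Defs (helper576): definitions and node statements of STEP 4 of S0404
(`minGood`), see the blueprint note of helper576 on row 266.
-/

set_option autoImplicit false

open scoped Manifold ContDiff Topology
open Set Filter
open Crest.AlgGeometry.HolSplit

namespace Crest.Agent.R266.St4

section defs

variable {n : ℕ} {X : Type} [TopologicalSpace X] [ChartedSpace (Model n) X]
  [IsManifold (mI n) ω X]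

/-- a distribution: a linear subspace of every tangent space -/
abbrev Dist (n : ℕ) (X : Type) [TopologicalSpace X] [ChartedSpace (Model n) X] : Type :=
  (x : X) → Submodule ℂ (TangentSpace (mI n) x)

/-- a local holomorphic frame of `H` on the open set `O` -/
structure FrameOn (H : Dist n X) (O : Set X) (k : ℕ)
    (V : Fin k → (x : X) → TangentSpace (mI n) x) : Prop where
  isOpen : IsOpen O
  hol : ∀ i, IsHolVectorFieldOn O (V i)
  indep : ∀ x ∈ O, LinearIndependent ℂ (fun i => V i x)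
  span : ∀ x ∈ O, Submodule.span ℂ (Set.range fun i => V i x) = H x

/-- `H` is a holomorphic subbundle of `T_X` on the open set `U` -/
def IsSub (H : Dist n X) (U : Set X) : Prop :=
  IsOpen U ∧ ∀ x ∈ U, ∃ (O : Set X) (k : ℕ) (V : Fin k → (x : X) → TangentSpace (mI n) x),
    x ∈ O ∧ O ⊆ U ∧ FrameOn H O k V

/-- the first summand -/
noncomputable def E₁ (S : Splitting n X) : Dist n X := fun x =>
  LinearMap.range (S.proj x).toLinearMap

/-- the second summand -/
noncomputable def E₂ (S : Splitting n X) : Dist n X := fun x =>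
  LinearMap.ker (S.proj x).toLinearMap

/-- `[F, K] ⊆ K` on `U` (for local holomorphic sections) -/
def BrSub (F K : Dist n X) (U : Set X) : Prop :=
  ∀ O : Set X, IsOpen O → O ⊆ U → ∀ V W : (x : X) → TangentSpace (mI n) x,
    IsHolVectorFieldOn O V → IsHolVectorFieldOn O W →
    (∀ x ∈ O, V x ∈ F x) → (∀ x ∈ O, W x ∈ K x) →
    ∀ x ∈ O, VectorField.mlieBracket (mI n) V W x ∈ K x

/-- the kernel of the bracket tensor `F × K → T/K`, as a set of tangent vectors at `x` -/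
def kerSet (F K : Dist n X) (x : X) : Set (TangentSpace (mI n) x) :=
  {u | u ∈ F x ∧ ∀ (O : Set X) (V W : (x : X) → TangentSpace (mI n) x), IsOpen O → x ∈ O →
    IsHolVectorFieldOn O V → IsHolVectorFieldOn O W →
    (∀ y ∈ O, V y ∈ F y) → (∀ y ∈ O, W y ∈ K y) → V x = u →
    VectorField.mlieBracket (mI n) V W x ∈ K x}

/-- the kernel of the bracket tensor `F × K → T/K` -/
noncomputable def kerD (F K : Dist n X) : Dist n X := fun x => Submodule.span ℂ (kerSet F K x)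

/-- `G` is on `U` locally the kernel of a holomorphic matrix on a frame of `F` -/
def IsKer (F G : Dist n X) (U : Set X) : Prop :=
  IsOpen U ∧ ∀ x ∈ U, ∃ (O : Set X) (k l : ℕ) (V : Fin k → (x : X) → TangentSpace (mI n) x)
    (Φ : X → ((Fin k → ℂ) →L[ℂ] (Fin l → ℂ))),
    x ∈ O ∧ O ⊆ U ∧ FrameOn F O k V ∧
    ContMDiffOn (mI n) 𝓘(ℂ, (Fin k → ℂ) →L[ℂ] (Fin l → ℂ)) ω Φ O ∧
    ∀ y ∈ O, ∀ a : Fin k → ℂ, (∑ i, a i • V i y) ∈ G y ↔ Φ y a = 0

variable (n) in
/-- a rational curve in two charts: `g b : ℂ → X`, `g (!b) z = g b z⁻¹` -/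
structure IsCurve (g : Bool → ℂ → X) : Prop where
  hol : ∀ b, ContMDiff 𝓘(ℂ, ℂ) (mI n) ω (g b)
  glue : ∀ b z, z ≠ 0 → g (!b) z = g b z⁻¹

variable (n) in
/-- the tangent vector `v` at `x`, as an element of the total space -/
abbrev tv (x : X) (v : Model n) : TangentBundle (mI n) X := ⟨x, v⟩

variable (n) in
/-- `s` is a holomorphic section of `g^* T_X` near `z` -/
def HolAt (g : ℂ → X) (s : ℂ → Model n) (z : ℂ) : Prop :=
  ContMDiffAt 𝓘(ℂ, ℂ) (mI n).tangent ω (fun t => tv n (g t) (s t)) z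

variable (n) in
/-- `s` is a global holomorphic section of `g^* T_X` over `ℙ¹` -/
structure IsSec (g : Bool → ℂ → X) (s : Bool → ℂ → Model n) : Prop where
  hol : ∀ b z, HolAt n (g b) (s b) z
  glue : ∀ b z, z ≠ 0 → s (!b) z = s b z⁻¹

/-- the value of `s` at every point lies in `H` -/
def SecIn (g : Bool → ℂ → X) (s : Bool → ℂ → Model n) (H : Dist n X) : Prop :=
  ∀ b z, (s b z : TangentSpace (mI n) (g b z)) ∈ H (g b z)

/-- some global sections form a complement of `H` at EVERY point of the curve -/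
def Good (g : Bool → ℂ → X) (H : Dist n X) : Prop :=
  ∃ (q : ℕ) (τ : Fin q → Bool → ℂ → Model n), (∀ j, IsSec n g (τ j)) ∧
    ∀ b z, LinearIndependent ℂ (fun j => τ j b z) ∧
      IsCompl (H (g b z)) (Submodule.span ℂ (Set.range fun j => (τ j b z : TangentSpace (mI n) (g b z))))

/-- the global sections with values in `K` span `K` at the point `(b, z)` -/
def SpanAt (g : Bool → ℂ → X) (K : Dist n X) (b : Bool) (z : ℂ) : Prop :=
  ∀ u ∈ K (g b z), ∃ s : Bool → ℂ → Model n, IsSec n g s ∧ SecIn g s K ∧ s b z = u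

variable {E : Type} [NormedAddCommGroup E] [NormedSpace ℂ E] [FiniteDimensional ℂ E]

variable (n) in
/-- the derivative of a family at `(w, z)` -/
noncomputable def dfam (g : E → Bool → ℂ → X) (b : Bool) (p : E × ℂ) (u : E × ℂ) : Model n :=
  mfderiv 𝓘(ℂ, E × ℂ) (mI n) (fun q : E × ℂ => g q.1 b q.2) p u

variable (n) in
/-- a holomorphic family of rational curves over the open set `W` -/
structure Fam (W : Set E) (g : E → Bool → ℂ → X) : Prop where
  isOpen : IsOpen W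
  hol : ∀ b, ContMDiffOn 𝓘(ℂ, E × ℂ) (mI n) ω (fun q : E × ℂ => g q.1 b q.2) (W ×ˢ univ)
  glue : ∀ w ∈ W, ∀ b z, z ≠ 0 → g w (!b) z = g w b z⁻¹
  subm : ∀ b, ∀ O : Set (E × ℂ), IsOpen O → O.Nonempty → O ⊆ W ×ˢ univ →
    ∃ p ∈ O, Function.Surjective (dfam n g b p)

variable (n) in
/-- the velocity of a curve -/
noncomputable def vel (g : ℂ → X) (z : ℂ) : Model n := mfderiv 𝓘(ℂ, ℂ) (mI n) g z (1 : ℂ)

end defs

/-! ### node statements -/

section nodes

variable (n : ℕ) (X : Type) [TopologicalSpace X] [T2Space X] [ChartedSpace (Model n) X]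
  [IsManifold (mI n) ω X]


/-- (C2) coefficients with respect to a good complement are constant -/
def St_coeff : Prop := ∀ (U : Set X) (H : Dist n X) (g : Bool → ℂ → X) (q : ℕ)
  (τ : Fin q → Bool → ℂ → Model n) (β : Bool → ℂ → Model n),
  IsSub H U → IsCurve n g → (∀ b z, g b z ∈ U) → (∀ j, IsSec n g (τ j)) →
  (∀ b z, LinearIndependent ℂ (fun j => τ j b z) ∧
      IsCompl (H (g b z)) (Submodule.span ℂ (Set.range fun j => (τ j b z : TangentSpace (mI n) (g b z))))) →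
  (∀ b z, ∃ s : ℂ → Model n, HolAt n (g b) s z ∧
    ∀ᶠ t in 𝓝 z, (s t - β b t : TangentSpace (mI n) (g b t)) ∈ H (g b t)) →
  (∀ b z, z ≠ 0 → (β (!b) z - β b z⁻¹ : TangentSpace (mI n) (g b z⁻¹)) ∈ H (g b z⁻¹)) →
  ∃ c : Fin q → ℂ, ∀ b z, (β b z - ∑ j, c j • τ j b z : TangentSpace (mI n) (g b z)) ∈ H (g b z)

/-- (C3) independent somewhere implies independent on a dense set -/
def St_dens : Prop := ∀ (g : Bool → ℂ → X) (k : ℕ) (t : Fin k → Bool → ℂ → Model n),
  IsCurve n g → (∀ i, IsSec n g (t i)) → (∃ b z, LinearIndependent ℂ (fun i => t i b z)) →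
  ∀ b, Dense {z | LinearIndependent ℂ (fun i => t i b z)}

/-- (S1) sections form a linear space -/
def St_secAdd : Prop := ∀ (g : Bool → ℂ → X), IsCurve n g →
  (∀ s t, IsSec n g s → IsSec n g t → IsSec n g (s + t)) ∧ (∀ (c : ℂ) s, IsSec n g s → IsSec n g (c • s))

/-- (S2) the splitting projection acts on sections -/
def St_secProj : Prop := ∀ (S : Splitting n X) (g : Bool → ℂ → X), IsCurve n g →
  ∀ s, IsSec n g s → IsSec n g (fun b z => S.proj (g b z) (s b z))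

/-- (S3) `v(z) ∂_z g` for a vector field `v = c₀ + c₁ z + c₂ z²` on `ℙ¹` (given in chart `b₀`) -/
def St_secVel : Prop := ∀ (g : Bool → ℂ → X), IsCurve n g → ∀ (b₀ : Bool) (c₀ c₁ c₂ : ℂ),
  ∃ s, IsSec n g s ∧ (∀ z, s b₀ z = (c₀ + c₁ * z + c₂ * z ^ 2) • vel n (g b₀) z) ∧
    (∀ z, s (!b₀) z = (-(c₀ * z ^ 2 + c₁ * z + c₂)) • vel n (g (!b₀)) z)

/-- (S4) derivatives of a family are sections; hence spanning at submersive points -/
def St_secFam : Prop := ∀ (E : Type) [NormedAddCommGroup E] [NormedSpace ℂ E]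
  [FiniteDimensional ℂ E] (W : Set E) (g : E → Bool → ℂ → X), Fam n W g →
  ∀ w ∈ W, IsCurve n (g w) ∧ ∀ b z, Function.Surjective (dfam n g b (w, z)) →
    SpanAt (g w) (fun _ => ⊤ : Dist n X) b z

/-- (B) the bracket tensor along a curve: values and local holomorphic representatives -/
def St_bracket : Prop := ∀ (F K : Dist n X) (U : Set X), IsSub F U → IsSub K U →
  (∀ x ∈ U, F x ≤ K x) →
  ∃ B : (x : X) → Model n → Model n → Model n,
    (∀ x ∈ U, kerSet F K x = {u : TangentSpace (mI n) x | u ∈ F x ∧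
      ∀ v ∈ K x, (B x u v : TangentSpace (mI n) x) ∈ K x}) ∧
    (∀ x ∈ U, ∀ u ∈ F x, ∀ u' ∈ F x, ∀ v ∈ K x, ∀ v' ∈ K x, ∀ c : ℂ,
      (B x (u + c • u') v - B x u v - c • B x u' v : TangentSpace (mI n) x) ∈ K x ∧
      (B x u (v + c • v') - B x u v - c • B x u v' : TangentSpace (mI n) x) ∈ K x) ∧
    (∀ (g : ℂ → X) (s t : ℂ → Model n) (z : ℂ), g z ∈ U → HolAt n g s z → HolAt n g t z →
      (∀ᶠ y in 𝓝 z, (s y : TangentSpace (mI n) (g y)) ∈ F (g y)) →
      (∀ᶠ y in 𝓝 z, (t y : TangentSpace (mI n) (g y)) ∈ K (g y)) →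
      ∃ r : ℂ → Model n, HolAt n g r z ∧
        ∀ᶠ y in 𝓝 z, (r y - B (g y) (s y) (t y) : TangentSpace (mI n) (g y)) ∈ K (g y))

/-- (K1) the kernel of the bracket tensor is locally the kernel of a holomorphic matrix -/
def St_isKer : Prop := ∀ (F K : Dist n X) (U : Set X), IsSub F U → IsSub K U →
  (∀ x ∈ U, F x ≤ K x) → (∀ x ∈ U, (kerD F K x : Set (TangentSpace (mI n) x)) = kerSet F K x) ∧
    IsKer F (kerD F K) U

/-- (K2) semicontinuity, identity theorem and constant rank theorem for kernels -/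
def St_kerRank : Prop := ∀ (F G : Dist n X) (U : Set X), (∀ x ∈ U, G x ≤ F x) → IsKer F G U →
  (∀ x ∈ U, ∀ᶠ y in 𝓝 x, Module.finrank ℂ (G y) ≤ Module.finrank ℂ (G x)) ∧
  (∀ x ∈ U, ∃ B : Set X, IsOpen B ∧ x ∈ B ∧ B ⊆ U ∧ ∀ (r : ℕ) (O : Set X), IsOpen O →
    O.Nonempty → O ⊆ B → (∀ y ∈ O, r ≤ Module.finrank ℂ (G y)) →
    ∀ y ∈ B, r ≤ Module.finrank ℂ (G y)) ∧
  (∀ (r : ℕ) (O : Set X), IsOpen O → O ⊆ U → (∀ y ∈ O, Module.finrank ℂ (G y) = r) → IsSub G O)

/-- (K3) closedness of kernels along curves -/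
def St_kerClosed : Prop := ∀ (F G : Dist n X) (U : Set X), IsKer F G U →
  ∀ (g : ℂ → X) (s : ℂ → Model n) (z : ℂ), g z ∈ U → HolAt n g s z →
    (∀ᶠ y in 𝓝 z, (s y : TangentSpace (mI n) (g y)) ∈ F (g y)) →
    (∃ᶠ y in 𝓝[≠] z, (s y : TangentSpace (mI n) (g y)) ∈ G (g y)) →
    ∀ᶠ y in 𝓝 z, (s y : TangentSpace (mI n) (g y)) ∈ G (g y)

/-- (O) submersive points produce open sets of values -/
def St_openImage : Prop := ∀ (E : Type) [NormedAddCommGroup E] [NormedSpace ℂ E]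
  [FiniteDimensional ℂ E] (W : Set E) (g : E → Bool → ℂ → X), Fam n W g →
  ∀ b, ∀ O : Set (E × ℂ), IsOpen O → O.Nonempty → O ⊆ W ×ˢ univ →
    ∃ O' : Set X, IsOpen O' ∧ O'.Nonempty ∧ O' ⊆ (fun q : E × ℂ => g q.1 b q.2) '' O

/-- (O') submersivity is an open condition -/
def St_submOpen : Prop := ∀ (E : Type) [NormedAddCommGroup E] [NormedSpace ℂ E]
  [FiniteDimensional ℂ E] (W : Set E) (g : E → Bool → ℂ → X), Fam n W g →
  ∀ b, ∀ p ∈ W ×ˢ (univ : Set ℂ), Function.Surjective (dfam n g b p) →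
    ∀ᶠ q in 𝓝 p, Function.Surjective (dfam n g b q)

/-- (E) `E₁`, `E₂` are subbundles; `F ⊔ E₂` is a subbundle for `F ⊆ E₁` -/
def St_subE : Prop := ∀ (S : Splitting n X), IsSub (E₁ S) univ ∧ IsSub (E₂ S) univ ∧
  ∀ (F : Dist n X) (U : Set X), IsSub F U → (∀ x ∈ U, F x ≤ E₁ S x) →
    IsSub (fun x => F x ⊔ E₂ S x) U

/-- (L3) `E₁` is good along curves tangent to `E₁` -/
def St_goodE₁ : Prop := ∀ (S : Splitting n X), IsProjective n X → ∀ g : Bool → ℂ → X,
  IsCurve n g → (∀ b z, (vel n (g b) z : TangentSpace (mI n) (g b z)) ∈ E₁ S (g b z)) →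
  (∃ b z, SpanAt g (fun _ => ⊤ : Dist n X) b z) → Good g (E₁ S)

/-- export of Step 4 -/
def St_minGood : Prop := ∀ (S : Splitting n X), IsProjective n X →
  ∀ (E : Type) [NormedAddCommGroup E] [NormedSpace ℂ E] [FiniteDimensional ℂ E] (W : Set E)
  (g : E → Bool → ℂ → X), W.Nonempty → Fam n W g →
  (∀ w ∈ W, ∀ b z, (vel n (g w b) z : TangentSpace (mI n) (g w b z)) ∈ E₁ S (g w b z)) →
  ∃ (W₀ : Set E) (U : Set X) (F : Dist n X), IsOpen W₀ ∧ W₀.Nonempty ∧ W₀ ⊆ W ∧ IsSub F U ∧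
    (∀ x ∈ U, F x ≤ E₁ S x) ∧ (∀ w ∈ W₀, ∀ b z, g w b z ∈ U ∧
      (vel n (g w b) z : TangentSpace (mI n) (g w b z)) ∈ F (g w b z)) ∧
    BrSub F (fun x => F x ⊔ E₂ S x) U ∧ BrSub F (E₁ S) U

end nodes

end Crest.Agent.R266.St4
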