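import Crest.Agent.R266.RatMain
import Crest.Agent.R266.RatDefs
import Crest.Agent.R266.Osgood
import Crest.Agent.R266.StepThreeD
import Crest.Agent.R266.P1PolyX
import Crest.Agent.R266.Chart4
import Crest.Agent.R266.A.Iface404
import Mathlib
import Crest.Agent.R266.Chart2
import Crest.Agent.R266.A.St4Defs
import Crest.Agent.R266.Chart3
import Crest.Agent.R266.A.Main404
import Crest.Agent.R266.StepOne
import Crest.Agent.R266.StepTwo
import Crest.Agent.R266.A.St4Coeff
import Crest.Prelude.Def_TangentSplitting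

-- ▼ part R266/RatFinal
section

/-! Row 266, S0404 Step 3 (RAT): final form `rat_family` (interface of helper994, RatDefs names). -/

set_option autoImplicit false

open scoped Topology
open Set Metric Filter

namespace Crest.Agent.R266.Rat

theorem rat_family {E : Type*} [NormedAddCommGroup E] [NormedSpace ℂ E] [FiniteDimensional ℂ E]
    {N : ℕ} (G : E × ℂ × ℂ → Fin (N + 1) → ℂ) (U : Set (E × ℂ × ℂ)) (hU : IsOpen U)
    (hG : AnalyticOnNhd ℂ G U) (hG0 : ∀ u ∈ U, G u ≠ 0) (s0 : E) (z0 : ℂ)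
    (h0 : (s0, z0, z0) ∈ U)
    (hline : ∀ᶠ t : E × ℂ × ℂ in 𝓝 (s0, 1, 0), ∃ k,
      DegLE k (fun z => G (t.1, z, t.2.1 * z + t.2.2)) z0)
    (V : Set (E × ℂ)) (hV : V ∈ 𝓝 (s0, z0)) :
    ∃ r > 0, ball s0 r ×ˢ ball z0 r ×ˢ ball z0 r ⊆ U ∧
      ∃ W : Set (E × ℂ), IsOpen W ∧ W.Nonempty ∧ W ⊆ V ∧ W ⊆ ball s0 r ×ˢ ball z0 r ∧
        ∃ (d : ℕ) (q : E × ℂ → Fin (N + 1) → Fin (d + 1) → ℂ), AnalyticOnNhd ℂ q W ∧
          (∀ w ∈ W, ∀ z, pev (q w) z ≠ 0) ∧ (∀ w ∈ W, ∃ i, q w i (Fin.last d) ≠ 0) ∧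
          ∀ w ∈ W, ∀ z ∈ ball z0 r, Par (pev (q w) z) (G (w.1, z, w.2)) := by
  have : CompleteSpace E := FiniteDimensional.complete ℂ E
  obtain ⟨r, hr, hrU⟩ := Metric.isOpen_iff.1 hU _ h0
  have hrU' : ball s0 r ×ˢ ball z0 r ×ˢ ball z0 r ⊆ U := by
    rw [ball_prod_same, ball_prod_same]
    exact hrU
  obtain ⟨W, hWo, hWne, hWV, hWb, n, a, ha, haw⟩ := RatK.rat_main (F := G) (s0 := s0) (ζ := z0)
    (r := r) hr (fun p hp => ((hG p (hrU' hp)).differentiableAt).differentiableWithinAt)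
    (fun p hp => hG0 p (hrU' hp)) (by
      filter_upwards [hline] with t ht
      obtain ⟨k, c, hc, hp⟩ := ht
      refine ⟨k + 1, fun m i => c i m, ?_, ?_⟩
      · intro h
        apply hc
        funext i m
        exact congrFun (congrFun h m) i
      · filter_upwards [hp] with z hz
        exact hz) hV
  refine ⟨r, hr, hrU', W, hWo, hWne, hWV, hWb, n, fun w i m => a w m i, ?_, ?_, ?_, ?_⟩
  · refine SCV.analyticOnNhd_of_differentiableOn hWo ?_
    refine differentiableOn_pi.2 fun i => differentiableOn_pi.2 fun m => ?_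
    exact differentiableOn_pi.1 (differentiableOn_pi.1 ha m) i
  · exact fun w hw z => (haw w hw).1 z
  · intro w hw
    have := (haw w hw).2.1
    obtain ⟨i, hi⟩ := Function.ne_iff.1 this
    exact ⟨i, hi⟩
  · exact fun w hw z hz => (haw w hw).2.2 z hz

end Crest.Agent.R266.Rat
end

-- ▼ part R266/StepThree
section

/-!
R266 / StepThree (helper338): Step 3 of S0404, `three_holds : St_three n X`.
-/

set_option autoImplicit false

open scoped Manifold ContDiff Topology
open Set Metric Filter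
open Crest.AlgGeometry.HolSplit
open Crest.Agent.R266.Rat Crest.Agent.R266.Emb Crest.Agent.R266.St4

namespace Crest.Agent.R266.St3

section
variable {n N : ℕ} {X : Type} [TopologicalSpace X] [ChartedSpace (Model n) X]
  [IsManifold (mI n) ω X]
variable {E : Type} [NormedAddCommGroup E] [NormedSpace ℂ E]

theorem P1_holds (pe : ProjEmbedding n X N) : St_P1 pe := by
  intro h hh hg
  obtain ⟨d, q, hq, _⟩ := P1.p1_poly_onX pe (h false) (h true) (hh false) (hh true)
    (fun z hz => hg false z hz)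
  exact ⟨d, q, hq⟩

theorem Rat_holds [FiniteDimensional ℂ E] : St_Rat E N := by
  intro G U hU hG hG0 s₀ z₀ h0 hline V hV
  obtain ⟨r, hr, hb, W, hW, hWne, hWV, hWb, d, q, h1, h2, h3, h4⟩ :=
    rat_family G U hU hG hG0 s₀ z₀ h0 hline V hV
  exact ⟨r, hr, W, hW, hWne, hWV, hWb, hb, d, q, h1, h2, h3, h4⟩

/-- the doubling for the swapped splitting -/
theorem Dbl_swap {S : Splitting n X} {f : E → Bool → ℂ → X} {s₀ : E} {r δ : ℝ}
    {F : Bool → E × ℂ × ℂ → X} (hD : Dbl S f s₀ r δ F) :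
    Dbl (swap S) f s₀ r δ (fun b p => F b (p.1, p.2.2, p.2.1)) := by
  have hsw : ∀ p : E × ℂ × ℂ, p ∈ Dg s₀ r δ → ((p.1, p.2.2, p.2.1) : E × ℂ × ℂ) ∈ Dg s₀ r δ := by
    rintro p ⟨h1, h2, h3, h4⟩
    exact ⟨h1, h3, h2, by rw [norm_sub_rev]; exact h4⟩
  have hL : ∀ p : E × ℂ × ℂ, HasFDerivAt (fun p : E × ℂ × ℂ => ((p.1, p.2.2, p.2.1) : E × ℂ × ℂ))
      ((ContinuousLinearMap.fst ℂ E (ℂ × ℂ)).prod
        (((ContinuousLinearMap.snd ℂ ℂ ℂ).comp (ContinuousLinearMap.snd ℂ E (ℂ × ℂ))).prod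
          ((ContinuousLinearMap.fst ℂ ℂ ℂ).comp (ContinuousLinearMap.snd ℂ E (ℂ × ℂ))))) p := by
    intro p
    exact hasFDerivAt_fst.prodMk ((hasFDerivAt_snd.comp p hasFDerivAt_snd).prodMk
      (hasFDerivAt_fst.comp p hasFDerivAt_snd))
  have hmd : ∀ b, ∀ p ∈ Dg s₀ r δ, MDifferentiableAt 𝓘(ℂ, E × ℂ × ℂ) (mI n) (F b) p := fun b p hp =>
    ((hD.hol b).contMDiffAt ((isOpen_Dg s₀ r δ).mem_nhds hp)).mdifferentiableAt (by simp)
  refine ⟨?_, ?_, ?_, ?_, ?_⟩
  · intro b
    have h1 : ContMDiffOn 𝓘(ℂ, E × ℂ × ℂ) 𝓘(ℂ, E × ℂ × ℂ) ω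
        (fun p : E × ℂ × ℂ => ((p.1, p.2.2, p.2.1) : E × ℂ × ℂ)) (Dg s₀ r δ) := by
      rw [contMDiffOn_iff_contDiffOn]
      fun_prop
    exact (hD.hol b).comp h1 (fun p hp => hsw p hp)
  · intro b s z hs hz
    exact hD.diag b s z hs hz
  · intro b p hp
    have h1 := mfderiv_comp_affine (hL p) rfl (hmd b _ (hsw p hp))
      (Filter.EventuallyEq.refl (𝓝 p) (F b ∘ (fun p : E × ℂ × ℂ => ((p.1, p.2.2, p.2.1) : E × ℂ × ℂ))))
      ((0, 1, 0) : E × ℂ × ℂ)
    have h2 := hD.tan2 b _ (hsw p hp)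
    rw [swap_proj_eq_iff]
    refine (congrArg (pr S (F b (p.1, p.2.2, p.2.1))) h1).trans ?_
    exact h2
  · intro b p hp
    have h1 := mfderiv_comp_affine (hL p) rfl (hmd b _ (hsw p hp))
      (Filter.EventuallyEq.refl (𝓝 p) (F b ∘ (fun p : E × ℂ × ℂ => ((p.1, p.2.2, p.2.1) : E × ℂ × ℂ))))
      ((0, 0, 1) : E × ℂ × ℂ)
    have h2 := hD.tan1 b _ (hsw p hp)
    rw [swap_proj_zero_iff]
    refine (congrArg (pr S (F b (p.1, p.2.2, p.2.1))) h1).trans ?_
    exact h2.trans h1.symm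
  · intro b s z₁ z₂ h1 h2 h3 h4
    exact hD.glue b s z₂ z₁ h2 h1 (hsw _ h3) (hsw _ h4)

end

/-- **Step 3 of S0404.** -/
theorem three_holds (n : ℕ) (X : Type) [TopologicalSpace X] [T2Space X]
    [SecondCountableTopology X] [CompactSpace X] [ConnectedSpace X] [ChartedSpace (Model n) X]
    [IsManifold (mI n) ω X] : F404.St_three n X := by
  intro S hproj E _ _ _ f s₀ r δ F hr hδ hf hD V hV hVne hVs hsub
  obtain ⟨N, ⟨pe⟩⟩ := hproj
  have hsub' : ∀ O : Set (E × ℂ), IsOpen O → O.Nonempty → O ⊆ V →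
      ∃ p ∈ O, Function.Surjective (dfam n f false p) := hsub
  constructor
  · obtain ⟨W, g, h1, h2, h3, h4, h5, h6⟩ := step_three_core S pe (P1_holds pe) Rat_holds hδ hD
      hV hVne hVs hsub'
    exact ⟨W, g, h2, h1, h3, h4, h5, h6⟩
  · obtain ⟨W, g, h1, h2, h3, h4, h5, h6⟩ := step_three_core (swap S) pe (P1_holds pe) Rat_holds hδ
      (Dbl_swap hD) hV hVne hVs hsub'
    refine ⟨W, g, h2, h1, h3, ?_, h5, h6⟩
    intro w hw b z
    obtain ⟨u, hu⟩ := h4 w hw b z
    have h7 : (swap S).proj (g w b z) (vel n (g w b) z) = vel n (g w b) z := by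
      rw [← hu]
      exact (swap S).idem _ u
    exact (swap_proj_eq_iff S _ _).1 h7

end Crest.Agent.R266.St3

theorem Crest.Agent.R266.F404.three_holds (n : ℕ) (X : Type) [TopologicalSpace X] [T2Space X]
    [SecondCountableTopology X] [CompactSpace X] [ConnectedSpace X] [ChartedSpace (Model n) X]
    [IsManifold (mI n) ω X] : Crest.Agent.R266.F404.St_three n X :=
  Crest.Agent.R266.St3.three_holds n X
end

-- ▼ part R266/EndGame
section

/-!
# Row 266, S0404, last step (endGame): chart part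

Pure complex-analytic part of the last step of the proof of S0404: a linear ODE for the variation
of a family of curves modulo an involutive distribution `ker Q`.
-/

set_option autoImplicit false
open scoped Topology ContDiff
open Set Filter

namespace Crest.Agent.R266.EndGame

section ODE

variable {E : Type*} [NormedAddCommGroup E] [NormedSpace ℂ E]

/-- a solution of a linear ODE `c' = A c` on a domain of `ℂ` which vanishes at a point vanishes
identically. -/
theorem zero_of_linear_ode [CompleteSpace E] {c : ℂ → E} {A : ℂ → E →L[ℂ] E} {B : Set ℂ}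
    (hB : IsOpen B)
    (hBc : IsPreconnected B) (hc : AnalyticOnNhd ℂ c B) (hA : ContinuousOn A B)
    (hode : ∀ z ∈ B, deriv c z = A z (c z)) {z₀ : ℂ} (hz₀ : z₀ ∈ B) (h0 : c z₀ = 0) :
    ∀ z ∈ B, c z = 0 := by
  suffices h : ∀ᶠ z in 𝓝 z₀, c z = 0 by
    intro z hz
    exact hc.eqOn_zero_of_preconnected_of_eventuallyEq_zero hBc hz₀ h hz
  by_contra hne
  obtain ⟨k, g, hg, hg0, hcg⟩ := (hc z₀ hz₀).exists_eventuallyEq_pow_smul_nonzero_iff.mpr hne
  have hk : k ≠ 0 := by
    rintro rfl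
    have := hcg.self_of_nhds
    simp [h0] at this
    exact hg0 this.symm
  obtain ⟨m, rfl⟩ : ∃ m, k = m + 1 := ⟨k - 1, by omega⟩
  have hAz : ContinuousAt A z₀ := hA.continuousAt (hB.mem_nhds hz₀)
  set F : ℂ → E := fun z => ((m : ℂ) + 1) • g z - (z - z₀) • (A z (g z) - deriv g z) with hF
  have hFcont : ContinuousAt F z₀ := by
    have h1 : ContinuousAt g z₀ := hg.continuousAt
    have h2 : ContinuousAt (deriv g) z₀ := hg.deriv.continuousAt
    have h3 : ContinuousAt (fun z => A z (g z)) z₀ := hAz.clm_apply h1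
    exact (h1.const_smul _).sub (((continuousAt_id.sub continuousAt_const)).smul (h3.sub h2))
  have hzero : ∀ᶠ z in 𝓝[≠] z₀, F z = 0 := by
    have e1 : ∀ᶠ z in 𝓝 z₀, deriv c z = ((m : ℂ) + 1) • (z - z₀) ^ m • g z
        + (z - z₀) ^ (m + 1) • deriv g z := by
      have h1 : ∀ᶠ z in 𝓝 z₀, ∀ᶠ y in 𝓝 z, c y = (y - z₀) ^ (m + 1) • g y := hcg.eventually_nhds
      have h2 : ∀ᶠ z in 𝓝 z₀, AnalyticAt ℂ g z := hg.eventually_analyticAt
      filter_upwards [h1, h2] with z hz hgz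
      have e : deriv c z = deriv (fun y => (y - z₀) ^ (m + 1) • g y) z :=
        Filter.EventuallyEq.deriv_eq hz
      rw [e]
      have hd1 : HasDerivAt (fun y : ℂ => (y - z₀) ^ (m + 1)) (((m + 1 : ℕ) : ℂ) * (z - z₀) ^ m * 1) z := by
        have h0 : HasDerivAt (fun y : ℂ => y - z₀) 1 z := (hasDerivAt_id z).sub_const z₀
        exact (h0.fun_pow (m + 1)).congr_deriv (by simp)
      have hd2 := hgz.differentiableAt.hasDerivAt
      have := hd1.fun_smul hd2
      rw [this.deriv]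
      simp only [mul_one]
      push_cast
      rw [smul_smul, add_comm]
    have e2 : ∀ᶠ z in 𝓝 z₀, z ∈ B := hB.mem_nhds hz₀
    have e3 : ∀ᶠ z in 𝓝[≠] z₀, z ≠ z₀ := self_mem_nhdsWithin
    filter_upwards [e1.filter_mono nhdsWithin_le_nhds, e2.filter_mono nhdsWithin_le_nhds, e3,
      hcg.filter_mono nhdsWithin_le_nhds] with z hz1 hzB hzne hz4
    have h5 := hode z hzB
    rw [hz1, hz4, map_smul] at h5
    have hp : (z - z₀) ^ m ≠ 0 := pow_ne_zero _ (sub_ne_zero.mpr hzne)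
    have h6 : (z - z₀) ^ m • F z = 0 := by
      rw [hF]
      simp only [smul_sub]
      rw [smul_smul, smul_smul, smul_smul, ← pow_succ, ← h5, smul_smul, mul_comm]
      abel
    exact (smul_eq_zero.mp h6).resolve_left hp
  have hF0 : F z₀ = 0 := by
    have h1 : Tendsto F (𝓝[≠] z₀) (𝓝 (F z₀)) := hFcont.tendsto.mono_left nhdsWithin_le_nhds
    have h2 : Tendsto F (𝓝[≠] z₀) (𝓝 0) := by
      refine Tendsto.congr' ?_ tendsto_const_nhds
      filter_upwards [hzero] with z hz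
      exact hz.symm
    exact tendsto_nhds_unique h1 h2
  simp only [hF, sub_self, zero_smul, sub_zero] at hF0
  have : ((m : ℂ) + 1) ≠ 0 := by exact_mod_cast Nat.succ_ne_zero m
  exact hg0 ((smul_eq_zero.mp hF0).resolve_left this)

end ODE

theorem analyticAt_clm_apply {G E F : Type*} [NormedAddCommGroup G] [NormedSpace ℂ G]
    [NormedAddCommGroup E] [NormedSpace ℂ E] [NormedAddCommGroup F] [NormedSpace ℂ F]
    {u : G → E →L[ℂ] F} {v : G → E} {x : G} (hu : AnalyticAt ℂ u x) (hv : AnalyticAt ℂ v x) :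
    AnalyticAt ℂ (fun y => u y (v y)) x :=
  ((ContinuousLinearMap.id ℂ (E →L[ℂ] F)).analyticAt_bilinear (u x, v x)).comp₂ hu hv

section Variation

variable {S E : Type*} [NormedAddCommGroup S] [NormedSpace ℂ S] [NormedAddCommGroup E]
  [NormedSpace ℂ E] [CompleteSpace E]

/-- (EG1) Let `Q` be an analytic idempotent-valued map on `U ⊆ E` with involutive kernel (tensor
form), `f : S × ℂ → E` an analytic family of curves tangent to `ker Q`.  If a variation is in
`ker Q` at `z₁` then it is in `ker Q` at every `z` of a domain. -/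
theorem variation_mem_ker {Q : E → E →L[ℂ] E} {U : Set E} (hQ : AnalyticOnNhd ℂ Q U)
    (hidem : ∀ x ∈ U, ∀ v, Q x (Q x v) = Q x v)
    (hinv : ∀ x ∈ U, ∀ u v, Q x u = 0 → Q x v = 0 → fderiv ℂ Q x u v = fderiv ℂ Q x v u)
    {f : S × ℂ → E} {O : Set (S × ℂ)} (hO : IsOpen O) (hf : AnalyticOnNhd ℂ f O)
    (hfU : MapsTo f O U) (hhor : ∀ p ∈ O, Q (f p) (fderiv ℂ f p (0, 1)) = 0)
    {s : S} {B : Set ℂ} (hB : IsOpen B) (hBc : IsPreconnected B)
    (hBO : ∀ z ∈ B, (s, z) ∈ O) (ξ : S) {z₁ z₂ : ℂ} (hz₁ : z₁ ∈ B) (hz₂ : z₂ ∈ B)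
    (h : Q (f (s, z₁)) (fderiv ℂ f (s, z₁) (ξ, 0)) = 0) :
    Q (f (s, z₂)) (fderiv ℂ f (s, z₂) (ξ, 0)) = 0 := by
  -- the matrix of the ODE
  set A : ℂ → E →L[ℂ] E := fun z => fderiv ℂ Q (f (s, z)) (fderiv ℂ f (s, z) (0, 1)) -
    (fderiv ℂ Q (f (s, z))).flip (fderiv ℂ f (s, z) (0, 1)) with hAdef
  set c : ℂ → E := fun z => Q (f (s, z)) (fderiv ℂ f (s, z) (ξ, 0)) with hcdef
  have hι : AnalyticOnNhd ℂ (fun z : ℂ => (s, z)) B := by
    intro z _
    exact analyticAt_const.prod analyticAt_id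
  have hfs : AnalyticOnNhd ℂ (fun z : ℂ => f (s, z)) B := hf.comp hι hBO
  have hdf : AnalyticOnNhd ℂ (fderiv ℂ f) O := hf.fderiv
  have hdfs : AnalyticOnNhd ℂ (fun z : ℂ => fderiv ℂ f (s, z)) B := hdf.comp hι hBO
  have hQf : AnalyticOnNhd ℂ (fun z : ℂ => Q (f (s, z))) B := hQ.comp hfs (fun z hz => hfU (hBO z hz))
  have hDQf : AnalyticOnNhd ℂ (fun z : ℂ => fderiv ℂ Q (f (s, z))) B :=
    hQ.fderiv.comp hfs (fun z hz => hfU (hBO z hz))
  have hc : AnalyticOnNhd ℂ c B := by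
    intro z hz
    have h1 : AnalyticAt ℂ (fun z : ℂ => fderiv ℂ f (s, z) (ξ, 0)) z :=
      analyticAt_clm_apply (hdfs z hz) analyticAt_const
    exact analyticAt_clm_apply (hQf z hz) h1
  have hA : ContinuousOn A B := by
    have h1 : ContinuousOn (fun z : ℂ => fderiv ℂ f (s, z) (0, 1)) B :=
      (hdfs.continuousOn).clm_apply continuousOn_const
    have h2 : ContinuousOn (fun z : ℂ => fderiv ℂ Q (f (s, z)) (fderiv ℂ f (s, z) (0, 1))) B :=
      hDQf.continuousOn.clm_apply h1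
    have h3 : ContinuousOn (fun z : ℂ => (fderiv ℂ Q (f (s, z))).flip) B :=
      ((ContinuousLinearMap.flipₗᵢ ℂ E E E).continuous.comp_continuousOn hDQf.continuousOn)
    exact h2.sub (h3.clm_apply h1)
  refine zero_of_linear_ode hB hBc hc hA ?_ hz₁ h z₂ hz₂
  intro z hz
  have hp : (s, z) ∈ O := hBO z hz
  have hfa : AnalyticAt ℂ f (s, z) := hf _ hp
  have hdfa : DifferentiableAt ℂ (fderiv ℂ f) (s, z) := (hdf _ hp).differentiableAt
  have hQa : DifferentiableAt ℂ Q (f (s, z)) := (hQ _ (hfU hp)).differentiableAt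
  have hQfa : HasFDerivAt (fun p : S × ℂ => Q (f p))
      ((fderiv ℂ Q (f (s, z))).comp (fderiv ℂ f (s, z))) (s, z) :=
    hQa.hasFDerivAt.comp (s, z) hfa.differentiableAt.hasFDerivAt
  -- derivative of `p ↦ Q (f p) (Df p w)`
  have key : ∀ w : S × ℂ, HasFDerivAt (fun p : S × ℂ => Q (f p) (fderiv ℂ f p w))
      ((Q (f (s, z))).comp ((fderiv ℂ (fderiv ℂ f) (s, z)).flip w) +
        ((fderiv ℂ Q (f (s, z))).comp (fderiv ℂ f (s, z))).flip (fderiv ℂ f (s, z) w)) (s, z) := by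
    intro w
    have h1 : HasFDerivAt (fun p : S × ℂ => fderiv ℂ f p w)
        ((fderiv ℂ (fderiv ℂ f) (s, z)).flip w) (s, z) := by
      have := hdfa.hasFDerivAt.clm_apply (hasFDerivAt_const w (s, z))
      simpa using this
    exact hQfa.clm_apply h1
  -- horizontality differentiated in the direction `(ξ, 0)`
  have hhor' : Q (f (s, z)) (fderiv ℂ (fderiv ℂ f) (s, z) (ξ, 0) (0, 1)) +
      fderiv ℂ Q (f (s, z)) (fderiv ℂ f (s, z) (ξ, 0)) (fderiv ℂ f (s, z) (0, 1)) = 0 := by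
    have h1 := (key (0, 1)).fderiv
    have h2 : fderiv ℂ (fun p : S × ℂ => Q (f p) (fderiv ℂ f p (0, 1))) (s, z) = 0 := by
      have : (fun p : S × ℂ => Q (f p) (fderiv ℂ f p (0, 1))) =ᶠ[𝓝 (s, z)] fun _ => 0 := by
        filter_upwards [hO.mem_nhds hp] with p hp'
        exact hhor p hp'
      rw [this.fderiv_eq]
      simp
    rw [h2] at h1
    have h3 := congrArg (fun T : S × ℂ →L[ℂ] E => T (ξ, 0)) h1
    simpa using h3.symm
  have hsymm : fderiv ℂ (fderiv ℂ f) (s, z) (ξ, 0) (0, 1) =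
      fderiv ℂ (fderiv ℂ f) (s, z) (0, 1) (ξ, 0) := by
    have h1 : ContDiffAt ℂ 2 f (s, z) := hfa.contDiffAt
    have h2 : IsSymmSndFDerivAt ℂ f (s, z) := h1.isSymmSndFDerivAt (by simp)
    exact h2 _ _
  have hderiv : deriv c z = Q (f (s, z)) (fderiv ℂ (fderiv ℂ f) (s, z) (0, 1) (ξ, 0)) +
      fderiv ℂ Q (f (s, z)) (fderiv ℂ f (s, z) (0, 1)) (fderiv ℂ f (s, z) (ξ, 0)) := by
    have h1 : HasDerivAt (fun z : ℂ => (s, z)) ((0, 1) : S × ℂ) z :=
      (hasDerivAt_const z s).prodMk (hasDerivAt_id z)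
    have h2 := (key (ξ, 0)).comp_hasDerivAt z h1
    rw [show deriv c z = _ from h2.deriv]
    simp
  rw [hderiv, ← hsymm]
  have h4 : Q (f (s, z)) (fderiv ℂ (fderiv ℂ f) (s, z) (ξ, 0) (0, 1)) =
      - fderiv ℂ Q (f (s, z)) (fderiv ℂ f (s, z) (ξ, 0)) (fderiv ℂ f (s, z) (0, 1)) :=
    eq_neg_of_add_eq_zero_left hhor'
  rw [h4]
  -- decomposition of the variation
  have hx := hfU hp
  set J := fderiv ℂ f (s, z) (ξ, 0) with hJ
  set w := fderiv ℂ f (s, z) (0, 1) with hw
  have hw0 : Q (f (s, z)) w = 0 := hhor _ hp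
  have hJ0 : Q (f (s, z)) (J - Q (f (s, z)) J) = 0 := by
    rw [map_sub, hidem _ hx, sub_self]
  have h5 := hinv _ hx w (J - Q (f (s, z)) J) hw0 hJ0
  have h6 : A z (c z) = fderiv ℂ Q (f (s, z)) w (Q (f (s, z)) J) -
      fderiv ℂ Q (f (s, z)) (Q (f (s, z)) J) w := by
    simp [hAdef, hcdef, hw, hJ]
  rw [h6]
  rw [map_sub, map_sub, sub_apply] at h5
  have h7 : fderiv ℂ Q (f (s, z)) w J = fderiv ℂ Q (f (s, z)) w (Q (f (s, z)) J)
      + fderiv ℂ Q (f (s, z)) J w - fderiv ℂ Q (f (s, z)) (Q (f (s, z)) J) w := by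
    rw [sub_eq_iff_eq_add] at h5
    rw [h5]; abel
  rw [h7]; abel

/-- (EG2) if moreover the two-point map `(s, z, z') ↦ (f (s, z), f (s, z'))` is submersive at
`(s, z₁, z₂)`, then `Q = 0` at `f (s, z₁)`. -/
theorem proj_eq_zero {Q : E → E →L[ℂ] E} {U : Set E} (hQ : AnalyticOnNhd ℂ Q U)
    (hidem : ∀ x ∈ U, ∀ v, Q x (Q x v) = Q x v)
    (hinv : ∀ x ∈ U, ∀ u v, Q x u = 0 → Q x v = 0 → fderiv ℂ Q x u v = fderiv ℂ Q x v u)
    {f : S × ℂ → E} {O : Set (S × ℂ)} (hO : IsOpen O) (hf : AnalyticOnNhd ℂ f O)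
    (hfU : MapsTo f O U) (hhor : ∀ p ∈ O, Q (f p) (fderiv ℂ f p (0, 1)) = 0)
    {s : S} {B : Set ℂ} (hB : IsOpen B) (hBc : IsPreconnected B)
    (hBO : ∀ z ∈ B, (s, z) ∈ O) {z₁ z₂ : ℂ} (hz₁ : z₁ ∈ B) (hz₂ : z₂ ∈ B)
    (hsurj : ∀ w : E, ∃ (ξ : S) (a a' : ℂ), fderiv ℂ f (s, z₁) (ξ, a) = w ∧
      fderiv ℂ f (s, z₂) (ξ, a') = 0) :
    Q (f (s, z₁)) = 0 := by
  ext w
  obtain ⟨ξ, a, a', h1, h2⟩ := hsurj w
  have split : ∀ (p : S × ℂ) (b : ℂ), fderiv ℂ f p (ξ, b) =
      fderiv ℂ f p (ξ, 0) + b • fderiv ℂ f p (0, 1) := by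
    intro p b
    have : ((ξ, b) : S × ℂ) = (ξ, 0) + b • (0, 1) := by simp
    rw [this, map_add, map_smul]
  have h3 : Q (f (s, z₂)) (fderiv ℂ f (s, z₂) (ξ, 0)) = 0 := by
    have h4 : fderiv ℂ f (s, z₂) (ξ, 0) = - (a' • fderiv ℂ f (s, z₂) (0, 1)) := by
      have := split (s, z₂) a'
      rw [h2] at this
      exact eq_neg_of_add_eq_zero_left this.symm
    rw [h4, map_neg, map_smul, hhor _ (hBO _ hz₂)]
    simp
  have h5 := variation_mem_ker hQ hidem hinv hO hf hfU hhor hB hBc hBO ξ hz₂ hz₁ h3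
  rw [← h1, split, map_add, map_smul, h5, hhor _ (hBO _ hz₁)]
  simp

end Variation

section Frame
open VectorField

variable {E : Type*} [NormedAddCommGroup E] [NormedSpace ℂ E]

/-- synthesis map of a frame `e` and a complement `C` -/
noncomputable def synth {ι : Type*} [Fintype ι] (C : Submodule ℂ E) (e : ι → E → E) (x : E) :
    ((ι → ℂ) × C) →L[ℂ] E :=
  (∑ i, ((ContinuousLinearMap.proj (R := ℂ) (φ := fun _ : ι => ℂ) i).smulRight (e i x))).comp
    (ContinuousLinearMap.fst ℂ (ι → ℂ) C) + C.subtypeL.comp (ContinuousLinearMap.snd ℂ (ι → ℂ) C)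

theorem synth_apply {ι : Type*} [Fintype ι] (C : Submodule ℂ E) (e : ι → E → E) (x : E)
    (p : (ι → ℂ) × C) : synth C e x p = ∑ i, p.1 i • e i x + (p.2 : E) := by
  simp [synth]

theorem exists_proj_of_frame [FiniteDimensional ℂ E] {ι : Type*} [Fintype ι] {e : ι → E → E}
    {x₀ : E} {U : Set E} (hU : IsOpen U) (hx₀ : x₀ ∈ U)
    (he : ∀ i, AnalyticOnNhd ℂ (e i) U) (hli : LinearIndependent ℂ (fun i => e i x₀))
    (hbr : ∀ i j, ∀ x ∈ U, lieBracket ℂ (e i) (e j) x ∈
      Submodule.span ℂ (range fun i => e i x)) :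
    ∃ V : Set E, V ⊆ U ∧ IsOpen V ∧ x₀ ∈ V ∧ ∃ Q : E → E →L[ℂ] E, AnalyticOnNhd ℂ Q V ∧
      (∀ x ∈ V, ∀ v, Q x (Q x v) = Q x v) ∧
      (∀ x ∈ V, ∀ v, Q x v = 0 ↔ v ∈ Submodule.span ℂ (range fun i => e i x)) ∧
      (∀ x ∈ V, ∀ u v, Q x u = 0 → Q x v = 0 → fderiv ℂ Q x u v = fderiv ℂ Q x v u) ∧
      (∀ x ∈ V, Q x = 0 → ∀ y ∈ V, Q y = 0) := by
  classical
  have : CompleteSpace E := FiniteDimensional.complete ℂ E
  obtain ⟨C, hC⟩ := Submodule.exists_isCompl (Submodule.span ℂ (range fun i => e i x₀))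
  -- analyticity of the synthesis map
  have hBan : AnalyticOnNhd ℂ (synth C e) U := by
    intro x hx
    obtain ⟨T, hT⟩ : ∃ T : E → (ι → ℂ) →L[ℂ] E, T = fun x => ∑ i : ι,
      ((ContinuousLinearMap.proj (R := ℂ) (φ := fun _ : ι => ℂ) i).smulRight (e i x)) := ⟨_, rfl⟩
    have h1 : AnalyticAt ℂ T x := by
      rw [hT]
      refine Finset.analyticAt_fun_sum _ fun i _ => ?_
      have := ((ContinuousLinearMap.smulRightL ℂ (ι → ℂ) E
        (ContinuousLinearMap.proj (R := ℂ) (φ := fun _ : ι => ℂ) i)).analyticAt (e i x)).comp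
        (he i x hx)
      simpa [Function.comp_def] using this
    have h3 : AnalyticAt ℂ (fun T : (ι → ℂ) →L[ℂ] E => T.comp
        (ContinuousLinearMap.fst ℂ (ι → ℂ) C)) (T x) :=
      ((ContinuousLinearMap.compL ℂ ((ι → ℂ) × C) (ι → ℂ) E).flip
        (ContinuousLinearMap.fst ℂ (ι → ℂ) C)).analyticAt _
    have h2 : AnalyticAt ℂ (fun x => (T x).comp (ContinuousLinearMap.fst ℂ (ι → ℂ) C)) x :=
      AnalyticAt.comp (g := fun T : (ι → ℂ) →L[ℂ] E => T.comp
        (ContinuousLinearMap.fst ℂ (ι → ℂ) C)) (f := T) h3 h1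
    subst hT
    exact h2.add analyticAt_const
  -- at `x₀` it is an equivalence
  have hker : ∀ p : (ι → ℂ) × C, synth C e x₀ p = 0 → p = 0 := by
    intro p hp
    rw [synth_apply] at hp
    have h1 : (∑ i, p.1 i • e i x₀) ∈ Submodule.span ℂ (range fun i => e i x₀) :=
      Submodule.sum_mem _ fun i _ => Submodule.smul_mem _ _ (Submodule.subset_span ⟨i, rfl⟩)
    have h2 : (p.2 : E) ∈ Submodule.span ℂ (range fun i => e i x₀) := by
      have : (p.2 : E) = - ∑ i, p.1 i • e i x₀ := by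
        rw [add_comm] at hp
        exact eq_neg_of_add_eq_zero_left hp
      rw [this]; exact Submodule.neg_mem _ h1
    have h3 : (p.2 : E) = 0 := Submodule.disjoint_def.mp hC.disjoint _ h2 p.2.2
    rw [h3, add_zero] at hp
    have h4 := Fintype.linearIndependent_iff.mp hli p.1 hp
    ext i
    · exact h4 i
    · exact h3
  have hinj : Function.Injective (synth C e x₀) := by
    rw [injective_iff_map_eq_zero]
    exact hker
  have hsur : Function.Surjective (synth C e x₀) := by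
    intro v
    have hv : v ∈ Submodule.span ℂ (range fun i => e i x₀) ⊔ C := by
      rw [hC.sup_eq_top]; trivial
    obtain ⟨y, hy, z, hz, rfl⟩ := Submodule.mem_sup.mp hv
    obtain ⟨a, ha⟩ := (Submodule.mem_span_range_iff_exists_fun ℂ).mp hy
    exact ⟨(a, ⟨z, hz⟩), by rw [synth_apply]; simp [ha]⟩
  let Φ₀ : ((ι → ℂ) × C) ≃L[ℂ] E :=
    (LinearEquiv.ofBijective (synth C e x₀ : ((ι → ℂ) × C) →ₗ[ℂ] E) ⟨hinj, hsur⟩).toContinuousLinearEquiv
  have hΦ₀ : (Φ₀ : ((ι → ℂ) × C) →L[ℂ] E) = synth C e x₀ := by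
    ext p <;> rfl
  -- the open set
  have hopen : IsOpen (U ∩ synth C e ⁻¹' (range ((↑) : (((ι → ℂ) × C) ≃L[ℂ] E) → _))) :=
    hBan.continuousOn.isOpen_inter_preimage hU ContinuousLinearEquiv.isOpen
  set V : Set E := U ∩ synth C e ⁻¹' (range ((↑) : (((ι → ℂ) × C) ≃L[ℂ] E) → _)) with hV
  set Q : E → E →L[ℂ] E := fun x => (C.subtypeL.comp (ContinuousLinearMap.snd ℂ (ι → ℂ) C)).comp
    (synth C e x).inverse with hQdef
  have hQval : ∀ x ∈ V, ∀ p : (ι → ℂ) × C, Q x (synth C e x p) = (p.2 : E) := by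
    intro x hx p
    obtain ⟨Φ, hΦ⟩ := hx.2
    simp only [hQdef]
    rw [← hΦ, ContinuousLinearMap.inverse_equiv]
    simp
  have hQsur : ∀ x ∈ V, ∀ v : E, ∃ p : (ι → ℂ) × C, v = synth C e x p := by
    intro x hx v
    obtain ⟨Φ, hΦ⟩ := hx.2
    refine ⟨Φ.symm v, ?_⟩
    rw [← hΦ]
    simp
  have hQan : AnalyticOnNhd ℂ Q V := by
    intro x hx
    obtain ⟨Φ, hΦ⟩ := hx.2
    have h1 : AnalyticAt ℂ (ContinuousLinearMap.inverse : (((ι → ℂ) × C) →L[ℂ] E) → _)
        (synth C e x) := by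
      rw [← hΦ]
      have : ContDiffAt ℂ ω (ContinuousLinearMap.inverse : (((ι → ℂ) × C) →L[ℂ] E) → _)
        (Φ : ((ι → ℂ) × C) →L[ℂ] E) := contDiffAt_map_inverse Φ
      exact this.analyticAt
    have h2 := h1.comp (hBan x hx.1)
    have h3 := ((ContinuousLinearMap.compL ℂ E ((ι → ℂ) × C) E
        (C.subtypeL.comp (ContinuousLinearMap.snd ℂ (ι → ℂ) C))).analyticAt _).comp h2
    simpa [Function.comp_def] using h3
  have hQe : ∀ x ∈ V, ∀ i, Q x (e i x) = 0 := by
    intro x hx i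
    have h1 : e i x = synth C e x (Pi.single i 1, 0) := by
      rw [synth_apply]
      simp [Pi.single_apply]
    rw [h1, hQval x hx]
    rfl
  have hQker : ∀ x ∈ V, ∀ v, Q x v = 0 ↔ v ∈ Submodule.span ℂ (range fun i => e i x) := by
    intro x hx v
    constructor
    · intro h
      obtain ⟨p, rfl⟩ := hQsur x hx v
      rw [hQval x hx] at h
      rw [synth_apply, h, add_zero]
      exact Submodule.sum_mem _ fun i _ => Submodule.smul_mem _ _ (Submodule.subset_span ⟨i, rfl⟩)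
    · intro h
      have : Submodule.span ℂ (range fun i => e i x) ≤ LinearMap.ker (Q x : E →ₗ[ℂ] E) := by
        rw [Submodule.span_le]
        rintro _ ⟨i, rfl⟩
        exact hQe x hx i
      exact this h
  refine ⟨V, inter_subset_left, hopen, ⟨hx₀, Φ₀, hΦ₀⟩, Q, hQan, ?_, hQker, ?_, ?_⟩
  · intro x hx v
    obtain ⟨p, rfl⟩ := hQsur x hx v
    rw [hQval x hx]
    have : (p.2 : E) = synth C e x (0, p.2) := by rw [synth_apply]; simp
    conv_lhs => rw [this]
    rw [hQval x hx]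
  · -- tensor form of involutivity
    intro x hx
    have hQd : DifferentiableAt ℂ Q x := (hQan x hx).differentiableAt
    have hed : ∀ i, DifferentiableAt ℂ (e i) x := fun i => (he i x hx.1).differentiableAt
    have hder : ∀ i w, fderiv ℂ Q x w (e i x) = - Q x (fderiv ℂ (e i) x w) := by
      intro i w
      have h1 : HasFDerivAt (fun y => Q y (e i y)) ((Q x).comp (fderiv ℂ (e i) x) +
          (fderiv ℂ Q x).flip (e i x)) x := hQd.hasFDerivAt.clm_apply (hed i).hasFDerivAt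
      have h2 : fderiv ℂ (fun y => Q y (e i y)) x = 0 := by
        have : (fun y => Q y (e i y)) =ᶠ[𝓝 x] fun _ => 0 := by
          filter_upwards [hopen.mem_nhds hx] with y hy
          exact hQe y hy i
        rw [this.fderiv_eq]
        simp
      have h3 := h1.fderiv
      rw [h2] at h3
      have h4 := congrArg (fun T : E →L[ℂ] E => T w) h3
      simp only [zero_apply, add_apply, ContinuousLinearMap.comp_apply,
        ContinuousLinearMap.flip_apply] at h4
      exact eq_neg_of_add_eq_zero_right h4.symm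
    have hee : ∀ i j, fderiv ℂ Q x (e i x) (e j x) = fderiv ℂ Q x (e j x) (e i x) := by
      intro i j
      rw [hder, hder]
      have h1 := (hQker x hx _).mpr (hbr i j x hx.1)
      rw [lieBracket_eq] at h1
      simp only [map_sub] at h1
      rw [sub_eq_zero] at h1
      rw [h1]
    intro u v hu hv
    rw [hQker x hx] at hu hv
    obtain ⟨a, rfl⟩ := (Submodule.mem_span_range_iff_exists_fun ℂ).mp hu
    obtain ⟨b, rfl⟩ := (Submodule.mem_span_range_iff_exists_fun ℂ).mp hv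
    simp only [map_sum, map_smul, sum_apply, smul_apply, Finset.smul_sum]
    rw [Finset.sum_comm]
    refine Finset.sum_congr rfl fun i _ => Finset.sum_congr rfl fun j _ => ?_
    rw [hee, smul_comm]
  · intro x hx h0 y hy
    ext v
    obtain ⟨p, rfl⟩ := hQsur y hy v
    rw [hQval y hy]
    have h1 := hQval x hx p
    rw [h0] at h1
    simpa using h1.symm

end Frame

end Crest.Agent.R266.EndGame
end

-- ▼ part R266/A/EndGameM
section

/-!
# Row 266, S0404, last step (endGame): manifold part (helper725)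
-/

set_option autoImplicit false
open scoped Topology ContDiff Manifold
open Set Filter
open Crest.AlgGeometry.HolSplit

namespace Crest.Agent.R266.EndGame

open VectorField St4

variable {n : ℕ} {X : Type} [TopologicalSpace X] [ChartedSpace (Model n) X]
  [IsManifold (mI n) ω X]

variable {E : Type} [NormedAddCommGroup E] [NormedSpace ℂ E]

/-- derivative of a map read in the chart at `x₀`. -/
theorem fderiv_chart_comp {f : E → X} {p : E} {x₀ : X} (hf : MDifferentiableAt 𝓘(ℂ, E) (mI n) f p)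
    (hp : f p ∈ (chartAt (Model n) x₀).source) (v : E) :
    fderiv ℂ (fun q => chartAt (Model n) x₀ (f q)) p v =
      tcc (f p) x₀ (f p) (mfderiv 𝓘(ℂ, E) (mI n) f p v) := by
  have h1 : MDifferentiableAt (mI n) 𝓘(ℂ, Model n) (extChartAt (mI n) x₀) (f p) :=
    mdifferentiableAt_extChartAt hp
  have h2 := mfderiv_comp p h1 hf
  have h3 := mfderiv_extChart (n := n) hp
  have h4 : mfderiv 𝓘(ℂ, E) 𝓘(ℂ, Model n) (extChartAt (mI n) x₀ ∘ f) p =
    fderiv ℂ (fun q => chartAt (Model n) x₀ (f q)) p := by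
    rw [mfderiv_eq_fderiv]
    rfl
  rw [h4] at h2
  have h5 := congrArg (fun L : E →L[ℂ] Model n => L v) h2
  refine h5.trans ?_
  exact congrArg (fun L : Model n →L[ℂ] Model n => L (mfderiv 𝓘(ℂ, E) (mI n) f p v)) h3

theorem pure_span {M ι : Type*} [NormedAddCommGroup M] [NormedSpace ℂ M] {L L' : M →L[ℂ] M}
    (h1 : ∀ v, L' (L v) = v) (h2 : ∀ v, L (L' v) = v) (w : ι → M) (D : Submodule ℂ M)
    (hD : Submodule.span ℂ (range w) = D) (v : M) :
    v ∈ Submodule.span ℂ (range fun i => L (w i)) ↔ L' v ∈ D := by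
  have h3 : Submodule.span ℂ (range fun i => L (w i)) = D.map L.toLinearMap := by
    rw [← hD, Submodule.map_span]
    congr 1
    ext w
    constructor
    · rintro ⟨i, rfl⟩
      exact ⟨_, ⟨i, rfl⟩, rfl⟩
    · rintro ⟨_, ⟨i, rfl⟩, rfl⟩
      exact ⟨i, rfl⟩
  rw [h3]
  constructor
  · rintro ⟨w, hw, rfl⟩
    have : L' (L.toLinearMap w) = w := h1 w
    rw [this]
    exact hw
  · intro h
    exact ⟨_, h, h2 v⟩

theorem pure_li {M ι : Type*} [NormedAddCommGroup M] [NormedSpace ℂ M] {L L' : M →L[ℂ] M}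
    (h1 : ∀ v, L' (L v) = v) (w : ι → M) (hw : LinearIndependent ℂ w) :
    LinearIndependent ℂ (fun i => L (w i)) := by
  refine hw.map' L.toLinearMap ?_
  rw [LinearMap.ker_eq_bot']
  intro m hm
  rw [← h1 m]
  have h3 : L m = 0 := hm
  rw [h3, map_zero]

/-- the vectors of a frame in a chart -/
theorem mem_span_Vc {D : Dist n X} {O : Set X} {k : ℕ} {W : Fin k → (x : X) → TangentSpace (mI n) x}
    (hW : FrameOn D O k W) {x₀ : X} {y : Model n} (hy : y ∈ (chartAt (Model n) x₀).target)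
    (hyO : (chartAt (Model n) x₀).symm y ∈ O) (v : Model n) :
    v ∈ Submodule.span ℂ (range fun i => Vc x₀ (W i) y) ↔
      (tcc x₀ ((chartAt (Model n) x₀).symm y) ((chartAt (Model n) x₀).symm y) v :
        TangentSpace (mI n) ((chartAt (Model n) x₀).symm y)) ∈ D ((chartAt (Model n) x₀).symm y) :=
  pure_span (L := tcc ((chartAt (Model n) x₀).symm y) x₀ ((chartAt (Model n) x₀).symm y))
    (tcc_cancel' (symm_mem hy)) (tcc_cancel (symm_mem hy)) (fun i => W i _)
    (D ((chartAt (Model n) x₀).symm y)) (hW.span _ hyO) v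

theorem linearIndependent_Vc {D : Dist n X} {O : Set X} {k : ℕ}
    {W : Fin k → (x : X) → TangentSpace (mI n) x}
    (hW : FrameOn D O k W) {x₀ : X} {y : Model n} (hy : y ∈ (chartAt (Model n) x₀).target)
    (hyO : (chartAt (Model n) x₀).symm y ∈ O) :
    LinearIndependent ℂ (fun i => Vc x₀ (W i) y) :=
  pure_li (L := tcc ((chartAt (Model n) x₀).symm y) x₀ ((chartAt (Model n) x₀).symm y))
    (tcc_cancel' (symm_mem hy)) (fun i => W i _) (hW.indep _ hyO)

/-- an involutive subbundle is locally, in a chart, the kernel of an analytic projection with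
involutive kernel. -/
theorem exists_local_proj {D : Dist n X} {U : Set X} (hD : IsSub D U) (hbr : BrSub D D U)
    {x₀ : X} (hx₀ : x₀ ∈ U) :
    ∃ (V : Set (Model n)) (Q : Model n → Model n →L[ℂ] Model n), IsOpen V ∧
      V ⊆ (chartAt (Model n) x₀).target ∧ chartAt (Model n) x₀ x₀ ∈ V ∧
      (∀ y ∈ V, (chartAt (Model n) x₀).symm y ∈ U) ∧
      AnalyticOnNhd ℂ Q V ∧ (∀ y ∈ V, ∀ v, Q y (Q y v) = Q y v) ∧
      (∀ y ∈ V, ∀ v : Model n, Q y v = 0 ↔
        (tcc x₀ ((chartAt (Model n) x₀).symm y) ((chartAt (Model n) x₀).symm y) v :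
          TangentSpace (mI n) ((chartAt (Model n) x₀).symm y)) ∈
            D ((chartAt (Model n) x₀).symm y)) ∧
      (∀ y ∈ V, ∀ u v, Q y u = 0 → Q y v = 0 → fderiv ℂ Q y u v = fderiv ℂ Q y v u) ∧
      (∀ x ∈ V, Q x = 0 → ∀ y ∈ V, Q y = 0) := by
  obtain ⟨O, k, W, hxO, hOU, hW⟩ := hD.2 x₀ hx₀
  have hU1 : IsOpen ((chartAt (Model n) x₀).target ∩ (chartAt (Model n) x₀).symm ⁻¹' O) :=
    (chartAt (Model n) x₀).isOpen_inter_preimage_symm hW.isOpen
  set U1 := (chartAt (Model n) x₀).target ∩ (chartAt (Model n) x₀).symm ⁻¹' O with hU1def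
  have hc0 : chartAt (Model n) x₀ x₀ ∈ U1 := by
    refine ⟨(chartAt (Model n) x₀).map_source (mem_chart_source _ x₀), ?_⟩
    rw [mem_preimage, (chartAt (Model n) x₀).left_inv (mem_chart_source _ x₀)]
    exact hxO
  have he : ∀ i, AnalyticOnNhd ℂ (Vc x₀ (W i)) U1 := by
    intro i
    have h1 : ContDiffOn ℂ ω (Vc x₀ (W i)) U1 := Vc_contDiffOn hW.isOpen (hW.hol i)
    intro y hy
    exact (h1.contDiffAt (hU1.mem_nhds hy)).analyticAt
  have hli : LinearIndependent ℂ (fun i => Vc x₀ (W i) (chartAt (Model n) x₀ x₀)) :=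
    linearIndependent_Vc hW hc0.1 hc0.2
  have hbr' : ∀ i j, ∀ y ∈ U1, lieBracket ℂ (Vc x₀ (W i)) (Vc x₀ (W j)) y ∈
      Submodule.span ℂ (range fun i => Vc x₀ (W i) y) := by
    intro i j y hy
    rw [mem_span_Vc hW hy.1 hy.2]
    have h1 := mlieBracket_chart (n := n) hy.1 (holField_mdiff hW.isOpen (hW.hol i) hy.2)
      (holField_mdiff hW.isOpen (hW.hol j) hy.2)
    have h2 : tcc x₀ ((chartAt (Model n) x₀).symm y) ((chartAt (Model n) x₀).symm y)
        (lieBracket ℂ (Vc x₀ (W i)) (Vc x₀ (W j)) y) =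
        mlieBracket (mI n) (W i) (W j) ((chartAt (Model n) x₀).symm y) := by
      rw [← h1]
      exact tcc_cancel' (symm_mem hy.1) _
    have hmem : ∀ i, ∀ x ∈ O, W i x ∈ D x := by
      intro i x hx
      rw [← hW.span x hx]
      exact Submodule.subset_span ⟨i, rfl⟩
    have h3 := hbr O hW.isOpen hOU (W i) (W j) (hW.hol i) (hW.hol j) (hmem i) (hmem j) _ hy.2
    exact (congrArg (fun w : Model n => w ∈ (D ((chartAt (Model n) x₀).symm y) :
      Submodule ℂ (Model n))) h2).mpr h3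
  obtain ⟨V, hVU, hVo, hV0, Q, hQ, hid, hker, hinv, hz⟩ :=
    exists_proj_of_frame hU1 hc0 he hli hbr'
  refine ⟨V, Q, hVo, fun y hy => (hVU hy).1, hV0, fun y hy => hOU (hVU hy).2, hQ, hid, ?_,
    hinv, hz⟩
  intro y hy v
  rw [hker y hy v, mem_span_Vc hW (hVU hy).1 (hVU hy).2]

omit [IsManifold (mI n) ω X] in
/-- derivative of the two-point map -/
theorem mfderiv_twoPoint {f : E × ℂ → X} {s : E} {z₁ z₂ : ℂ}
    (h1 : MDifferentiableAt 𝓘(ℂ, E × ℂ) (mI n) f (s, z₁))
    (h2 : MDifferentiableAt 𝓘(ℂ, E × ℂ) (mI n) f (s, z₂)) (ξ : E) (a₁ a₂ : ℂ) :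
    mfderiv 𝓘(ℂ, E × ℂ × ℂ) ((mI n).prod (mI n))
      (fun p : E × ℂ × ℂ => (f (p.1, p.2.1), f (p.1, p.2.2))) (s, z₁, z₂)
        ((ξ, a₁, a₂) : E × ℂ × ℂ) =
      ((mfderiv 𝓘(ℂ, E × ℂ) (mI n) f (s, z₁) ((ξ, a₁) : E × ℂ) : Model n),
        (mfderiv 𝓘(ℂ, E × ℂ) (mI n) f (s, z₂) ((ξ, a₂) : E × ℂ) : Model n)) := by
  let L1 : E × ℂ × ℂ →L[ℂ] E × ℂ := (ContinuousLinearMap.fst ℂ E (ℂ × ℂ)).prod
    ((ContinuousLinearMap.fst ℂ ℂ ℂ).comp (ContinuousLinearMap.snd ℂ E (ℂ × ℂ)))
  let L2 : E × ℂ × ℂ →L[ℂ] E × ℂ := (ContinuousLinearMap.fst ℂ E (ℂ × ℂ)).prod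
    ((ContinuousLinearMap.snd ℂ ℂ ℂ).comp (ContinuousLinearMap.snd ℂ E (ℂ × ℂ)))
  have e1 : HasMFDerivAt 𝓘(ℂ, E × ℂ × ℂ) 𝓘(ℂ, E × ℂ) (fun p : E × ℂ × ℂ => (p.1, p.2.1))
      (s, z₁, z₂) L1 := L1.hasFDerivAt.hasMFDerivAt
  have e2 : HasMFDerivAt 𝓘(ℂ, E × ℂ × ℂ) 𝓘(ℂ, E × ℂ) (fun p : E × ℂ × ℂ => (p.1, p.2.2))
      (s, z₁, z₂) L2 := L2.hasFDerivAt.hasMFDerivAt
  have g1 : HasMFDerivAt 𝓘(ℂ, E × ℂ) (mI n) f (s, z₁) (mfderiv 𝓘(ℂ, E × ℂ) (mI n) f (s, z₁)) :=
    h1.hasMFDerivAt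
  have g2 : HasMFDerivAt 𝓘(ℂ, E × ℂ) (mI n) f (s, z₂) (mfderiv 𝓘(ℂ, E × ℂ) (mI n) f (s, z₂)) :=
    h2.hasMFDerivAt
  have k1 := HasMFDerivAt.comp (s, z₁, z₂) g1 e1
  have k2 := HasMFDerivAt.comp (s, z₁, z₂) g2 e2
  have k := k1.prodMk k2
  have := k.mfderiv
  exact congrArg (fun T : E × ℂ × ℂ →L[ℂ] Model n × Model n => T (ξ, a₁, a₂)) this

/-- (M1) an involutive subbundle which contains the velocities of a family of curves whose two-point
map is densely submersive is the whole tangent bundle on a nonempty open set. -/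
theorem endGame_dist {D : Dist n X} {U : Set X} (hD : IsSub D U) (hbr : BrSub D D U)
    {O : Set (E × ℂ)} (hO : IsOpen O) (hOne : O.Nonempty) {f : E × ℂ → X}
    (hf : ContMDiffOn 𝓘(ℂ, E × ℂ) (mI n) ω f O) (hfU : ∀ p ∈ O, f p ∈ U)
    (hvel : ∀ p ∈ O, (mfderiv 𝓘(ℂ, E × ℂ) (mI n) f p ((0, 1) : E × ℂ)) ∈ D (f p))
    (h2 : ∀ V : Set (E × ℂ × ℂ), IsOpen V → V.Nonempty →
      (∀ p ∈ V, (p.1, p.2.1) ∈ O ∧ (p.1, p.2.2) ∈ O) →
      ∃ p ∈ V, Function.Surjective (mfderiv 𝓘(ℂ, E × ℂ × ℂ) ((mI n).prod (mI n))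
        (fun p : E × ℂ × ℂ => (f (p.1, p.2.1), f (p.1, p.2.2))) p)) :
    ∃ U' : Set X, U' ⊆ U ∧ IsOpen U' ∧ U'.Nonempty ∧ ∀ x ∈ U', D x = ⊤ := by
  obtain ⟨p₀, hp₀⟩ := hOne
  set x₀ := f p₀ with hx₀
  obtain ⟨V, Q, hVo, hVt, hV0, hVU, hQ, hid, hker, hinv, hz⟩ := exists_local_proj hD hbr (hfU p₀ hp₀)
  -- the open set where the family is in the chart
  have hcV : IsOpen ((chartAt (Model n) x₀).source ∩ (chartAt (Model n) x₀) ⁻¹' V) :=
    (chartAt (Model n) x₀).isOpen_inter_preimage hVo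
  have hO2 : IsOpen (O ∩ f ⁻¹' ((chartAt (Model n) x₀).source ∩ (chartAt (Model n) x₀) ⁻¹' V)) :=
    hf.continuousOn.isOpen_inter_preimage hO hcV
  set O2 := O ∩ f ⁻¹' ((chartAt (Model n) x₀).source ∩ (chartAt (Model n) x₀) ⁻¹' V) with hO2def
  have hp2 : p₀ ∈ O2 := ⟨hp₀, mem_chart_source _ x₀, hV0⟩
  have hfd : ∀ p ∈ O, MDifferentiableAt 𝓘(ℂ, E × ℂ) (mI n) f p := fun p hp =>
    (hf.contMDiffAt (hO.mem_nhds hp)).mdifferentiableAt (by simp)
  set F : E × ℂ → Model n := fun q => chartAt (Model n) x₀ (f q) with hF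
  have hFan : AnalyticOnNhd ℂ F O2 := by
    intro p hp
    have h3 : ContMDiffAt (mI n) 𝓘(ℂ, Model n) ω (chartAt (Model n) x₀) (f p) :=
      (contMDiffOn_chart (I := mI n) (n := ω) (x := x₀)).contMDiffAt
        ((chartAt (Model n) x₀).open_source.mem_nhds hp.2.1)
    have h4 : ContMDiffAt 𝓘(ℂ, E × ℂ) 𝓘(ℂ, Model n) ω F p :=
      ContMDiffAt.comp p h3 (hf.contMDiffAt (hO.mem_nhds hp.1))
    exact (contMDiffAt_iff_contDiffAt.mp h4).analyticAt
  have hFV : MapsTo F O2 V := fun p hp => hp.2.2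
  have hFder : ∀ p ∈ O2, ∀ v : E × ℂ, fderiv ℂ F p v =
      tcc (f p) x₀ (f p) (mfderiv 𝓘(ℂ, E × ℂ) (mI n) f p v) := fun p hp v =>
    fderiv_chart_comp (hfd p hp.1) hp.2.1 v
  have hsymmF : ∀ p ∈ O2, (chartAt (Model n) x₀).symm (F p) = f p := fun p hp =>
    (chartAt (Model n) x₀).left_inv hp.2.1
  have hker' : ∀ x ∈ (chartAt (Model n) x₀).source, chartAt (Model n) x₀ x ∈ V → ∀ v : Model n,
      (Q (chartAt (Model n) x₀ x) v = 0 ↔ (tcc x₀ x x v : TangentSpace (mI n) x) ∈ D x) := by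
    intro x hx hxV v
    have h3 := hker _ hxV v
    rwa [(chartAt (Model n) x₀).left_inv hx] at h3
  have hhor : ∀ p ∈ O2, Q (F p) (fderiv ℂ F p (0, 1)) = 0 := by
    intro p hp
    rw [hFder p hp]
    refine (hker' (f p) hp.2.1 hp.2.2 _).mpr ?_
    have h3 := hvel p hp.1
    have h4 : tcc x₀ (f p) (f p) (tcc (f p) x₀ (f p)
        (mfderiv 𝓘(ℂ, E × ℂ) (mI n) f p ((0, 1) : E × ℂ))) =
        (mfderiv 𝓘(ℂ, E × ℂ) (mI n) f p ((0, 1) : E × ℂ)) := tcc_cancel' hp.2.1 _
    exact (congrArg (fun w : Model n => w ∈ (D (f p) : Submodule ℂ (Model n))) h4).mpr h3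
  -- a product neighbourhood
  obtain ⟨ε, hε, hball⟩ := Metric.isOpen_iff.mp hO2 p₀ hp2
  have hprod : ∀ s ∈ Metric.ball p₀.1 ε, ∀ z ∈ Metric.ball p₀.2 ε, (s, z) ∈ O2 := by
    intro s hs z hz'
    refine hball ?_
    rw [← ball_prod_same]
    exact ⟨hs, hz'⟩
  obtain ⟨p, hpV, hsurj⟩ := h2 (Metric.ball p₀.1 ε ×ˢ (Metric.ball p₀.2 ε ×ˢ Metric.ball p₀.2 ε))
    (Metric.isOpen_ball.prod (Metric.isOpen_ball.prod Metric.isOpen_ball))
    ⟨(p₀.1, p₀.2, p₀.2), ⟨Metric.mem_ball_self hε, Metric.mem_ball_self hε,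
      Metric.mem_ball_self hε⟩⟩
    (fun p hp => ⟨(hprod _ hp.1 _ hp.2.1).1, (hprod _ hp.1 _ hp.2.2).1⟩)
  obtain ⟨s, z₁, z₂⟩ := p
  obtain ⟨hs, hz₁, hz₂⟩ := hpV
  simp only at hs hz₁ hz₂
  have hm1 := hprod s hs z₁ hz₁
  have hm2 := hprod s hs z₂ hz₂
  have hQ0 : Q (F (s, z₁)) = 0 := by
    refine proj_eq_zero hQ hid hinv hO2 hFan hFV hhor (s := s) (B := Metric.ball p₀.2 ε)
      Metric.isOpen_ball (convex_ball _ _).isPreconnected (fun z hz' => hprod s hs z hz')
      hz₁ hz₂ ?_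
    intro w
    obtain ⟨q, hq⟩ := hsurj ((tcc x₀ (f (s, z₁)) (f (s, z₁)) w : Model n), (0 : Model n))
    obtain ⟨ξ, a, a'⟩ := q
    have h5 := mfderiv_twoPoint (hfd _ hm1.1) (hfd _ hm2.1) ξ a a'
    have h6 := h5.symm.trans hq
    have h7 : mfderiv 𝓘(ℂ, E × ℂ) (mI n) f (s, z₁) ((ξ, a) : E × ℂ) =
      tcc x₀ (f (s, z₁)) (f (s, z₁)) w := congrArg Prod.fst h6
    have h8 : mfderiv 𝓘(ℂ, E × ℂ) (mI n) f (s, z₂) ((ξ, a') : E × ℂ) =
      (0 : Model n) := congrArg Prod.snd h6
    refine ⟨ξ, a, a', ?_, ?_⟩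
    · rw [hFder _ hm1]
      exact (congrArg (fun v : Model n => tcc (f (s, z₁)) x₀ (f (s, z₁)) v) h7).trans
        (tcc_cancel hm1.2.1 w)
    · rw [hFder _ hm2]
      exact (congrArg (fun v : Model n => tcc (f (s, z₂)) x₀ (f (s, z₂)) v) h8).trans
        (map_zero _)
  have hQV : ∀ y ∈ V, Q y = 0 := hz _ (hFV hm1) hQ0
  refine ⟨(chartAt (Model n) x₀).source ∩ (chartAt (Model n) x₀) ⁻¹' V, ?_, hcV,
    ⟨x₀, mem_chart_source _ x₀, hV0⟩, ?_⟩
  · intro x hx
    have h3 := hVU _ hx.2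
    rwa [(chartAt (Model n) x₀).left_inv hx.1] at h3
  · intro x hx
    rw [eq_top_iff]
    intro v _
    have h3 := (hker' x hx.1 hx.2 (tcc x x₀ x v)).mp (by rw [hQV _ hx.2]; rfl)
    have h4 : tcc x₀ x x (tcc x x₀ x v) = v := tcc_cancel' hx.1 _
    exact (congrArg (fun w : Model n => w ∈ (D x : Submodule ℂ (Model n))) h4).mp h3

omit [IsManifold (mI n) ω X] in
/-- the velocity of a member of a family is the partial derivative of the family -/
theorem vel_family {f : E → Bool → ℂ → X} {b : Bool} {p : E × ℂ}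
    (hf : MDifferentiableAt 𝓘(ℂ, E × ℂ) (mI n) (fun q : E × ℂ => f q.1 b q.2) p) :
    (vel n (f p.1 b) p.2 : Model n) =
      mfderiv 𝓘(ℂ, E × ℂ) (mI n) (fun q : E × ℂ => f q.1 b q.2) p ((0, 1) : E × ℂ) := by
  obtain ⟨s, z⟩ := p
  have e1 : HasMFDerivAt 𝓘(ℂ, ℂ) 𝓘(ℂ, E × ℂ) (fun t : ℂ => ((s, t) : E × ℂ)) z
      (ContinuousLinearMap.inr ℂ E ℂ) := by
    have : HasFDerivAt (fun t : ℂ => ((s, t) : E × ℂ)) (ContinuousLinearMap.inr ℂ E ℂ) z := by
      have h1 := (hasFDerivAt_const s z : HasFDerivAt (fun _ : ℂ => s) (0 : ℂ →L[ℂ] E) z).prodMk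
        (hasFDerivAt_id z)
      exact h1
    exact this.hasMFDerivAt
  have k1 := HasMFDerivAt.comp z hf.hasMFDerivAt e1
  have h2 := k1.mfderiv
  have h3 := congrArg (fun T : ℂ →L[ℂ] Model n => T (1 : ℂ)) h2
  exact h3

end Crest.Agent.R266.EndGame

namespace Crest.Agent.R266.F404

open St4

/-- END GAME -/
theorem end_holds (n : ℕ) (X : Type) [TopologicalSpace X] [T2Space X] [SecondCountableTopology X]
    [CompactSpace X] [ConnectedSpace X] [ChartedSpace (Model n) X] [IsManifold (mI n) ω X] :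
    St_end n X := by
  intro D U hD hbr E _ _ _ M f hM hf h2 O hO hOne hOM hOU
  have hmem : ∀ p ∈ O, p ∈ M ×ˢ (univ : Set ℂ) := fun p hp => hOM hp
  have hfO : ContMDiffOn 𝓘(ℂ, E × ℂ) (mI n) ω (fun q : E × ℂ => f q.1 false q.2) O :=
    (hf.hol false).mono hOM
  obtain ⟨U', hU'U, hU'o, hU'n, hU't⟩ := EndGame.endGame_dist (f := fun q : E × ℂ => f q.1 false q.2)
    hD hbr hO hOne hfO (fun p hp => (hOU p hp).1) (fun p hp => by
      have h1 : (vel n (f p.1 false) p.2 : Model n) = _ := EndGame.vel_family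
        ((hfO.contMDiffAt (hO.mem_nhds hp)).mdifferentiableAt (by simp))
      exact (congrArg (fun w : Model n => w ∈ (D (f p.1 false p.2) : Submodule ℂ (Model n)))
        h1).mp (hOU p hp).2)
    (fun V hV hVne hVO => by
      obtain ⟨p, hp, hs⟩ := h2 V hV hVne (fun p hp => ⟨(hmem _ (hVO p hp).1).1, trivial, trivial⟩)
      exact ⟨p, hp, hs⟩)
  exact ⟨U', hU'o, hU'n, hU'U, hU't⟩

end Crest.Agent.R266.F404
end

-- ▼ part R266/A/Ident
section

/-!
R266 / A / Ident (helper35): the identity theorem node of S0404.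
-/

set_option autoImplicit false

open scoped Manifold ContDiff Topology
open Set Metric Filter
open Crest.AlgGeometry.HolSplit

namespace Crest.Agent.R266.F404

theorem ident_holds (n : ℕ) (X : Type) [TopologicalSpace X] [T2Space X]
    [SecondCountableTopology X] [CompactSpace X] [ConnectedSpace X] [ChartedSpace (Model n) X]
    [IsManifold (mI n) ω X] : St_ident n X := fun S _U hU hne =>
  ⟨fun h => firstIntegrable_of_open S hU hne h, fun h => secondIntegrable_of_open S hU hne h⟩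

end Crest.Agent.R266.F404
end

-- ▼ part R266/A/Pre404
section

/-!
R266 / A / Pre404 (helper744): S0404 from `St_minGood` alone.
-/

set_option autoImplicit false

open scoped Manifold ContDiff Topology
open Set Metric Filter
open Crest.AlgGeometry.HolSplit
open Crest.Agent.R266.St4

namespace Crest.Agent.R266.F404

theorem pre404 {n : ℕ} {X : Type} [TopologicalSpace X] [T2Space X] [SecondCountableTopology X]
    [CompactSpace X] [ConnectedSpace X] [ChartedSpace (Model n) X] [IsManifold (mI n) ω X]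
    (hproj : IsProjective n X) (hrc : IsRationallyConnected n X)
    (hm : St_minGood n X) (S : Splitting n X) :
    S.FirstIntegrable ∧ S.SecondIntegrable :=
  main404 hproj hrc (one_holds n X) (two_holds n X) (three_holds n X) hm (end_holds n X)
    (ident_holds n X) S

end Crest.Agent.R266.F404
end

-- ▼ part R266/A/DensSec
section

/-!
R266 / A / DensSec (helper290): node `St_dens` of Step 4 of S0404.
-/

set_option autoImplicit false

open scoped Manifold ContDiff Topology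
open Set Filter
open Crest.AlgGeometry.HolSplit

namespace Crest.Agent.R266.St4.DS

section pure

variable {F : Type*} [NormedAddCommGroup F] [NormedSpace ℂ F] [FiniteDimensional ℂ F]

/-- analytic families of vectors are near a point either always dependent or independent outside
the point -/
theorem dep_or_indep {k : ℕ} {e : Fin k → ℂ → F} {z : ℂ} (he : ∀ i, AnalyticAt ℂ (e i) z) :
    (∀ᶠ y in 𝓝 z, ¬ LinearIndependent ℂ (fun i => e i y)) ∨
      (∀ᶠ y in 𝓝[≠] z, LinearIndependent ℂ (fun i => e i y)) := by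
  have hev : ∀ᶠ y in 𝓝 z, ∀ i, AnalyticAt ℂ (e i) y :=
    eventually_all.2 fun i => (he i).eventually_analyticAt
  obtain ⟨r, hr, hball⟩ := Metric.eventually_nhds_iff_ball.1 hev
  by_cases h : ∃ y₁ ∈ Metric.ball z r, LinearIndependent ℂ (fun i => e i y₁)
  · right
    obtain ⟨y₁, hy₁, hind⟩ := h
    obtain ⟨L, hL⟩ : ∃ L : F →L[ℂ] (Fin k → ℂ), ∀ i, L (e i y₁) = Pi.single i 1 := by
      obtain ⟨g, hg⟩ :=
        (Fintype.linearCombination ℂ (fun i => e i y₁)).exists_leftInverse_of_injective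
        (by
          rw [LinearMap.ker_eq_bot']
          intro m hm
          rw [Fintype.linearCombination_apply] at hm
          funext i
          exact Fintype.linearIndependent_iff.1 hind m hm i)
      refine ⟨LinearMap.toContinuousLinearMap g, fun i => ?_⟩
      have := congrArg (fun T => T (Pi.single i 1)) hg
      simpa [Fintype.linearCombination_apply] using this
    let m : ℂ → ℂ := fun y => (Matrix.of fun i j => L (e i y) j).det
    have hm : AnalyticOnNhd ℂ m (Metric.ball z r) := by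
      intro y hy
      have h1 : ∀ i j, AnalyticAt ℂ (fun y => L (e i y) j) y := by
        intro i j
        have h2 : AnalyticAt ℂ (fun y => L (e i y)) y := (L.analyticAt _).comp (hball y hy i)
        exact ((ContinuousLinearMap.proj (R := ℂ) (φ := fun _ : Fin k => ℂ) j).analyticAt _).comp h2
      have h3 : m = fun y => ∑ σ : Equiv.Perm (Fin k), ((Equiv.Perm.sign σ : ℤ) : ℂ) *
          ∏ i, L (e (σ i) y) i := by
        funext y
        simp only [m, Matrix.det_apply', Matrix.of_apply]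
      rw [h3]
      refine Finset.analyticAt_fun_sum _ fun σ _ => ?_
      exact analyticAt_const.mul (Finset.analyticAt_fun_prod _ fun i _ => h1 _ _)
    have hm1 : m y₁ ≠ 0 := by
      have : (Matrix.of fun i j => L (e i y₁) j) = (1 : Matrix (Fin k) (Fin k) ℂ) := by
        ext i j
        rw [Matrix.of_apply, hL, Matrix.one_apply, Pi.single_apply]
        simp only [eq_comm]
      simp only [m]
      rw [this, Matrix.det_one]
      exact one_ne_zero
    have hz : z ∈ Metric.ball z r := Metric.mem_ball_self hr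
    rcases (hm z hz).eventually_eq_zero_or_eventually_ne_zero with h0 | h0
    · exact absurd (hm.eqOn_zero_of_preconnected_of_eventuallyEq_zero
        (convex_ball z r).isPreconnected hz h0 hy₁) hm1
    · filter_upwards [h0] with y hy
      have h1 := Matrix.linearIndependent_rows_of_det_ne_zero hy
      have h2 : LinearIndependent ℂ (fun i => L (e i y)) := h1
      exact LinearIndependent.of_comp L.toLinearMap h2
  · left
    push Not at h
    filter_upwards [Metric.ball_mem_nhds z hr] with y hy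
    exact h y hy

/-- clopen argument -/
theorem eventually_global {p : ℂ → Prop}
    (h : ∀ z, (∀ᶠ y in 𝓝 z, ¬ p y) ∨ (∀ᶠ y in 𝓝[≠] z, p y)) :
    (∀ z, ∀ᶠ y in 𝓝 z, ¬ p y) ∨ (∀ z, ∀ᶠ y in 𝓝[≠] z, p y) := by
  have hclopen : IsClopen {z : ℂ | ∀ᶠ y in 𝓝 z, ¬ p y} := by
    refine ⟨?_, ?_⟩
    · rw [← isOpen_compl_iff, isOpen_iff_mem_nhds]
      intro z hz
      have hz' : ∀ᶠ y in 𝓝[≠] z, p y := (h z).resolve_left hz
      rw [eventually_nhdsWithin_iff] at hz'
      filter_upwards [eventually_eventually_nhds.2 hz'] with y hy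
      intro hy2
      by_cases hyz : y = z
      · rw [hyz] at hy2; exact hz hy2
      · have h3 : ∀ᶠ w in 𝓝 y, w ∈ ({z}ᶜ : Set ℂ) := isOpen_compl_singleton.mem_nhds hyz
        have h4 : ∀ᶠ w in 𝓝 y, False := by
          filter_upwards [hy, h3, hy2] with w a b c
          exact c (a b)
        exact h4.exists.elim fun _ h => h
    · rw [isOpen_iff_mem_nhds]
      intro z hz
      exact eventually_eventually_nhds.2 hz
  rcases isClopen_iff.1 hclopen with h0 | h0
  · right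
    intro z
    refine (h z).resolve_left fun hz => ?_
    have : z ∈ {z : ℂ | ∀ᶠ y in 𝓝 z, ¬ p y} := hz
    rw [h0] at this
    exact this
  · left
    intro z
    have : z ∈ {z : ℂ | ∀ᶠ y in 𝓝 z, ¬ p y} := by rw [h0]; trivial
    exact this

end pure

variable (n : ℕ) (X : Type) [TopologicalSpace X] [ChartedSpace (Model n) X]
  [IsManifold (mI n) ω X]

variable {n X} in
theorem dep_or_indep_sec {g : ℂ → X} {k : ℕ} {t : Fin k → ℂ → Model n} {z : ℂ}
    (hg : ContMDiffAt 𝓘(ℂ, ℂ) (mI n) ω g z) (ht : ∀ i, HolAt n g (t i) z) :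
    (∀ᶠ y in 𝓝 z, ¬ LinearIndependent ℂ (fun i => t i y)) ∨
      (∀ᶠ y in 𝓝[≠] z, LinearIndependent ℂ (fun i => t i y)) := by
  have hsrc := curve_source hg
  rcases dep_or_indep (fun i => (ht i).coord) with h | h
  · left
    filter_upwards [h, hsrc] with y hy hs
    rwa [tcc_linInd hs] at hy
  · right
    filter_upwards [h, hsrc.filter_mono nhdsWithin_le_nhds] with y hy hs
    rwa [tcc_linInd hs] at hy

theorem _root_.Crest.Agent.R266.St4.dens_holds [T2Space X] : St_dens n X := by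
  intro g k t hg ht hex
  -- near each point
  have hloc : ∀ b z, (∀ᶠ y in 𝓝 z, ¬ LinearIndependent ℂ (fun i => t i b y)) ∨
      (∀ᶠ y in 𝓝[≠] z, LinearIndependent ℂ (fun i => t i b y)) :=
    fun b z => dep_or_indep_sec (hg.hol b).contMDiffAt (fun i => (ht i).hol b z)
  have hglob := fun b => eventually_global (hloc b)
  -- transfer of dependence to the other chart
  have htrans : ∀ b, (∀ z, ∀ᶠ y in 𝓝 z, ¬ LinearIndependent ℂ (fun i => t i b y)) →
      ∀ z, ∀ᶠ y in 𝓝 z, ¬ LinearIndependent ℂ (fun i => t i (!b) y) := by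
    intro b hb
    refine (hglob (!b)).resolve_right fun h => ?_
    have h1 := h 1
    rw [eventually_nhdsWithin_iff] at h1
    have h2 : ∀ᶠ y : ℂ in 𝓝 1, y ≠ 0 := isOpen_ne.mem_nhds one_ne_zero
    have h3 : ∃ᶠ y : ℂ in 𝓝[≠] 1, True := by simp [Filter.frequently_true_iff_neBot]; infer_instance
    have h4 : ∀ᶠ y : ℂ in 𝓝[≠] 1, False := by
      rw [eventually_nhdsWithin_iff]
      filter_upwards [h1, h2] with y hy hy0 hy1
      have h5 := hy hy1
      have h6 : (fun i => t i (!b) y) = fun i => t i b y⁻¹ :=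
        funext fun i => (ht i).glue b y hy0
      rw [h6] at h5
      exact (hb y⁻¹).self_of_nhds h5
    exact (h3.and_eventually h4).exists.elim fun _ h => h.2
  have hgood : ∀ b, ∀ z, ∀ᶠ y in 𝓝[≠] z, LinearIndependent ℂ (fun i => t i b y) := by
    intro b
    refine (hglob b).resolve_left fun hb => ?_
    have hb' := htrans b hb
    obtain ⟨b₁, z₁, h₁⟩ := hex
    have : ∀ z, ∀ᶠ y in 𝓝 z, ¬ LinearIndependent ℂ (fun i => t i b₁ y) := by
      cases b <;> cases b₁
      · exact hb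
      · exact hb'
      · exact hb'
      · exact hb
    exact (this z₁).self_of_nhds h₁
  intro b z
  rw [mem_closure_iff_nhds]
  intro U hU
  have h1 := (hgood b z).and (mem_nhdsWithin_of_mem_nhds hU : U ∈ 𝓝[≠] z)
  obtain ⟨y, hy1, hy2⟩ := h1.exists
  exact ⟨y, hy2, hy1⟩

end Crest.Agent.R266.St4.DS
end

-- ▼ part R266/A/DistLoc
section

/-!
# Row 266, S0404 Step 4: analytic distributions on open sets of a normed space (local part)

A distribution `K : E → Submodule ℂ E` is analytic at `y₀` if near `y₀` it is the range of an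
analytic idempotent `Π`.
-/

set_option autoImplicit false
open scoped Topology
open Set Filter Module

namespace Crest.Agent.R266.DL

noncomputable section

variable {E : Type*} [NormedAddCommGroup E] [NormedSpace ℂ E]

/-- near `y₀` the distribution `K` is the range of the analytic idempotent `Pi` -/
structure IsProjAt (K : E → Submodule ℂ E) (Pi : E → E →L[ℂ] E) (y₀ : E) : Prop where
  an : AnalyticAt ℂ Pi y₀
  idem : ∀ᶠ y in 𝓝 y₀, ∀ v, Pi y (Pi y v) = Pi y v
  mem : ∀ᶠ y in 𝓝 y₀, ∀ v, v ∈ K y ↔ Pi y v = v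

/-- analytic distributions -/
def ADist (K : E → Submodule ℂ E) (y₀ : E) : Prop := ∃ Pi : E → E →L[ℂ] E, IsProjAt K Pi y₀

lemma IsProjAt.idem_self {K : E → Submodule ℂ E} {Pi : E → E →L[ℂ] E} {y₀ : E}
    (h : IsProjAt K Pi y₀) (v : E) : Pi y₀ (Pi y₀ v) = Pi y₀ v := h.idem.self_of_nhds v

lemma IsProjAt.mem_self {K : E → Submodule ℂ E} {Pi : E → E →L[ℂ] E} {y₀ : E}
    (h : IsProjAt K Pi y₀) (v : E) : v ∈ K y₀ ↔ Pi y₀ v = v := h.mem.self_of_nhds v

lemma IsProjAt.apply_mem {K : E → Submodule ℂ E} {Pi : E → E →L[ℂ] E} {y₀ : E}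
    (h : IsProjAt K Pi y₀) (v : E) : Pi y₀ v ∈ K y₀ := (h.mem_self _).2 (h.idem_self v)


lemma IsProjAt.eventually [CompleteSpace E] {K : E → Submodule ℂ E} {Pi : E → E →L[ℂ] E} {y₀ : E}
    (h : IsProjAt K Pi y₀) : ∀ᶠ y in 𝓝 y₀, IsProjAt K Pi y := by
  filter_upwards [h.an.eventually_analyticAt, h.idem.eventually_nhds, h.mem.eventually_nhds]
    with y h1 h2 h3
  exact ⟨h1, h2, h3⟩

lemma ADist.eventually [CompleteSpace E] {K : E → Submodule ℂ E} {y₀ : E}
    (h : ADist K y₀) : ∀ᶠ y in 𝓝 y₀, ADist K y := by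
  obtain ⟨Pi, h⟩ := h
  filter_upwards [h.eventually] with y hy
  exact ⟨Pi, hy⟩

lemma IsProjAt.congr {K K' : E → Submodule ℂ E} {Pi : E → E →L[ℂ] E} {y₀ : E}
    (h : IsProjAt K Pi y₀) (hK : ∀ᶠ y in 𝓝 y₀, K' y = K y) : IsProjAt K' Pi y₀ := by
  refine ⟨h.an, h.idem, ?_⟩
  filter_upwards [h.mem, hK] with y h1 h2 v
  rw [h2]; exact h1 v

lemma ADist.congr {K K' : E → Submodule ℂ E} {y₀ : E}
    (h : ADist K y₀) (hK : ∀ᶠ y in 𝓝 y₀, K' y = K y) : ADist K' y₀ := by
  obtain ⟨Pi, h⟩ := h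
  exact ⟨Pi, h.congr hK⟩

/-! ### tensor -/

/-- the integrability tensor of an idempotent -/
def th (Pi : E → E →L[ℂ] E) (y : E) (u v : E) : E := fderiv ℂ Pi y u v - fderiv ℂ Pi y v u

lemma th_add_left (Pi : E → E →L[ℂ] E) (y : E) (u u' v : E) :
    th Pi y (u + u') v = th Pi y u v + th Pi y u' v := by
  simp only [th, map_add, add_apply]; abel

lemma th_smul_left (Pi : E → E →L[ℂ] E) (y : E) (c : ℂ) (u v : E) :
    th Pi y (c • u) v = c • th Pi y u v := by
  simp only [th, map_smul, smul_apply, smul_sub]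


lemma th_add_right (Pi : E → E →L[ℂ] E) (y : E) (u v v' : E) :
    th Pi y u (v + v') = th Pi y u v + th Pi y u v' := by
  simp only [th, map_add, add_apply]; abel

lemma th_smul_right (Pi : E → E →L[ℂ] E) (y : E) (c : ℂ) (u v : E) :
    th Pi y u (c • v) = c • th Pi y u v := by
  simp only [th, map_smul, smul_apply, smul_sub]




/-! ### families of linear maps: kernels -/

section Kernel

variable {G : Type*} [NormedAddCommGroup G] [NormedSpace ℂ G]

lemma analyticAt_comp {A : Type*} [NormedAddCommGroup A] [NormedSpace ℂ A]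
    {E₁ E₂ E₃ : Type*} [NormedAddCommGroup E₁] [NormedSpace ℂ E₁] [NormedAddCommGroup E₂]
    [NormedSpace ℂ E₂] [NormedAddCommGroup E₃] [NormedSpace ℂ E₃]
    {f : A → E₂ →L[ℂ] E₃} {g : A → E₁ →L[ℂ] E₂} {x : A} (hf : AnalyticAt ℂ f x)
    (hg : AnalyticAt ℂ g x) : AnalyticAt ℂ (fun y => (f y).comp (g y)) x :=
  ((ContinuousLinearMap.compL ℂ E₁ E₂ E₃).analyticAt_bilinear (f x, g x)).comp₂ hf hg

lemma analyticAt_apply {A : Type*} [NormedAddCommGroup A] [NormedSpace ℂ A]
    {E₁ E₂ : Type*} [NormedAddCommGroup E₁] [NormedSpace ℂ E₁] [NormedAddCommGroup E₂]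
    [NormedSpace ℂ E₂]
    {f : A → E₁ →L[ℂ] E₂} {g : A → E₁} {x : A} (hf : AnalyticAt ℂ f x)
    (hg : AnalyticAt ℂ g x) : AnalyticAt ℂ (fun y => f y (g y)) x :=
  ((ContinuousLinearMap.id ℂ (E₁ →L[ℂ] E₂)).analyticAt_bilinear (f x, g x)).comp₂ hf hg







end Kernel

/-! ### frames -/

/-- the linear map `a ↦ ∑ a i • e i` -/
def frameMap {k : ℕ} (e : Fin k → E) : (Fin k → ℂ) →L[ℂ] E :=
  ∑ i, (ContinuousLinearMap.proj (R := ℂ) (φ := fun _ : Fin k => ℂ) i).smulRight (e i)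

lemma frameMap_apply {k : ℕ} (e : Fin k → E) (a : Fin k → ℂ) :
    frameMap e a = ∑ i, a i • e i := by
  simp [frameMap]

lemma analyticAt_frameMap {A : Type*} [NormedAddCommGroup A] [NormedSpace ℂ A] {k : ℕ}
    {e : Fin k → A → E} {y₀ : A} (he : ∀ i, AnalyticAt ℂ (e i) y₀) :
    AnalyticAt ℂ (fun y => frameMap fun i => e i y) y₀ := by
  have : (fun y => frameMap fun i => e i y) = fun y => ∑ i,
      (ContinuousLinearMap.smulRightL ℂ (Fin k → ℂ) E
        (ContinuousLinearMap.proj (R := ℂ) (φ := fun _ : Fin k => ℂ) i)) (e i y) := by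
    funext y
    ext a
    simp [frameMap]
  rw [this]
  exact Finset.analyticAt_fun_sum _ fun i _ => (ContinuousLinearMap.analyticAt _ _).comp (he i)

/-- the span of an analytic frame is an analytic distribution -/
theorem adist_of_frame [FiniteDimensional ℂ E] {K : E → Submodule ℂ E} {y₀ : E} {k : ℕ} {e : Fin k → E → E}
    (he : ∀ i, AnalyticAt ℂ (e i) y₀) (hind : LinearIndependent ℂ fun i => e i y₀)
    (hK : ∀ᶠ y in 𝓝 y₀, K y = Submodule.span ℂ (Set.range fun i => e i y)) : ADist K y₀ := by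
  classical
  set T : E → (Fin k → ℂ) →L[ℂ] E := fun y => frameMap fun i => e i y with hT
  have hTa : AnalyticAt ℂ T y₀ := analyticAt_frameMap he
  have hker : LinearMap.ker (T y₀ : (Fin k → ℂ) →ₗ[ℂ] E) = ⊥ := by
    rw [LinearMap.ker_eq_bot']
    intro a ha
    have h1 : ∑ i, a i • e i y₀ = 0 := by
      rw [← frameMap_apply]; exact ha
    funext i
    exact (Fintype.linearIndependent_iff.1 hind) a h1 i
  obtain ⟨L₀, hL₀⟩ : ∃ L₀ : E →L[ℂ] (Fin k → ℂ), L₀.comp (T y₀) = ContinuousLinearMap.id ℂ _ := by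
    obtain ⟨F, hF⟩ := LinearMap.exists_leftInverse_of_injective _ hker
    refine ⟨LinearMap.toContinuousLinearMap F, ?_⟩
    ext1 a
    exact congrArg (fun f : (Fin k → ℂ) →ₗ[ℂ] (Fin k → ℂ) => f a) hF
  set M : E → (Fin k → ℂ) →L[ℂ] (Fin k → ℂ) := fun y => L₀.comp (T y) with hM
  have hMa : AnalyticAt ℂ M y₀ := analyticAt_comp analyticAt_const hTa
  have hu : IsUnit (M y₀) := by
    have : M y₀ = 1 := hL₀
    rw [this]; exact isUnit_one
  have hMi : AnalyticAt ℂ (fun y => Ring.inverse (M y)) y₀ := by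
    obtain ⟨u, hu⟩ := hu
    have h4 : AnalyticAt ℂ Ring.inverse (M y₀) := by
      rw [← hu]; exact analyticAt_inverse u
    exact h4.comp hMa
  refine ⟨fun y => (T y).comp ((Ring.inverse (M y)).comp L₀), analyticAt_comp hTa
    (analyticAt_comp hMi analyticAt_const), ?_, ?_⟩
  · filter_upwards [hMa.continuousAt.eventually (Units.isOpen.mem_nhds hu)] with y hy v
    have e1 := Ring.inverse_mul_cancel _ hy
    have e2 : ∀ a, Ring.inverse (M y) (L₀ (T y a)) = a := fun a =>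
      congrArg (fun f : (Fin k → ℂ) →L[ℂ] (Fin k → ℂ) => f a) e1
    simp only [ContinuousLinearMap.comp_apply]
    rw [e2]
  · filter_upwards [hMa.continuousAt.eventually (Units.isOpen.mem_nhds hu), hK] with y hy hKy v
    have e1 := Ring.inverse_mul_cancel _ hy
    have e2 : ∀ a, Ring.inverse (M y) (L₀ (T y a)) = a := fun a =>
      congrArg (fun f : (Fin k → ℂ) →L[ℂ] (Fin k → ℂ) => f a) e1
    have hmem : v ∈ K y ↔ ∃ a, T y a = v := by
      rw [hKy, Submodule.mem_span_range_iff_exists_fun]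
      simp only [hT, frameMap_apply]
    rw [hmem]
    simp only [ContinuousLinearMap.comp_apply]
    constructor
    · rintro ⟨a, rfl⟩
      rw [e2]
    · intro h
      exact ⟨_, h⟩

/-! ### dimension of analytic distributions, sums -/




/-! ### descent: the kernel of the tensor inside `F` -/




/-- the tensor as a linear map in the first argument -/
def Dd (PK : E → E →L[ℂ] E) (y : E) : E →L[ℂ] (E →L[ℂ] E) :=
  (((ContinuousLinearMap.compL ℂ E E E).flip (PK y)).comp (fderiv ℂ PK y)) -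
      ((fderiv ℂ PK y).comp (PK y)).flip

lemma Dd_apply (PK : E → E →L[ℂ] E) (y u v : E) : Dd PK y u v = th PK y u (PK y v) := rfl

lemma analyticAt_Dd [CompleteSpace E] {PK : E → E →L[ℂ] E} {y₀ : E}
    (hK : AnalyticAt ℂ PK y₀) : AnalyticAt ℂ (Dd PK) y₀ := by
  have hd : AnalyticAt ℂ (fderiv ℂ PK) y₀ := hK.fderiv
  have h1 : AnalyticAt ℂ (fun y => (ContinuousLinearMap.compL ℂ E E E).flip (PK y)) y₀ :=
    (((ContinuousLinearMap.compL ℂ E E E).flip).analyticAt _).comp hK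
  have h2 : AnalyticAt ℂ (fun y => ((fderiv ℂ PK y).comp (PK y)).flip) y₀ := by
    have h3 : AnalyticAt ℂ (fun y => (fderiv ℂ PK y).comp (PK y)) y₀ := analyticAt_comp hd hK
    exact ((ContinuousLinearMap.flipₗᵢ ℂ E E E).toContinuousLinearEquiv.toContinuousLinearMap.analyticAt _).comp h3
  exact (analyticAt_comp h1 hd).sub h2


end

end Crest.Agent.R266.DL
end

-- ▼ part R266/A/Bracket

/-!
R266 / A / Bracket (helper854): nodes St_bracket and St_isKer of Step 4 of S0404.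
-/

set_option autoImplicit false

open scoped Manifold ContDiff Topology
open Set Filter
open Crest.AlgGeometry.HolSplit
open Crest.Agent.R266.DL

namespace Crest.Agent.R266.St4

variable {n : ℕ} {X : Type} [TopologicalSpace X] [ChartedSpace (Model n) X]
  [IsManifold (mI n) ω X]

noncomputable section

/-- the distribution `K` in the chart at `x₀` -/
def KcB (x₀ : X) (K : Dist n X) (y : Model n) : Submodule ℂ (Model n) :=
  Submodule.comap (M₂ := Model n)
    (tcc x₀ ((chartAt (Model n) x₀).symm y) ((chartAt (Model n) x₀).symm y)).toLinearMap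
    (K ((chartAt (Model n) x₀).symm y))

lemma mem_Kc {x₀ : X} {K : Dist n X} {y : Model n} {v : Model n} :
    v ∈ KcB x₀ K y ↔ (tcc x₀ ((chartAt (Model n) x₀).symm y) ((chartAt (Model n) x₀).symm y) v :
      TangentSpace (mI n) ((chartAt (Model n) x₀).symm y)) ∈ K ((chartAt (Model n) x₀).symm y) :=
  Iff.rfl

lemma tcc_mem_Kc {x₀ z : X} (hz : z ∈ (chartAt (Model n) x₀).source) {K : Dist n X}
    {u : Model n} : tcc z x₀ z u ∈ KcB x₀ K (chartAt (Model n) x₀ z) ↔
      (u : TangentSpace (mI n) z) ∈ K z := by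
  rw [mem_Kc, (chartAt (Model n) x₀).left_inv hz]
  have := tcc_cancel' hz u
  rw [this]

lemma tcc_symm_mem {x₀ z : X} (hz : z ∈ (chartAt (Model n) x₀).source) {K : Dist n X}
    {v : Model n} : v ∈ KcB x₀ K (chartAt (Model n) x₀ z) ↔
      (tcc x₀ z z v : TangentSpace (mI n) z) ∈ K z := by
  rw [mem_Kc, (chartAt (Model n) x₀).left_inv hz]

lemma Vc_mem_Kc {x₀ : X} {K : Dist n X} {y : Model n}
    (hy : y ∈ (chartAt (Model n) x₀).target) (V : (x : X) → TangentSpace (mI n) x) :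
    Vc x₀ V y ∈ KcB x₀ K y ↔ V ((chartAt (Model n) x₀).symm y) ∈ K ((chartAt (Model n) x₀).symm y) := by
  have := tcc_mem_Kc (symm_mem hy) (K := K) (u := V ((chartAt (Model n) x₀).symm y))
  rw [(chartAt (Model n) x₀).right_inv hy] at this
  exact this

omit [IsManifold (mI n) ω X] [TopologicalSpace X] [ChartedSpace (Model n) X] in
lemma span_aux {E : Type*} [AddCommGroup E] [Module ℂ E] (A B : E →ₗ[ℂ] E) (hAB : ∀ v, A (B v) = v)
    (hBA : ∀ v, B (A v) = v) {k : ℕ} (e : Fin k → E) (v : E) :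
    B v ∈ Submodule.span ℂ (range e) ↔ v ∈ Submodule.span ℂ (range fun i => A (e i)) := by
  rw [Submodule.mem_span_range_iff_exists_fun, Submodule.mem_span_range_iff_exists_fun]
  constructor
  · rintro ⟨c, hc⟩
    refine ⟨c, ?_⟩
    rw [← hAB v, ← hc, map_sum]
    simp
  · rintro ⟨c, rfl⟩
    refine ⟨c, ?_⟩
    rw [map_sum]
    simp [hBA]

/-- a subbundle is an analytic distribution in every chart -/
theorem adist_Kc {K : Dist n X} {U : Set X} (hK : IsSub K U) {x₀ x : X} (hxU : x ∈ U)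
    (hx : x ∈ (chartAt (Model n) x₀).source) : ADist (KcB x₀ K) (chartAt (Model n) x₀ x) := by
  obtain ⟨O, k, V, hxO, hOU, hF⟩ := hK.2 x hxU
  set y₀ := chartAt (Model n) x₀ x with hy₀
  have hy₀t : y₀ ∈ (chartAt (Model n) x₀).target := (chartAt (Model n) x₀).map_source hx
  have hsy : (chartAt (Model n) x₀).symm y₀ = x := (chartAt (Model n) x₀).left_inv hx
  have ho : IsOpen ((chartAt (Model n) x₀).target ∩ (chartAt (Model n) x₀).symm ⁻¹' O) :=
    (chartAt (Model n) x₀).isOpen_inter_preimage_symm hF.isOpen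
  have hmem : y₀ ∈ (chartAt (Model n) x₀).target ∩ (chartAt (Model n) x₀).symm ⁻¹' O :=
    ⟨hy₀t, by rw [mem_preimage, hsy]; exact hxO⟩
  refine adist_of_frame (k := k) (e := fun i => Vc x₀ (V i)) ?_ ?_ ?_
  · intro i
    have h := Vc_contDiffOn (x₀ := x₀) hF.isOpen (hF.hol i)
    have h2 := h.contDiffAt (ho.mem_nhds hmem)
    rw [← contDiffWithinAt_univ, contDiffWithinAt_omega_iff_analyticWithinAt,
      analyticWithinAt_univ] at h2
    exact h2
  · have h1 := hF.indep x hxO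
    have h2 : (fun i => Vc x₀ (V i) y₀) = fun i => tcc x x₀ x (V i x) := by
      funext i
      simp only [Vc]
      rw [hsy]
    rw [h2]
    exact (tcc_linInd hx _).2 h1
  · filter_upwards [ho.mem_nhds hmem] with y hy
    have hys := symm_mem hy.1
    have hsp := hF.span _ hy.2
    ext v
    rw [mem_Kc, ← hsp]
    exact span_aux
      (tcc ((chartAt (Model n) x₀).symm y) x₀ ((chartAt (Model n) x₀).symm y)).toLinearMap
      (tcc x₀ ((chartAt (Model n) x₀).symm y) ((chartAt (Model n) x₀).symm y)).toLinearMap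
      (fun v => tcc_cancel hys v) (fun v => tcc_cancel' hys v)
      (fun i => (V i ((chartAt (Model n) x₀).symm y) : Model n)) v

/-- extension of a vector of a distribution to a local holomorphic field -/
theorem exists_ext {K : Dist n X} {x₀ x : X} (hx : x ∈ (chartAt (Model n) x₀).source)
    {Pi : Model n → Model n →L[ℂ] Model n} (h : IsProjAt (KcB x₀ K) Pi (chartAt (Model n) x₀ x))
    {u : Model n} (hu : (u : TangentSpace (mI n) x) ∈ K x) :
    ∃ (O : Set X) (V : (x : X) → TangentSpace (mI n) x), IsOpen O ∧ x ∈ O ∧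
      O ⊆ (chartAt (Model n) x₀).source ∧ IsHolVectorFieldOn O V ∧ (∀ z ∈ O, V z ∈ K z) ∧
      V x = u := by
  have hev := (h.an.eventually_analyticAt).and (h.idem.and h.mem)
  obtain ⟨N, hN, hNo, hyN⟩ := _root_.eventually_nhds_iff.1 hev
  set U : (x : X) → TangentSpace (mI n) x := fun z =>
    tcc x₀ z z (Pi (chartAt (Model n) x₀ z) (tcc x x₀ x u)) with hU
  have hO : IsOpen ((chartAt (Model n) x₀).source ∩ (chartAt (Model n) x₀) ⁻¹' N) :=
    (chartAt (Model n) x₀).isOpen_inter_preimage hNo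
  refine ⟨(chartAt (Model n) x₀).source ∩ (chartAt (Model n) x₀) ⁻¹' N, U, hO, ⟨hx, hyN⟩,
    inter_subset_left, ?_, ?_, ?_⟩
  · refine holField_of_Vc (x₀ := x₀) hO inter_subset_left ?_
    intro y hy
    have hyt := hy.1
    have hyN' : y ∈ N := by
      have := hy.2.2
      rwa [mem_preimage, (chartAt (Model n) x₀).right_inv hyt] at this
    have h1 : AnalyticAt ℂ (fun y => Pi y (tcc x x₀ x u)) y :=
      analyticAt_apply (hN y hyN').1 analyticAt_const
    refine (h1.contDiffAt.contDiffWithinAt).congr_of_eventuallyEq ?_ ?_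
    · filter_upwards [self_mem_nhdsWithin] with y' hy'
      simp only [Vc, hU]
      rw [tcc_cancel (symm_mem hy'.1), (chartAt (Model n) x₀).right_inv hy'.1]
    · simp only [Vc, hU]
      rw [tcc_cancel (symm_mem hyt), (chartAt (Model n) x₀).right_inv hyt]
  · intro z hz
    have h2 := hN _ hz.2
    have h3 : Pi (chartAt (Model n) x₀ z) (tcc x x₀ x u) ∈ KcB x₀ K (chartAt (Model n) x₀ z) :=
      (h2.2.2 _).2 (h2.2.1 _)
    exact (tcc_symm_mem hz.1).1 h3
  · have h4 : tcc x x₀ x u ∈ KcB x₀ K (chartAt (Model n) x₀ x) := (tcc_mem_Kc hx).2 hu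
    have h5 := (h.mem_self _).1 h4
    simp only [hU]
    rw [h5]
    exact tcc_cancel' hx u

/-- the bracket of fields in `K`, in any chart -/
theorem bracket_formula {K : Dist n X} {x₀ x : X} (hx : x ∈ (chartAt (Model n) x₀).source)
    {Pi : Model n → Model n →L[ℂ] Model n} (h : IsProjAt (KcB x₀ K) Pi (chartAt (Model n) x₀ x))
    {O : Set X} {V W : (x : X) → TangentSpace (mI n) x} (hO : IsOpen O) (hxO : x ∈ O)
    (hV : IsHolVectorFieldOn O V) (hW : IsHolVectorFieldOn O W) (hVK : ∀ z ∈ O, V z ∈ K z)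
    (hWK : ∀ z ∈ O, W z ∈ K z) :
    tcc x x₀ x (VectorField.mlieBracket (mI n) V W x) -
      Pi (chartAt (Model n) x₀ x) (tcc x x₀ x (VectorField.mlieBracket (mI n) V W x)) =
      th Pi (chartAt (Model n) x₀ x) (tcc x x₀ x (V x)) (tcc x x₀ x (W x)) := by
  set y := chartAt (Model n) x₀ x with hy
  have hyt : y ∈ (chartAt (Model n) x₀).target := (chartAt (Model n) x₀).map_source hx
  have hsy : (chartAt (Model n) x₀).symm y = x := (chartAt (Model n) x₀).left_inv hx
  have hsO : (chartAt (Model n) x₀).symm y ∈ O := by rw [hsy]; exact hxO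
  have hev : ∀ᶠ z in 𝓝 y, z ∈ (chartAt (Model n) x₀).target ∧ (chartAt (Model n) x₀).symm z ∈ O := by
    have ho : IsOpen ((chartAt (Model n) x₀).target ∩ (chartAt (Model n) x₀).symm ⁻¹' O) :=
      (chartAt (Model n) x₀).isOpen_inter_preimage_symm hO
    exact ho.mem_nhds ⟨hyt, hsO⟩
  have hfix : ∀ (V : (x : X) → TangentSpace (mI n) x), (∀ z ∈ O, V z ∈ K z) →
      ∀ᶠ z in 𝓝 y, Pi z (Vc x₀ V z) = Vc x₀ V z := by
    intro V hVK
    filter_upwards [hev, h.mem] with z hz hm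
    exact (hm _).1 ((Vc_mem_Kc hz.1 V).2 (hVK _ hz.2))
  have h1 := bracket_image (P := Pi) (V := Vc x₀ V) (W := Vc x₀ W) (y := y)
    h.an.differentiableAt (Vc_differentiableAt hO hV hyt hsO) (Vc_differentiableAt hO hW hyt hsO)
    (hfix V hVK) (hfix W hWK)
  have h2 := mlieBracket_chart (x₀ := x₀) hyt (V := V) (W := W)
    (holField_mdiff hO hV hsO) (holField_mdiff hO hW hsO)
  rw [← h2] at h1
  simp only [Vc] at h1
  rw [hsy] at h1
  exact h1

/-- an idempotent for `K` in the chart at `x` -/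
def PiK (K : Dist n X) (x : X) : Model n → Model n →L[ℂ] Model n := by
  classical exact
    if h : ADist (KcB x K) (chartAt (Model n) x x) then h.choose else 0

lemma PiK_spec {K : Dist n X} {U : Set X} (hK : IsSub K U) {x : X} (hx : x ∈ U) :
    IsProjAt (KcB x K) (PiK K x) (chartAt (Model n) x x) := by
  classical
  have h : ADist (KcB x K) (chartAt (Model n) x x) := adist_Kc hK hx (mem_chart_source _ x)
  unfold PiK
  rw [dif_pos h]
  exact h.choose_spec

/-- the bracket tensor of `K` -/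
def Bt (K : Dist n X) (x : X) (u v : Model n) : Model n :=
  th (PiK K x) (chartAt (Model n) x x) u v

/-- the Lie bracket, with values in the model space -/
def mlb (V W : (x : X) → TangentSpace (mI n) x) (x : X) : Model n :=
  VectorField.mlieBracket (mI n) V W x

omit [IsManifold (mI n) ω X] in
lemma th_lin_left (Pi : Model n → Model n →L[ℂ] Model n) (y u u' v : Model n) (c : ℂ) :
    th Pi y (u + c • u') v - th Pi y u v - c • th Pi y u' v = 0 := by
  rw [th_add_left, th_smul_left]; abel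

omit [IsManifold (mI n) ω X] in
lemma th_lin_right (Pi : Model n → Model n →L[ℂ] Model n) (y u v v' : Model n) (c : ℂ) :
    th Pi y u (v + c • v') - th Pi y u v - c • th Pi y u v' = 0 := by
  rw [th_add_right, th_smul_right]; abel

/-- the bracket of fields in `K` is represented by the tensor -/
theorem bracket_own {K : Dist n X} {U : Set X} (hK : IsSub K U) {x : X} (hx : x ∈ U)
    {O : Set X} {V W : (x : X) → TangentSpace (mI n) x} (hO : IsOpen O) (hxO : x ∈ O)
    (hV : IsHolVectorFieldOn O V) (hW : IsHolVectorFieldOn O W) (hVK : ∀ z ∈ O, V z ∈ K z)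
    (hWK : ∀ z ∈ O, W z ∈ K z) :
    mlb V W x - PiK K x (chartAt (Model n) x x) (mlb V W x) = Bt K x (V x) (W x) := by
  have h1 := bracket_formula (mem_chart_source (Model n) x) (PiK_spec hK hx) hO hxO hV hW hVK hWK
  have hs : ∀ v : Model n, tcc x x x v = v := fun v => tcc_self (mem_chart_source _ x) v
  have e1 := hs (mlb V W x)
  have e2 := hs (V x : Model n)
  have e3 := hs (W x : Model n)
  change tcc x x x (mlb V W x) - PiK K x (chartAt (Model n) x x) (tcc x x x (mlb V W x)) =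
    th (PiK K x) (chartAt (Model n) x x) (tcc x x x (V x)) (tcc x x x (W x)) at h1
  rw [e1, e2, e3] at h1
  exact h1

/-- key lemma: in any chart the tensor is given by the idempotent of that chart, modulo `K` -/
theorem Bt_chart {K : Dist n X} {U : Set X} (hK : IsSub K U) {x : X} (hxU : x ∈ U)
    {x₀ : X} (hx : x ∈ (chartAt (Model n) x₀).source)
    {Pi : Model n → Model n →L[ℂ] Model n} (h : IsProjAt (KcB x₀ K) Pi (chartAt (Model n) x₀ x))
    {u v : Model n} (hu : (u : TangentSpace (mI n) x) ∈ K x)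
    (hv : (v : TangentSpace (mI n) x) ∈ K x) :
    tcc x x₀ x (Bt K x u v) - Pi (chartAt (Model n) x₀ x) (tcc x x₀ x (Bt K x u v)) =
      th Pi (chartAt (Model n) x₀ x) (tcc x x₀ x u) (tcc x x₀ x v) := by
  obtain ⟨O₁, V, hO₁, hx₁, hs₁, hV, hVK, hVx⟩ := exists_ext hx h hu
  obtain ⟨O₂, W, hO₂, hx₂, hs₂, hW, hWK, hWx⟩ := exists_ext hx h hv
  have hO := hO₁.inter hO₂
  have hV' : IsHolVectorFieldOn (O₁ ∩ O₂) V := ContMDiffOn.mono hV inter_subset_left
  have hW' : IsHolVectorFieldOn (O₁ ∩ O₂) W := ContMDiffOn.mono hW inter_subset_right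
  have h1 := bracket_formula hx h hO ⟨hx₁, hx₂⟩ hV' hW' (fun z hz => hVK z hz.1)
    (fun z hz => hWK z hz.2)
  have h2 := bracket_own hK hxU hO ⟨hx₁, hx₂⟩ hV' hW' (fun z hz => hVK z hz.1)
    (fun z hz => hWK z hz.2)
  have h3 : PiK K x (chartAt (Model n) x x) (mlb V W x) ∈
      KcB x K (chartAt (Model n) x x) := (PiK_spec hK hxU).apply_mem _
  have h4 : ((PiK K x (chartAt (Model n) x x) (mlb V W x) :
      Model n) : TangentSpace (mI n) x) ∈ K x := by
    have h5 := (tcc_symm_mem (mem_chart_source _ x)).1 h3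
    rw [tcc_self (mem_chart_source _ x)] at h5
    exact h5
  have h6 := (tcc_mem_Kc hx).2 h4
  have h7 := (h.mem_self _).1 h6
  rw [hVx, hWx] at h1 h2
  change tcc x x₀ x (mlb V W x) - Pi (chartAt (Model n) x₀ x) (tcc x x₀ x (mlb V W x)) = _ at h1
  rw [← h1, ← h2, map_sub, map_sub, h7]
  abel

theorem Bt_mem_iff {K : Dist n X} {U : Set X} (hK : IsSub K U) {x : X} (hxU : x ∈ U)
    {x₀ : X} (hx : x ∈ (chartAt (Model n) x₀).source)
    {Pi : Model n → Model n →L[ℂ] Model n} (h : IsProjAt (KcB x₀ K) Pi (chartAt (Model n) x₀ x))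
    {u v : Model n} (hu : (u : TangentSpace (mI n) x) ∈ K x)
    (hv : (v : TangentSpace (mI n) x) ∈ K x) :
    (Bt K x u v : TangentSpace (mI n) x) ∈ K x ↔
      th Pi (chartAt (Model n) x₀ x) (tcc x x₀ x u) (tcc x x₀ x v) = 0 := by
  have h1 := Bt_chart hK hxU hx h hu hv
  rw [← tcc_mem_Kc hx, h.mem_self, ← h1, sub_eq_zero]
  exact eq_comm

/-- if the tensor value lies in `K` it vanishes -/
theorem Bt_eq_zero {K : Dist n X} {U : Set X} (hK : IsSub K U) {x : X} (hxU : x ∈ U)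
    {u v : Model n} (hu : (u : TangentSpace (mI n) x) ∈ K x)
    (hv : (v : TangentSpace (mI n) x) ∈ K x) (h : (Bt K x u v : TangentSpace (mI n) x) ∈ K x) :
    Bt K x u v = 0 := by
  have h1 := (Bt_mem_iff hK hxU (mem_chart_source _ x) (PiK_spec hK hxU) hu hv).1 h
  rw [tcc_self (mem_chart_source _ x), tcc_self (mem_chart_source _ x)] at h1
  exact h1

theorem kerSet_eq {F K : Dist n X} {U : Set X} (hF : IsSub F U) (hK : IsSub K U)
    (hFK : ∀ x ∈ U, F x ≤ K x) {x : X} (hx : x ∈ U) :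
    kerSet F K x = {u : TangentSpace (mI n) x | u ∈ F x ∧
      ∀ v ∈ K x, (Bt K x u v : TangentSpace (mI n) x) ∈ K x} := by
  ext u
  constructor
  · rintro ⟨huF, hu⟩
    refine ⟨huF, fun v hv => ?_⟩
    obtain ⟨O₁, V, hO₁, hx₁, hs₁, hV, hVF, hVx⟩ :=
      exists_ext (mem_chart_source (Model n) x) (PiK_spec hF hx) (u := u) huF
    obtain ⟨O₂, W, hO₂, hx₂, hs₂, hW, hWK, hWx⟩ :=
      exists_ext (mem_chart_source (Model n) x) (PiK_spec hK hx) (u := v) hv
    have hO := (hO₁.inter hO₂).inter hK.1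
    have hV' : IsHolVectorFieldOn (O₁ ∩ O₂ ∩ U) V := ContMDiffOn.mono hV
      (inter_subset_left.trans inter_subset_left)
    have hW' : IsHolVectorFieldOn (O₁ ∩ O₂ ∩ U) W := ContMDiffOn.mono hW
      (inter_subset_left.trans inter_subset_right)
    have hb := hu (O₁ ∩ O₂ ∩ U) V W hO ⟨⟨hx₁, hx₂⟩, hx⟩ hV' hW' (fun y hy => hVF y hy.1.1)
      (fun y hy => hWK y hy.1.2) hVx
    have h2 := bracket_own hK hx hO ⟨⟨hx₁, hx₂⟩, hx⟩ hV' hW'
      (fun y hy => hFK y hy.2 (hVF y hy.1.1)) (fun y hy => hWK y hy.1.2)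
    have h3 : PiK K x (chartAt (Model n) x x) (mlb V W x) = mlb V W x := by
      have h4 : mlb V W x ∈ KcB x K (chartAt (Model n) x x) := by
        rw [tcc_symm_mem (mem_chart_source _ x), tcc_self (mem_chart_source _ x)]
        exact hb
      exact ((PiK_spec hK hx).mem_self _).1 h4
    rw [h3, sub_self, hVx, hWx] at h2
    rw [← h2]
    exact Submodule.zero_mem _
  · rintro ⟨huF, hu⟩
    refine ⟨huF, ?_⟩
    intro O V W hO hxO hV hW hVF hWK hVx
    have hO' := hO.inter hK.1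
    have hV' : IsHolVectorFieldOn (O ∩ U) V := ContMDiffOn.mono hV inter_subset_left
    have hW' : IsHolVectorFieldOn (O ∩ U) W := ContMDiffOn.mono hW inter_subset_left
    have h2 := bracket_own hK hx hO' ⟨hxO, hx⟩ hV' hW'
      (fun y hy => hFK y hy.2 (hVF y hy.1)) (fun y hy => hWK y hy.1)
    have h5 : Bt K x (V x) (W x) = 0 := by
      refine Bt_eq_zero hK hx (hFK x hx (hVF x hxO)) (hWK x hxO) ?_
      have := hu (W x) (hWK x hxO)
      rw [← hVx] at this
      exact this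
    rw [h5, sub_eq_zero] at h2
    have h6 : mlb V W x ∈ KcB x K (chartAt (Model n) x x) := by
      rw [(PiK_spec hK hx).mem_self]
      exact h2.symm
    rw [tcc_symm_mem (mem_chart_source _ x), tcc_self (mem_chart_source _ x)] at h6
    exact h6

/-- chart coordinates of a holomorphic curve -/
lemma curve_chart {g : ℂ → X} {z : ℂ} (h : ContMDiffAt 𝓘(ℂ, ℂ) (mI n) ω g z) :
    AnalyticAt ℂ (fun t => chartAt (Model n) (g z) (g t)) z := by
  have h1 : ContMDiffAt (mI n) 𝓘(ℂ, Model n) ω (chartAt (Model n) (g z)) (g z) :=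
    (contMDiffOn_chart (I := mI n) (n := ω) (x := g z)).contMDiffAt
      ((chartAt (Model n) (g z)).open_source.mem_nhds (mem_chart_source _ _))
  have h2 := h1.comp z h
  rw [contMDiffAt_iff_contDiffAt, ← contDiffWithinAt_univ,
    contDiffWithinAt_omega_iff_analyticWithinAt, analyticWithinAt_univ] at h2
  exact h2

theorem bracket_holds (n : ℕ) (X : Type) [TopologicalSpace X] [T2Space X]
    [ChartedSpace (Model n) X] [IsManifold (mI n) ω X] : St_bracket n X := by
  intro F K U hF hK hFK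
  refine ⟨fun x u v => Bt K x u v, fun x hx => kerSet_eq hF hK hFK hx, ?_, ?_⟩
  · intro x hx u hu u' hu' v hv v' hv' c
    constructor
    · have h := th_lin_left (PiK K x) (chartAt (Model n) x x) u u' v c
      change (th (PiK K x) (chartAt (Model n) x x) (u + c • u') v -
        th (PiK K x) (chartAt (Model n) x x) u v - c • th (PiK K x) (chartAt (Model n) x x) u' v :
        TangentSpace (mI n) x) ∈ K x
      refine (congrArg (fun w : TangentSpace (mI n) x => w ∈ K x) h).mpr ?_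
      exact Submodule.zero_mem (K x)
    · have h := th_lin_right (PiK K x) (chartAt (Model n) x x) u v v' c
      change (th (PiK K x) (chartAt (Model n) x x) u (v + c • v') -
        th (PiK K x) (chartAt (Model n) x x) u v - c • th (PiK K x) (chartAt (Model n) x x) u v' :
        TangentSpace (mI n) x) ∈ K x
      refine (congrArg (fun w : TangentSpace (mI n) x => w ∈ K x) h).mpr ?_
      exact Submodule.zero_mem (K x)
  · intro g s t z hgU hs ht hsF htK
    set Pi := PiK K (g z) with hPi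
    have hP := PiK_spec hK hgU
    have hcur := hs.curve
    have hγ := curve_chart hcur
    refine ⟨fun y => tcc (g z) (g y) (g y) (th Pi (chartAt (Model n) (g z) (g y))
      (tcc (g y) (g z) (g y) (s y)) (tcc (g y) (g z) (g y) (t y))), ?_, ?_⟩
    · rw [holAt_iff]
      refine ⟨hcur, ?_⟩
      have h1 : AnalyticAt ℂ (fun y => th Pi (chartAt (Model n) (g z) (g y))
          (tcc (g y) (g z) (g y) (s y)) (tcc (g y) (g z) (g y) (t y))) z := by
        have hd : AnalyticAt ℂ (fun y => fderiv ℂ Pi (chartAt (Model n) (g z) (g y))) z :=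
          AnalyticAt.comp (g := fderiv ℂ Pi) (hP.an.fderiv) hγ
        exact (analyticAt_apply (analyticAt_apply hd hs.coord) ht.coord).sub
          (analyticAt_apply (analyticAt_apply hd ht.coord) hs.coord)
      refine h1.congr ?_
      filter_upwards [curve_source hcur] with y hy
      rw [tcc_cancel hy]
    · have hev : ∀ᶠ y in 𝓝 z, IsProjAt (KcB (g z) K) Pi (chartAt (Model n) (g z) (g y)) :=
        hγ.continuousAt.eventually hP.eventually
      have hU : ∀ᶠ y in 𝓝 z, g y ∈ U := hcur.continuousAt.preimage_mem_nhds (hK.1.mem_nhds hgU)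
      filter_upwards [curve_source hcur, hev, hU, hsF, htK] with y hy1 hy2 hy3 hy4 hy5
      have h1 := Bt_chart hK hy3 hy1 hy2 (hFK _ hy3 hy4) hy5
      rw [← tcc_mem_Kc hy1, map_sub, tcc_cancel hy1, ← h1]
      have h2 : tcc (g y) (g z) (g y) (Bt K (g y) (s y) (t y)) -
          Pi (chartAt (Model n) (g z) (g y)) (tcc (g y) (g z) (g y) (Bt K (g y) (s y) (t y))) -
          tcc (g y) (g z) (g y) (Bt K (g y) (s y) (t y)) =
          - Pi (chartAt (Model n) (g z) (g y)) (tcc (g y) (g z) (g y) (Bt K (g y) (s y) (t y))) := by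
        abel
      rw [h2]
      exact Submodule.neg_mem _ (hy2.apply_mem _)

lemma th_zero_left (Pi : Model n → Model n →L[ℂ] Model n) (y v : Model n) :
    th Pi y 0 v = 0 := by
  simp [th]

/-- `kerSet` is a linear subspace -/
theorem kerD_coe {F K : Dist n X} {U : Set X} (hF : IsSub F U) (hK : IsSub K U)
    (hFK : ∀ x ∈ U, F x ≤ K x) {x : X} (hx : x ∈ U) :
    (kerD F K x : Set (TangentSpace (mI n) x)) = kerSet F K x := by
  have he := kerSet_eq hF hK hFK hx
  let M : Submodule ℂ (TangentSpace (mI n) x) :=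
    { carrier := kerSet F K x
      zero_mem' := by
        rw [he]
        refine ⟨Submodule.zero_mem _, fun v hv => ?_⟩
        have h := th_zero_left (PiK K x) (chartAt (Model n) x x) v
        refine (congrArg (fun w : TangentSpace (mI n) x => w ∈ K x) h).mpr ?_
        exact Submodule.zero_mem (K x)
      add_mem' := by
        intro a b ha hb
        rw [he] at ha hb ⊢
        refine ⟨Submodule.add_mem _ ha.1 hb.1, fun v hv => ?_⟩
        have h := th_add_left (PiK K x) (chartAt (Model n) x x) a b v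
        refine (congrArg (fun w : TangentSpace (mI n) x => w ∈ K x) h).mpr ?_
        exact Submodule.add_mem (K x) (ha.2 v hv) (hb.2 v hv)
      smul_mem' := by
        intro c a ha
        rw [he] at ha ⊢
        refine ⟨Submodule.smul_mem _ c ha.1, fun v hv => ?_⟩
        have h := th_smul_left (PiK K x) (chartAt (Model n) x x) c a v
        refine (congrArg (fun w : TangentSpace (mI n) x => w ∈ K x) h).mpr ?_
        exact Submodule.smul_mem (K x) c (ha.2 v hv) }
  have h2 : kerD F K x = M := Submodule.span_eq M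
  rw [h2]
  rfl

/-- membership in the kernel of the tensor, in any chart -/
theorem mem_kerD_iff {F K : Dist n X} {U : Set X} (hF : IsSub F U) (hK : IsSub K U)
    (hFK : ∀ x ∈ U, F x ≤ K x) {x : X} (hxU : x ∈ U) {x₀ : X}
    (hx : x ∈ (chartAt (Model n) x₀).source)
    {Pi : Model n → Model n →L[ℂ] Model n} (h : IsProjAt (KcB x₀ K) Pi (chartAt (Model n) x₀ x))
    {u : Model n} (hu : (u : TangentSpace (mI n) x) ∈ F x) :
    (u : TangentSpace (mI n) x) ∈ kerD F K x ↔
      Dd Pi (chartAt (Model n) x₀ x) (tcc x x₀ x u) = 0 := by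
  have h1 : (u : TangentSpace (mI n) x) ∈ kerD F K x ↔
      (u : TangentSpace (mI n) x) ∈ (kerD F K x : Set (TangentSpace (mI n) x)) := Iff.rfl
  rw [h1, kerD_coe hF hK hFK hxU, kerSet_eq hF hK hFK hxU]
  constructor
  · rintro ⟨-, h2⟩
    ext1 w
    rw [Dd_apply]
    have h3 : Pi (chartAt (Model n) x₀ x) w ∈ KcB x₀ K (chartAt (Model n) x₀ x) := h.apply_mem w
    have h4 := (tcc_symm_mem hx).1 h3
    have h5 := (Bt_mem_iff hK hxU hx h (hFK x hxU hu) h4).1 (h2 _ h4)
    rw [tcc_cancel hx] at h5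
    exact h5
  · intro h2
    refine ⟨hu, fun v hv => ?_⟩
    rw [Bt_mem_iff hK hxU hx h (hFK x hxU hu) hv]
    have h3 := (h.mem_self _).1 ((tcc_mem_Kc hx).2 hv)
    have h4 := congrArg (fun L : Model n →L[ℂ] Model n => L (tcc x x₀ x v)) h2
    simp only [Dd_apply] at h4
    rw [h3] at h4
    exact h4

omit [IsManifold (mI n) ω X] in
lemma sum_smul_tangent {k : ℕ} {x : X} (a : Fin k → ℂ) (V : Fin k → Model n) (T : Model n →L[ℂ] Model n) :
    T (∑ i, a i • (V i : TangentSpace (mI n) x) : TangentSpace (mI n) x) =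
      frameMap (fun i => T (V i)) a := by
  have h : (∑ i, a i • (V i : TangentSpace (mI n) x) : TangentSpace (mI n) x) =
      (∑ i, a i • V i : Model n) := rfl
  rw [frameMap_apply]
  have h2 := map_sum T (fun i => a i • V i) Finset.univ
  refine Eq.trans h2 ?_
  simp

theorem isKer_holds (n : ℕ) (X : Type) [TopologicalSpace X] [T2Space X]
    [ChartedSpace (Model n) X] [IsManifold (mI n) ω X] : St_isKer n X := by
  intro F K U hF hK hFK
  refine ⟨fun x hx => kerD_coe hF hK hFK hx, hF.1, ?_⟩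
  intro x hx
  obtain ⟨O, k, V, hxO, hOU, hFr⟩ := hF.2 x hx
  set Pi := PiK K x with hPi
  have hP := PiK_spec hK hx
  obtain ⟨N, hN, hNo, hxN⟩ := _root_.eventually_nhds_iff.1 hP.eventually
  let eqv : (Model n →L[ℂ] Model n) ≃L[ℂ] (Fin (Module.finrank ℂ (Model n →L[ℂ] Model n)) → ℂ) :=
    ContinuousLinearEquiv.ofFinrankEq (by simp)
  let Ψ : Model n → ((Fin k → ℂ) →L[ℂ] (Fin (Module.finrank ℂ (Model n →L[ℂ] Model n)) → ℂ)) :=
    fun y => (eqv : (Model n →L[ℂ] Model n) →L[ℂ] _).comp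
      ((Dd Pi y).comp (frameMap fun i => Vc x (V i) y))
  have hO' : IsOpen (O ∩ ((chartAt (Model n) x).source ∩ (chartAt (Model n) x) ⁻¹' N)) :=
    hFr.isOpen.inter ((chartAt (Model n) x).isOpen_inter_preimage hNo)
  refine ⟨O ∩ ((chartAt (Model n) x).source ∩ (chartAt (Model n) x) ⁻¹' N), k,
    Module.finrank ℂ (Model n →L[ℂ] Model n), V, fun y => Ψ (chartAt (Model n) x y),
    ⟨hxO, mem_chart_source _ x, hxN⟩, inter_subset_left.trans hOU, ?_, ?_, ?_⟩
  · exact ⟨hO', fun i => ContMDiffOn.mono (hFr.hol i) inter_subset_left,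
      fun y hy => hFr.indep y hy.1, fun y hy => hFr.span y hy.1⟩
  · intro y hy
    refine ContMDiffAt.contMDiffWithinAt ?_
    have hyt : chartAt (Model n) x y ∈ (chartAt (Model n) x).target :=
      (chartAt (Model n) x).map_source hy.2.1
    have h1 : AnalyticAt ℂ Ψ (chartAt (Model n) x y) := by
      refine analyticAt_comp analyticAt_const (analyticAt_comp (analyticAt_Dd (hN _ hy.2.2).an) ?_)
      refine analyticAt_frameMap fun i => ?_
      have h := Vc_contDiffOn (x₀ := x) hFr.isOpen (hFr.hol i)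
      have ho : IsOpen ((chartAt (Model n) x).target ∩ (chartAt (Model n) x).symm ⁻¹' O) :=
        (chartAt (Model n) x).isOpen_inter_preimage_symm hFr.isOpen
      have h2 := h.contDiffAt (ho.mem_nhds ⟨hyt, by
        rw [mem_preimage, (chartAt (Model n) x).left_inv hy.2.1]; exact hy.1⟩)
      rw [← contDiffWithinAt_univ, contDiffWithinAt_omega_iff_analyticWithinAt,
        analyticWithinAt_univ] at h2
      exact h2
    have h3 : ContMDiffAt 𝓘(ℂ, Model n)
        𝓘(ℂ, (Fin k → ℂ) →L[ℂ] (Fin (Module.finrank ℂ (Model n →L[ℂ] Model n)) → ℂ)) ω Ψ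
        (chartAt (Model n) x y) := h1.contDiffAt.contMDiffAt
    have h4 : ContMDiffAt (mI n) 𝓘(ℂ, Model n) ω (chartAt (Model n) x) y :=
      (contMDiffOn_chart (I := mI n) (n := ω) (x := x)).contMDiffAt
        ((chartAt (Model n) x).open_source.mem_nhds hy.2.1)
    exact h3.comp y h4
  · intro y hy a
    have hyU : y ∈ U := hOU hy.1
    have hu : (∑ i, a i • V i y) ∈ F y := by
      rw [← hFr.span y hy.1]
      exact Submodule.sum_mem _ fun i _ => Submodule.smul_mem _ _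
        (Submodule.subset_span ⟨i, rfl⟩)
    have h1 := mem_kerD_iff hF hK hFK hyU hy.2.1 (hN _ hy.2.2) hu
    refine Iff.trans h1 ?_
    change _ ↔ Ψ (chartAt (Model n) x y) a = 0
    have h2 : tcc y x y (∑ i, a i • V i y : TangentSpace (mI n) y) =
        frameMap (fun i => tcc y x y (V i y)) a :=
      sum_smul_tangent (x := y) a (fun i => (V i y : Model n)) (tcc y x y)
    have h3 : (fun i => tcc y x y (V i y)) = fun i => Vc x (V i) (chartAt (Model n) x y) := by
      funext i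
      simp only [Vc]
      rw [(chartAt (Model n) x).left_inv hy.2.1]
    have h4 : Ψ (chartAt (Model n) x y) a =
        eqv (Dd Pi (chartAt (Model n) x y) (tcc y x y (∑ i, a i • V i y : TangentSpace (mI n) y))) := by
      rw [h2, h3]
      rfl
    rw [h4]
    exact (map_eq_zero_iff eqv eqv.injective).symm

end

end Crest.Agent.R266.St4
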