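import Crest.Agent.R266.A.MinGood3
import Mathlib
import Crest.Prelude.Def_TangentSplitting
import Crest.Agent.R266.Chart
import Crest.Agent.R266.A.St4Defs
import Crest.Agent.R266.L3a
import Crest.Agent.R266.Sard
import Crest.Agent.R266.A.St4Coeff2
import Crest.Agent.R266.SurjDense
import Crest.Agent.R266.A.Bracket_Mg
import Crest.Agent.R266.Chart3
import Crest.Agent.R266.A.Main404
import Crest.Agent.R266.Emb
import Crest.Agent.R266.PdAn
import Crest.Agent.R266.P1PolyX

-- ▼ part R266/A/MinGood4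
section

/-! R266 / A / MinGood4 (helper576): the induction, `minGood_of_nodes`. -/

set_option autoImplicit false

open scoped Manifold ContDiff Topology
open Set Filter
open Crest.AlgGeometry.HolSplit

namespace Crest.Agent.R266.St4

variable {n : ℕ} {X : Type} [TopologicalSpace X] [T2Space X] [ChartedSpace (Model n) X]
  [IsManifold (mI n) ω X]

theorem IsSub.mono {H : Dist n X} {U U' : Set X} (h : IsSub H U) (hU' : IsOpen U')
    (hs : U' ⊆ U) : IsSub H U' := by
  refine ⟨hU', fun x hx => ?_⟩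
  obtain ⟨O, k, V, hxO, hOU, hV⟩ := h.2 x (hs hx)
  refine ⟨O ∩ U', k, V, ⟨hxO, hx⟩, inter_subset_right, ?_⟩
  exact
    { isOpen := hV.isOpen.inter hU'
      hol := fun i => ContMDiffOn.mono (hV.hol i) inter_subset_left
      indep := fun y hy => hV.indep y hy.1
      span := fun y hy => hV.span y hy.1 }

theorem BrSub.mono {F K : Dist n X} {U U' : Set X} (h : BrSub F K U) (hs : U' ⊆ U) :
    BrSub F K U' := fun O hO hOU => h O hO (hOU.trans hs)

/-- the kernel is everything iff the bracket closes -/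
theorem brSub_of_ker (N : Nodes n X) {U U' : Set X} {F K : Dist n X} (hF : IsSub F U)
    (hK : IsSub K U) (hFK : ∀ x ∈ U, toM F x ≤ toM K x) (hs : U' ⊆ U)
    (h : ∀ x ∈ U', toM (kerD F K) x = toM F x) : BrSub F K U' := by
  intro O hO hOU V W hV hW hVF hWK x hx
  have h1 := (N.isKer F K U hF hK hFK).1 x (hs (hOU hx))
  have h2 : vv V x ∈ toM (kerD F K) x := by
    rw [h x (hOU hx)]
    exact hVF x hx
  have h3 : (V x : TangentSpace (mI n) x) ∈ kerSet F K x := by
    rw [← h1]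
    exact h2
  exact h3.2 O V W hO hx hV hW hVF hWK rfl

variable {E : Type} [NormedAddCommGroup E] [NormedSpace ℂ E] [FiniteDimensional ℂ E]

theorem good_step {S : Splitting n X} {F G : Dist n X} {g : Bool → ℂ → X}
    (hF : ∀ b z, toM F (g b z) ≤ toM (E₁ S) (g b z)) (hH : Good g (HH S F))
    {m : ℕ} {s : Fin m → Bool → ℂ → Model n} (hs : ∀ i, IsSec n g (s i))
    (h : ∀ b z, LinearIndependent ℂ (fun i => s i b z) ∧
        Disjoint (toM G (g b z)) (Submodule.span ℂ (Set.range fun i => s i b z)) ∧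
        toM G (g b z) ⊔ Submodule.span ℂ (Set.range fun i => s i b z) =
          toM F (g b z)) : Good g (HH S G) := by
  obtain ⟨q, τ, hτ, hc⟩ := hH
  have hc' : ∀ b z, LinearIndependent ℂ (fun j => τ j b z) ∧
      IsCompl (toM F (g b z) ⊔ toM (E₂ S) (g b z))
        (Submodule.span ℂ (Set.range fun j => τ j b z)) := hc
  refine ⟨m + q, fun j => Sum.elim s τ (finSumFinEquiv.symm j), ?_, ?_⟩
  · intro j
    rcases h' : finSumFinEquiv.symm j with i | i
    · simp only [h', Sum.elim_inl]; exact hs i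
    · simp only [h', Sum.elim_inr]; exact hτ i
  · intro b z
    have h1 := compl_step (h b z).1 (h b z).2.1 (h b z).2.2 (hc' b z).1 (hc' b z).2
      (disjoint_E S (hF b z))
    have h2 : (fun j : Fin (m + q) => (Sum.elim s τ (finSumFinEquiv.symm j)) b z) =
        (fun j : Fin (m + q) => Sum.elim (fun i => s i b z) (fun i => τ i b z)
          (finSumFinEquiv.symm j)) := by
      funext j
      rcases finSumFinEquiv.symm j with i | i <;> rfl
    rw [← h2] at h1
    exact h1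

/-- the data after a descent with smaller rank -/
theorem DD.next {S : Splitting n X} {U : Set X} {F : Dist n X} {k : ℕ}
    {W : Set E} {g : E → Bool → ℂ → X} (D : DD S U F k W g) {G : Dist n X}
    (hGF : ∀ x, toM G x ≤ toM F x)
    {W' : Set E} {U' : Set X} {r : ℕ} (hW'o : IsOpen W') (hW'n : W'.Nonempty) (hW'W : W' ⊆ W)
    (hU'U : U' ⊆ U) (hsub : IsSub G U')
    (hrk : ∀ x ∈ U', Module.finrank ℂ (toM G x) = r)
    (hin : ∀ w ∈ W', ∀ b z, g w b z ∈ U')
    (hdec : ∀ w ∈ W', ∃ (m : ℕ) (s : Fin m → Bool → ℂ → Model n), (∀ i, IsSec n (g w) (s i)) ∧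
      (∀ b z, LinearIndependent ℂ (fun i => s i b z) ∧
        Disjoint (toM G (g w b z)) (Submodule.span ℂ (Set.range fun i => s i b z)) ∧
        toM G (g w b z) ⊔ Submodule.span ℂ (Set.range fun i => s i b z) =
          toM F (g w b z))) : DD S U' G r W' g where
  hW := hW'n
  fam := D.fam.mono hW'o hW'W
  subF := hsub
  leF := fun x hx => (hGF x).trans (D.leF x (hU'U hx))
  rk := hrk
  inU := hin
  goodH := by
    intro w hw
    obtain ⟨m, s, hs, h⟩ := hdec w hw
    exact good_step (fun b z => D.leF _ (D.inU w (hW'W hw) b z)) (D.goodH w (hW'W hw)) hs h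
  goodE := fun w hw => D.goodE w (hW'W hw)
  span := fun w hw => D.span w (hW'W hw)

/-- restriction of the data -/
theorem DD.restrict {S : Splitting n X} {U : Set X} {F : Dist n X} {k : ℕ}
    {W : Set E} {g : E → Bool → ℂ → X} (D : DD S U F k W g)
    {W' : Set E} {U' : Set X} (hW'o : IsOpen W') (hW'n : W'.Nonempty) (hW'W : W' ⊆ W)
    (hU'o : IsOpen U') (hU'U : U' ⊆ U) (hin : ∀ w ∈ W', ∀ b z, g w b z ∈ U') :
    DD S U' F k W' g where
  hW := hW'n
  fam := D.fam.mono hW'o hW'W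
  subF := D.subF.mono hU'o hU'U
  leF := fun x hx => D.leF x (hU'U hx)
  rk := fun x hx => D.rk x (hU'U hx)
  inU := hin
  goodH := fun w hw => D.goodH w (hW'W hw)
  goodE := fun w hw => D.goodE w (hW'W hw)
  span := fun w hw => D.span w (hW'W hw)

theorem le_HH (S : Splitting n X) (F : Dist n X) (x : X) : toM F x ≤ toM (HH S F) x :=
  le_sup_left

theorem minGood_aux (N : Nodes n X) (S : Splitting n X) (k : ℕ) :
    ∀ (U : Set X) (F : Dist n X) (W : Set E) (g : E → Bool → ℂ → X), DD S U F k W g →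
    (∀ w ∈ W, ∀ b z, vel n (g w b) z ∈ toM (E₁ S) (g w b z)) →
    ∃ (W₀ : Set E) (U : Set X) (F : Dist n X), IsOpen W₀ ∧ W₀.Nonempty ∧ W₀ ⊆ W ∧ IsSub F U ∧
      (∀ x ∈ U, F x ≤ E₁ S x) ∧ (∀ w ∈ W₀, ∀ b z, g w b z ∈ U ∧
        (vel n (g w b) z : TangentSpace (mI n) (g w b z)) ∈ F (g w b z)) ∧
      BrSub F (fun x => F x ⊔ E₂ S x) U ∧ BrSub F (E₁ S) U := by
  induction k using Nat.strong_induction_on with
  | _ k ih =>
  intro U F W g D htan
  have hHsub : IsSub (HH S F) U := (N.subE S).2.2 F U D.subF D.leF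
  obtain ⟨W', U', r, hW'o, hW'n, hW'W, hU'U, hsub, hrk, hrk', hin, hdec⟩ :=
    descent N D hHsub (fun x _ => le_HH S F x) D.goodH
  rcases lt_or_eq_of_le hrk' with hlt | heq
  · have D' := D.next (kerD_le F (HH S F)) hW'o hW'n hW'W hU'U hsub hrk hin hdec
    obtain ⟨W₀, U₀, F₀, h1, h2, h3, h4⟩ := ih r hlt U' _ W' g D'
      (fun w hw => htan w (hW'W hw))
    exact ⟨W₀, U₀, F₀, h1, h2, h3.trans hW'W, h4⟩
  have hbr1 : BrSub F (HH S F) U' := by
    refine brSub_of_ker N D.subF hHsub (fun x _ => le_HH S F x) hU'U fun x hx => ?_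
    apply Submodule.eq_of_le_of_finrank_eq (kerD_le F (HH S F) x)
    rw [hrk x hx, heq, D.rk x (hU'U hx)]
  have D1 := D.restrict hW'o hW'n hW'W hsub.1 hU'U hin
  have hE1 : IsSub (E₁ S) U' := (N.subE S).1.mono hsub.1 (subset_univ _)
  obtain ⟨W'', U'', r2, hWo, hWn, hWW, hUU, hsub2, hrk2, hrk2', hin2, hdec2⟩ :=
    descent N D1 hE1 D1.leF D1.goodE
  rcases lt_or_eq_of_le hrk2' with hlt2 | heq2
  · have D' := D1.next (kerD_le F (E₁ S)) hWo hWn hWW hUU hsub2 hrk2 hin2 hdec2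
    obtain ⟨W₀, U₀, F₀, h1, h2, h3, h4⟩ := ih r2 hlt2 U'' _ W'' g D'
      (fun w hw => htan w (hW'W (hWW hw)))
    exact ⟨W₀, U₀, F₀, h1, h2, h3.trans (hWW.trans hW'W), h4⟩
  have hbr2 : BrSub F (E₁ S) U'' := by
    refine brSub_of_ker N D1.subF hE1 D1.leF hUU fun x hx => ?_
    apply Submodule.eq_of_le_of_finrank_eq (kerD_le F (E₁ S) x)
    rw [hrk2 x hx, heq2, D1.rk x (hUU hx)]
  have D2 := D1.restrict hWo hWn hWW hsub2.1 hUU hin2
  have hH2 : IsSub (HH S F) U'' := (N.subE S).2.2 F U'' D2.subF D2.leF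
  refine ⟨W'', U'', F, hWo, hWn, hWW.trans hW'W, D2.subF, D2.leF, ?_, hbr1.mono hUU, hbr2⟩
  intro w hw b z
  refine ⟨hin2 w hw b z, ?_⟩
  have hg : IsCurve n (g w) := (N.secFam E W'' g D2.fam w hw).1
  obtain ⟨s, hs, hsb, hsb'⟩ := N.secVel (g w) hg b 1 0 0
  have h0 : s (!b) 0 ∈ toM (HH S F) (g w (!b) 0) := by
    rw [hsb' 0]
    simp
  have h1 := secIn_iff.1 (sec_in N hH2 hg (hin2 w hw) (D2.goodH w hw) hs h0) b z
  rw [hsb z] at h1
  have h2 : vel n (g w b) z ∈ toM (HH S F) (g w b z) := by simpa using h1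
  rw [mem_HH (D2.leF _ (hin2 w hw b z)), mem_E₁.1 (htan w (hW'W (hWW hw)) b z)] at h2
  exact h2

theorem sup_E (S : Splitting n X) (x : X) : toM (E₁ S) x ⊔ toM (E₂ S) x = ⊤ := by
  rw [eq_top_iff]
  intro v _
  refine Submodule.mem_sup.2 ⟨pr S x v, ?_, v - pr S x v, ?_, add_sub_cancel _ _⟩
  · rw [mem_E₁, pr_idem]
  · rw [mem_E₂, map_sub, pr_idem, sub_self]

theorem minGood_of_nodes (N : Nodes n X) : St_minGood n X := by
  intro S hproj E _ _ _ W g hWn hfam htan
  obtain ⟨hE1, hE2, -⟩ := N.subE S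
  obtain ⟨⟨w₁, z₁⟩, hp, hsurj⟩ := hfam.subm false (W ×ˢ univ) (hfam.isOpen.prod isOpen_univ)
    (hWn.prod univ_nonempty) subset_rfl
  have hopen := N.submOpen E W g hfam false (w₁, z₁) hp hsurj
  set k := Module.finrank ℂ (toM (E₁ S) (g w₁ false 0)) with hk
  set U₁ : Set X := interior {x | Module.finrank ℂ (toM (E₁ S) x) = k} with hU₁
  have hU₁rk : ∀ x ∈ U₁, Module.finrank ℂ (toM (E₁ S) x) = k := fun x hx =>
    (interior_subset (s := {x | Module.finrank ℂ (toM (E₁ S) x) = k}) hx :)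
  have hmemU₁ : ∀ x, Module.finrank ℂ (toM (E₁ S) x) = k → x ∈ U₁ := by
    intro x hx
    rw [hU₁, mem_interior_iff_mem_nhds]
    obtain ⟨O, l, V, hxO, -, hV⟩ := hE1.2 x trivial
    have hr : ∀ y ∈ O, Module.finrank ℂ (toM (E₁ S) y) = l := by
      intro y hy
      rw [← span_iff.1 (hV.span y hy)]
      have h1 : LinearIndependent ℂ (fun i => vv (V i) y) := hV.indep y hy
      rw [finrank_span_eq_card h1, Fintype.card_fin]
    filter_upwards [hV.isOpen.mem_nhds hxO] with y hy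
    show Module.finrank ℂ (toM (E₁ S) y) = k
    rw [hr y hy, ← hr x hxO, hx]
  set W₁ : Set E := interior {w | w ∈ W ∧ g w false 0 ∈ U₁ ∧
    Function.Surjective (dfam n g false (w, z₁))} with hW₁
  have hW₁s : ∀ w ∈ W₁, w ∈ W ∧ g w false 0 ∈ U₁ ∧
      Function.Surjective (dfam n g false (w, z₁)) := fun w hw =>
    (interior_subset (s := {w | w ∈ W ∧ g w false 0 ∈ U₁ ∧
      Function.Surjective (dfam n g false (w, z₁))}) hw :)
  have hw₁ : w₁ ∈ W₁ := by
    rw [hW₁, mem_interior_iff_mem_nhds]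
    have h2 : ContinuousAt (fun w' => g w' false 0) w₁ := by
      have h3 : ContinuousAt (fun q : E × ℂ => g q.1 false q.2) (w₁, 0) :=
        (hfam.hol false).continuousOn.continuousAt
          ((hfam.isOpen.prod isOpen_univ).mem_nhds ⟨hp.1, trivial⟩)
      have h4 : ContinuousAt (fun w' : E => (w', (0 : ℂ))) w₁ := by fun_prop
      exact ContinuousAt.comp (f := fun w' : E => (w', (0 : ℂ))) h3 h4
    have h5 : ∀ᶠ w in 𝓝 w₁, g w false 0 ∈ U₁ :=
      h2.preimage_mem_nhds (isOpen_interior.mem_nhds (hmemU₁ _ rfl))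
    have h6 : ContinuousAt (fun w : E => (w, z₁)) w₁ := by fun_prop
    have h7 : ∀ᶠ w in 𝓝 w₁, Function.Surjective (dfam n g false (w, z₁)) := h6.eventually hopen
    filter_upwards [hfam.isOpen.mem_nhds hp.1, h5, h7] with w h8 h9 h10
    exact ⟨h8, h9, h10⟩
  have hW₁W : W₁ ⊆ W := fun w hw => (hW₁s w hw).1
  have hfam₁ : Fam n W₁ g := hfam.mono isOpen_interior hW₁W
  have hcurve : ∀ w ∈ W, IsCurve n (g w) := fun w hw => (N.secFam E W g hfam w hw).1
  have hspan : ∀ w ∈ W₁, SpanAt (g w) (fun _ => ⊤ : Dist n X) false z₁ := fun w hw =>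
    (N.secFam E W g hfam w (hW₁W hw)).2 false z₁ (hW₁s w hw).2.2
  have D : DD S U₁ (E₁ S) k W₁ g :=
    { hW := ⟨w₁, hw₁⟩
      fam := hfam₁
      subF := hE1.mono isOpen_interior (subset_univ _)
      leF := fun x _ => le_rfl
      rk := hU₁rk
      inU := by
        intro w hw b z
        obtain ⟨l, hl⟩ := rank_const hE1 (hcurve w (hW₁W hw)) (fun b z => trivial)
        refine hmemU₁ _ ?_
        rw [hl b z, ← hl false 0]
        exact hU₁rk _ (hW₁s w hw).2.1
      goodH := by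
        intro w hw
        refine ⟨0, fun j => j.elim0, fun j => j.elim0, fun b z => ⟨linearIndependent_empty_type, ?_⟩⟩
        have key : ∀ f : Fin 0 → Model n, IsCompl (toM (E₁ S) (g w b z) ⊔ toM (E₂ S) (g w b z))
            (Submodule.span ℂ (Set.range f)) := by
          intro f
          rw [sup_E, Set.range_eq_empty, Submodule.span_empty]
          exact isCompl_top_bot
        exact key _
      goodE := fun w hw => N.goodE₁ S hproj (g w) (hcurve w (hW₁W hw))
        (fun b z => htan w (hW₁W hw) b z) ⟨false, z₁, hspan w hw⟩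
      span := fun w hw => ⟨false, z₁, hspan w hw⟩ }
  obtain ⟨W₀, U₀, F₀, h1, h2, h3, h4⟩ := minGood_aux N S k U₁ _ W₁ g D
    (fun w hw => htan w (hW₁W hw))
  exact ⟨W₀, U₀, F₀, h1, h2, h3.trans hW₁W, h4⟩

end Crest.Agent.R266.St4
end

-- ▼ part R266/A/SecCalc
section

/-!
R266 / A / SecCalc (helper609): calculus of sections of `g^* T_X` along curves, in charts.
-/

set_option autoImplicit false

open scoped Manifold ContDiff Topology
open Set Filter
open Crest.AlgGeometry.HolSplit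

namespace Crest.Agent.R266.St4

variable {n : ℕ} {X : Type} [TopologicalSpace X] [ChartedSpace (Model n) X]
  [IsManifold (mI n) ω X]

theorem contDiffAt_omega_iff {E F : Type*} [NormedAddCommGroup E] [NormedSpace ℂ E]
    [NormedAddCommGroup F] [NormedSpace ℂ F] [CompleteSpace F] {f : E → F} {z : E} :
    ContDiffAt ℂ ω f z ↔ AnalyticAt ℂ f z := by
  rw [← contDiffWithinAt_univ, contDiffWithinAt_omega_iff_analyticWithinAt,
    analyticWithinAt_univ]

theorem contMDiffAt_chart' {x₀ x : X} (hx : x ∈ (chartAt (Model n) x₀).source) :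
    ContMDiffAt (mI n) (mI n) ω (chartAt (Model n) x₀) x :=
  (contMDiffOn_chart (I := mI n) (n := ω) (x := x₀)).contMDiffAt
    ((chartAt (Model n) x₀).open_source.mem_nhds hx)

theorem contMDiffAt_chart_symm' {x₀ : X} {y : Model n} (hy : y ∈ (chartAt (Model n) x₀).target) :
    ContMDiffAt (mI n) (mI n) ω (chartAt (Model n) x₀).symm y :=
  (contMDiffOn_chart_symm (I := mI n) (n := ω) (x := x₀)).contMDiffAt
    ((chartAt (Model n) x₀).open_target.mem_nhds hy)

/-- coordinate of a section along a curve in the chart at `x₀` -/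
noncomputable def sc (x₀ : X) (g : ℂ → X) (s : ℂ → Model n) (z : ℂ) : Model n :=
  tcc (g z) x₀ (g z) (s z)

variable (n) in
/-- the curve in the chart at `x₀` -/
noncomputable def gc (x₀ : X) (g : ℂ → X) (z : ℂ) : Model n := chartAt (Model n) x₀ (g z)

theorem holAt_iff_chart {x₀ : X} {g : ℂ → X} {s : ℂ → Model n} {z : ℂ}
    (hz : g z ∈ (chartAt (Model n) x₀).source) :
    HolAt n g s z ↔ ContMDiffAt 𝓘(ℂ, ℂ) (mI n) ω g z ∧ AnalyticAt ℂ (sc x₀ g s) z := by
  unfold HolAt
  have h := (trivializationAt (Model n) (TangentSpace (mI n)) x₀).contMDiffAt_iff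
    (IM := 𝓘(ℂ, ℂ)) (IB := mI n) (n := ω) (f := fun t => tv n (g t) (s t)) (x₀ := z)
    (by
      rw [Bundle.Trivialization.mem_source]
      simpa [tv] using hz)
  rw [h]
  refine and_congr Iff.rfl ?_
  rw [contMDiffAt_iff_contDiffAt, contDiffAt_omega_iff]
  exact Iff.rfl

theorem HolAt.base {g : ℂ → X} {s : ℂ → Model n} {z : ℂ} (h : HolAt n g s z) :
    ContMDiffAt 𝓘(ℂ, ℂ) (mI n) ω g z :=
  ((holAt_iff_chart (x₀ := g z) (mem_chart_source _ _)).1 h).1

theorem HolAt.sc_analytic {x₀ : X} {g : ℂ → X} {s : ℂ → Model n} {z : ℂ} (h : HolAt n g s z)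
    (hz : g z ∈ (chartAt (Model n) x₀).source) : AnalyticAt ℂ (sc x₀ g s) z :=
  ((holAt_iff_chart hz).1 h).2

theorem gc_analytic {x₀ : X} {g : ℂ → X} {z : ℂ} (hg : ContMDiffAt 𝓘(ℂ, ℂ) (mI n) ω g z)
    (hz : g z ∈ (chartAt (Model n) x₀).source) : AnalyticAt ℂ (gc n x₀ g) z := by
  have h1 : ContMDiffAt (mI n) (mI n) ω (chartAt (Model n) x₀) (g z) := contMDiffAt_chart' hz
  have h2 := h1.comp z hg
  rw [contMDiffAt_iff_contDiffAt, contDiffAt_omega_iff] at h2
  exact h2

omit [IsManifold (mI n) ω X] in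
theorem eventually_mem_source {x₀ : X} {g : ℂ → X} {z : ℂ} (hg : ContinuousAt g z)
    (hz : g z ∈ (chartAt (Model n) x₀).source) :
    ∀ᶠ t in 𝓝 z, g t ∈ (chartAt (Model n) x₀).source :=
  hg.eventually ((chartAt (Model n) x₀).open_source.mem_nhds hz)

theorem vel_chart {x₀ : X} {g : ℂ → X} {z : ℂ} (hg : ContMDiffAt 𝓘(ℂ, ℂ) (mI n) ω g z)
    (hz : g z ∈ (chartAt (Model n) x₀).source) :
    tcc (g z) x₀ (g z) (vel n g z) = deriv (gc n x₀ g) z := by
  have h1 : ContMDiffAt (mI n) (mI n) ω (chartAt (Model n) x₀) (g z) := contMDiffAt_chart' hz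
  have h1d : MDifferentiableAt (mI n) (mI n) (chartAt (Model n) x₀) (g z) :=
    h1.mdifferentiableAt (by simp)
  have h2d : MDifferentiableAt 𝓘(ℂ, ℂ) (mI n) g z := hg.mdifferentiableAt (by simp)
  have h3 := mfderiv_comp z h1d h2d
  have h4 := mfderiv_chartAt_eq_tangentCoordChange (I := mI n) (x := g z) (y := x₀) hz
  have h5 : mfderiv 𝓘(ℂ, ℂ) (mI n) (gc n x₀ g) z = fderiv ℂ (gc n x₀ g) z := mfderiv_eq_fderiv
  have h6 : (mfderiv 𝓘(ℂ, ℂ) (mI n) (gc n x₀ g) z) (1 : ℂ)
      = (mfderiv (mI n) (mI n) (chartAt (Model n) x₀) (g z)) (mfderiv 𝓘(ℂ, ℂ) (mI n) g z (1 : ℂ)) := by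
    have := congrArg (fun L : ℂ →L[ℂ] Model n => L 1) h3
    exact this
  rw [h4] at h6
  have h7 : deriv (gc n x₀ g) z = fderiv ℂ (gc n x₀ g) z 1 := rfl
  rw [h7, ← h5]
  exact h6.symm

/-! ### algebra of sections -/

theorem sc_add (x₀ : X) (g : ℂ → X) (s t : ℂ → Model n) :
    sc x₀ g (fun z => s z + t z) = fun z => sc x₀ g s z + sc x₀ g t z := by
  funext z
  exact map_add (tcc (g z) x₀ (g z)) _ _

theorem sc_smul (x₀ : X) (g : ℂ → X) (c : ℂ → ℂ) (s : ℂ → Model n) :
    sc x₀ g (fun z => c z • s z) = fun z => c z • sc x₀ g s z := by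
  funext z
  exact map_smul (tcc (g z) x₀ (g z)) _ _

theorem sc_zero_iff {x₀ : X} {g : ℂ → X} {s : ℂ → Model n} {z : ℂ}
    (hz : g z ∈ (chartAt (Model n) x₀).source) : sc x₀ g s z = 0 ↔ s z = 0 := by
  unfold sc
  constructor
  · intro h
    have := congrArg (tcc x₀ (g z) (g z)) h
    rwa [tcc_cancel' hz, map_zero] at this
  · intro h
    rw [h, map_zero]

theorem HolAt.add {g : ℂ → X} {s t : ℂ → Model n} {z : ℂ} (hs : HolAt n g s z)
    (ht : HolAt n g t z) : HolAt n g (fun y => s y + t y) z := by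
  have hz := mem_chart_source (Model n) (g z)
  rw [holAt_iff_chart hz] at *
  refine ⟨hs.1, ?_⟩
  rw [sc_add]
  exact hs.2.add ht.2

theorem HolAt.smul {g : ℂ → X} {c : ℂ → ℂ} {s : ℂ → Model n} {z : ℂ} (hc : AnalyticAt ℂ c z)
    (hs : HolAt n g s z) : HolAt n g (fun y => c y • s y) z := by
  have hz := mem_chart_source (Model n) (g z)
  rw [holAt_iff_chart hz] at *
  refine ⟨hs.1, ?_⟩
  rw [sc_smul]
  exact hc.smul hs.2

theorem HolAt.congr {g : ℂ → X} {s t : ℂ → Model n} {z : ℂ} (hs : HolAt n g s z)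
    (h : ∀ᶠ y in 𝓝 z, t y = s y) : HolAt n g t z := by
  unfold HolAt at *
  refine ContMDiffAt.congr_of_eventuallyEq hs ?_
  filter_upwards [h] with y hy
  rw [hy]

theorem HolAt.zero {g : ℂ → X} {z : ℂ} (hg : ContMDiffAt 𝓘(ℂ, ℂ) (mI n) ω g z) :
    HolAt n g (fun _ => (0 : Model n)) z := by
  have hz := mem_chart_source (Model n) (g z)
  rw [holAt_iff_chart hz]
  refine ⟨hg, ?_⟩
  have : sc (g z) g (fun _ => (0 : Model n)) = fun _ => 0 := by
    funext y
    exact map_zero (tcc (g y) (g z) (g y))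
  rw [this]
  exact analyticAt_const

/-- `Pc` along the curve -/
theorem Pc_sc (S : Splitting n X) {x₀ : X} {g : ℂ → X} {z : ℂ} (s : ℂ → Model n)
    (hz : g z ∈ (chartAt (Model n) x₀).source) :
    Pc S x₀ (gc n x₀ g z) (sc x₀ g s z) = sc x₀ g (fun y => pr S (g y) (s y)) z := by
  have hy : gc n x₀ g z ∈ (chartAt (Model n) x₀).target := (chartAt (Model n) x₀).map_source hz
  have h1 : (chartAt (Model n) x₀).symm (gc n x₀ g z) = g z := (chartAt (Model n) x₀).left_inv hz
  have h := Pc_tcc S hy (s z)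
  rw [h1] at h
  exact h

theorem Pc_gc_analytic (S : Splitting n X) {x₀ : X} {g : ℂ → X} {z : ℂ}
    (hg : ContMDiffAt 𝓘(ℂ, ℂ) (mI n) ω g z) (hz : g z ∈ (chartAt (Model n) x₀).source) :
    AnalyticAt ℂ (fun y => Pc S x₀ (gc n x₀ g y)) z := by
  have h1 : AnalyticAt ℂ (Pc S x₀) (gc n x₀ g z) := by
    rw [← contDiffAt_omega_iff]
    exact (Pc_contDiffOn S x₀).contDiffAt ((chartAt (Model n) x₀).open_target.mem_nhds
      ((chartAt (Model n) x₀).map_source hz))
  exact h1.comp (gc_analytic hg hz)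

theorem HolAt.proj (S : Splitting n X) {g : ℂ → X} {s : ℂ → Model n} {z : ℂ}
    (hs : HolAt n g s z) : HolAt n g (fun y => pr S (g y) (s y)) z := by
  have hz := mem_chart_source (Model n) (g z)
  have hb := hs.base
  rw [holAt_iff_chart hz] at *
  refine ⟨hs.1, ?_⟩
  refine (L3.analyticAt_clm_apply (Pc_gc_analytic S hb hz) hs.2).congr ?_
  filter_upwards [eventually_mem_source hb.continuousAt hz] with y hy
  exact Pc_sc S s hy

theorem isSec_add {g : Bool → ℂ → X} {s t : Bool → ℂ → Model n} (hs : IsSec n g s)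
    (ht : IsSec n g t) : IsSec n g (s + t) :=
  ⟨fun b z => (hs.hol b z).add (ht.hol b z), fun b z hz => by
    simp only [Pi.add_apply]; rw [hs.glue b z hz, ht.glue b z hz]⟩

theorem isSec_smul {g : Bool → ℂ → X} {s : Bool → ℂ → Model n} (c : ℂ) (hs : IsSec n g s) :
    IsSec n g (c • s) :=
  ⟨fun b z => HolAt.smul (c := fun _ => c) analyticAt_const (hs.hol b z), fun b z hz => by
    simp only [Pi.smul_apply]; rw [hs.glue b z hz]⟩

theorem isSec_zero_all {g : Bool → ℂ → X} (hg : IsCurve n g) :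
    IsSec n g (0 : Bool → ℂ → Model n) :=
  ⟨fun b z => HolAt.zero (hg.hol b z), fun _ _ _ => rfl⟩

theorem isSec_sum_all {ι : Type*} (I : Finset ι) {g : Bool → ℂ → X} (hg : IsCurve n g)
    {s : ι → Bool → ℂ → Model n} (hs : ∀ i ∈ I, IsSec n g (s i)) :
    IsSec n g (∑ i ∈ I, s i) := by
  classical
  induction I using Finset.induction_on with
  | empty => simpa using isSec_zero_all hg
  | insert a I ha ih =>
    rw [Finset.sum_insert ha]
    exact isSec_add (hs a (Finset.mem_insert_self _ _))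
      (ih fun i hi => hs i (Finset.mem_insert_of_mem hi))

theorem isSec_proj (S : Splitting n X) {g : Bool → ℂ → X} (hg : IsCurve n g)
    {s : Bool → ℂ → Model n} (hs : IsSec n g s) :
    IsSec n g (fun b z => pr S (g b z) (s b z)) :=
  ⟨fun b z => (hs.hol b z).proj S, fun b z hz => by
    show pr S (g (!b) z) (s (!b) z) = pr S (g b z⁻¹) (s b z⁻¹)
    rw [hs.glue b z hz, hg.glue b z hz]⟩

/-- (S1) -/
theorem secAdd : St_secAdd n X := fun _ _ =>
  ⟨fun _ _ hs ht => isSec_add hs ht, fun c _ hs => isSec_smul c hs⟩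

/-- (S2) -/
theorem secProj : St_secProj n X := fun S _ hg _ hs => isSec_proj S hg hs

/-! ### the velocity -/

theorem vel_hol {g : ℂ → X} (hg : ContMDiff 𝓘(ℂ, ℂ) (mI n) ω g) (z : ℂ) :
    HolAt n g (vel n g) z := by
  have hz := mem_chart_source (Model n) (g z)
  rw [holAt_iff_chart hz]
  refine ⟨hg z, ?_⟩
  refine (gc_analytic (hg z) hz).deriv.congr ?_
  filter_upwards [eventually_mem_source (hg z).continuousAt hz] with y hy
  exact (vel_chart (hg y) hy).symm

omit [IsManifold (mI n) ω X] in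
theorem vel_congr_inv {g g' : ℂ → X} (hg : ContMDiff 𝓘(ℂ, ℂ) (mI n) ω g) {z : ℂ} (hz : z ≠ 0)
    (h : ∀ z, z ≠ 0 → g' z = g z⁻¹) : vel n g' z = (-(z ^ 2)⁻¹) • vel n g z⁻¹ := by
  have h1 : g' =ᶠ[𝓝 z] g ∘ (fun y => y⁻¹) := by
    filter_upwards [isOpen_ne.mem_nhds hz] with y hy using h y hy
  have h2 : mfderiv 𝓘(ℂ, ℂ) (mI n) g' z = mfderiv 𝓘(ℂ, ℂ) (mI n) (g ∘ (fun y => y⁻¹)) z :=
    h1.mfderiv_eq
  have h3 : MDifferentiableAt 𝓘(ℂ, ℂ) (mI n) g z⁻¹ := (hg z⁻¹).mdifferentiableAt (by simp)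
  have h4 : DifferentiableAt ℂ (fun y : ℂ => y⁻¹) z := differentiableAt_inv hz
  have h5 := mfderiv_comp z h3 h4.mdifferentiableAt
  have h6 : (mfderiv 𝓘(ℂ, ℂ) 𝓘(ℂ, ℂ) (fun y : ℂ => y⁻¹) z : ℂ →L[ℂ] ℂ) (1 : ℂ) = -(z ^ 2)⁻¹ := by
    rw [mfderiv_eq_fderiv]
    exact (hasDerivAt_inv hz).deriv
  have h7 : vel n g' z = (mfderiv 𝓘(ℂ, ℂ) (mI n) g z⁻¹ : ℂ →L[ℂ] Model n)
      ((mfderiv 𝓘(ℂ, ℂ) 𝓘(ℂ, ℂ) (fun y : ℂ => y⁻¹) z : ℂ →L[ℂ] ℂ) (1 : ℂ)) := by
    have h8 := congrArg (fun L : ℂ →L[ℂ] Model n => L (1 : ℂ)) (h2.trans h5)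
    exact h8
  rw [h7, h6]
  have key : ∀ (L : ℂ →L[ℂ] Model n) (c : ℂ), L c = c • L 1 := fun L c => by
    rw [← map_smul, smul_eq_mul, mul_one]
  exact key _ _

theorem isCurve_vel_glue {g : Bool → ℂ → X} (hg : IsCurve n g) (b : Bool) {z : ℂ} (hz : z ≠ 0) :
    vel n (g (!b)) z = (-(z ^ 2)⁻¹) • vel n (g b) z⁻¹ :=
  vel_congr_inv (hg.hol b) hz (fun y hy => hg.glue b y hy)

/-- a section given by its values in the two charts `b₀`, `!b₀` -/
theorem isSec_of_pair {g : Bool → ℂ → X} (b₀ : Bool) {s : Bool → ℂ → Model n}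
    (h0 : ∀ z, HolAt n (g b₀) (s b₀) z) (h1 : ∀ z, HolAt n (g (!b₀)) (s (!b₀)) z)
    (hglue : ∀ z, z ≠ 0 → s (!b₀) z = s b₀ z⁻¹) : IsSec n g s := by
  refine ⟨fun b z => ?_, fun b z hz => ?_⟩
  · cases b <;> cases b₀
    · exact h0 z
    · exact h1 z
    · exact h1 z
    · exact h0 z
  · have h2 := hglue z⁻¹ (inv_ne_zero hz)
    rw [inv_inv] at h2
    cases b <;> cases b₀
    · exact hglue z hz
    · exact h2.symm
    · exact h2.symm
    · exact hglue z hz

/-- (S3) -/
theorem secVel : St_secVel n X := by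
  intro g hg b₀ c₀ c₁ c₂
  refine ⟨fun b z => if b = b₀ then (c₀ + c₁ * z + c₂ * z ^ 2) • vel n (g b) z
    else (-(c₀ * z ^ 2 + c₁ * z + c₂)) • vel n (g b) z, ?_, ?_, ?_⟩
  · refine isSec_of_pair b₀ ?_ ?_ ?_
    · intro z
      simp only [if_true]
      refine HolAt.smul ?_ (vel_hol (hg.hol b₀) z)
      exact (analyticAt_const.add (analyticAt_const.mul analyticAt_id)).add
        (analyticAt_const.mul (analyticAt_id.pow 2))
    · intro z
      have hb : ((!b₀) = b₀) = False := by cases b₀ <;> simp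
      simp only [hb, if_false]
      refine HolAt.smul ?_ (vel_hol (hg.hol (!b₀)) z)
      exact (((analyticAt_const.mul (analyticAt_id.pow 2)).add
        (analyticAt_const.mul analyticAt_id)).add analyticAt_const).neg
    · intro z hz
      have hb : ((!b₀) = b₀) = False := by cases b₀ <;> simp
      simp only [hb, if_false, if_true]
      rw [isCurve_vel_glue hg b₀ hz, smul_smul]
      congr 1
      field_simp
  · intro z
    simp
  · intro z
    have hb : ((!b₀) = b₀) = False := by cases b₀ <;> simp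
    simp [hb]

end Crest.Agent.R266.St4
end

-- ▼ part R266/A/SecFam
section

/-!
R266 / A / SecFam: derivatives of a holomorphic family of rational curves are global sections
(`St_secFam`).
-/

set_option autoImplicit false
set_option linter.unusedSectionVars false

open scoped Manifold ContDiff Topology
open Set Filter
open Crest.AlgGeometry.HolSplit

namespace Crest.Agent.R266.St4

section

variable {n : ℕ} {X : Type} [TopologicalSpace X] [ChartedSpace (Model n) X]
  [IsManifold (mI n) ω X]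
variable {E : Type} [NormedAddCommGroup E] [NormedSpace ℂ E] [FiniteDimensional ℂ E]

theorem Fam.contMDiffAt {W : Set E} {g : E → Bool → ℂ → X} (hg : Fam n W g) {w : E} (hw : w ∈ W)
    (b : Bool) (z : ℂ) :
    ContMDiffAt 𝓘(ℂ, E × ℂ) (mI n) ω (fun q : E × ℂ => g q.1 b q.2) (w, z) :=
  (hg.hol b).contMDiffAt ((hg.isOpen.prod isOpen_univ).mem_nhds ⟨hw, mem_univ z⟩)

theorem Fam.isCurve {W : Set E} {g : E → Bool → ℂ → X} (hg : Fam n W g) {w : E} (hw : w ∈ W) :
    IsCurve n (g w) := by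
  refine ⟨fun b => ?_, fun b z hz => hg.glue w hw b z hz⟩
  intro z
  have h1 : ContMDiffAt 𝓘(ℂ, ℂ) 𝓘(ℂ, E × ℂ) ω (fun t : ℂ => ((w, t) : E × ℂ)) z := by
    rw [contMDiffAt_iff_contDiffAt]
    exact contDiffAt_const.prodMk contDiffAt_id
  exact (hg.contMDiffAt hw b z).comp z h1

/-- the derivative of a family along `t ↦ (w, t)` applied to a holomorphic vector is a section -/
theorem Fam.holAt {W : Set E} {g : E → Bool → ℂ → X} (hg : Fam n W g) {w : E} (hw : w ∈ W)
    (b : Bool) {e : ℂ → E × ℂ} {z : ℂ} (he : ContDiffAt ℂ ω e z) :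
    HolAt n (g w b) (fun t => dfam n g b (w, t) (e t)) z := by
  have hopen : IsOpen (W ×ˢ (univ : Set ℂ)) := hg.isOpen.prod isOpen_univ
  -- the section of the tangent bundle of `E × ℂ`
  have h1 : ContMDiffAt 𝓘(ℂ, ℂ) 𝓘(ℂ, E × ℂ) ω (fun t : ℂ => ((w, t) : E × ℂ)) z := by
    rw [contMDiffAt_iff_contDiffAt]
    exact contDiffAt_const.prodMk contDiffAt_id
  have h2 : ContMDiffAt 𝓘(ℂ, E × ℂ) (𝓘(ℂ, E × ℂ).tangent) ω
      (fun q : E × ℂ => (⟨q, e q.2⟩ : TangentBundle 𝓘(ℂ, E × ℂ) (E × ℂ))) (w, z) := by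
    have h3 : ContDiffAt ℂ ω (fun q : E × ℂ => e q.2) (w, z) :=
      ContDiffAt.comp (w, z) (by simpa using he) contDiffAt_snd
    exact (contMDiffAt_vectorSpace_iff_contDiffAt
      (V := fun q : E × ℂ => (e q.2 : TangentSpace 𝓘(ℂ, E × ℂ) q))).2 h3
  have h4 : ContMDiffAt 𝓘(ℂ, ℂ) (𝓘(ℂ, E × ℂ).tangent) ω
      (fun t : ℂ => (⟨(w, t), e t⟩ : TangentBundle 𝓘(ℂ, E × ℂ) (E × ℂ))) z :=
    ContMDiffAt.comp (x := z) (f := fun t : ℂ => ((w, t) : E × ℂ))
      (g := fun q : E × ℂ => (⟨q, e q.2⟩ : TangentBundle 𝓘(ℂ, E × ℂ) (E × ℂ))) h2 h1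
  -- the tangent map of the family
  have h5 := (hg.hol b).contMDiffOn_tangentMapWithin (m := ω) (by simp)
    hopen.uniqueMDiffOn
  have h6 : ContMDiffAt (𝓘(ℂ, E × ℂ).tangent) (mI n).tangent ω
      (tangentMapWithin 𝓘(ℂ, E × ℂ) (mI n) (fun q : E × ℂ => g q.1 b q.2) (W ×ˢ univ))
      (⟨(w, z), e z⟩ : TangentBundle 𝓘(ℂ, E × ℂ) (E × ℂ)) := by
    apply h5.contMDiffAt
    have : Continuous (Bundle.TotalSpace.proj :
        TangentBundle 𝓘(ℂ, E × ℂ) (E × ℂ) → E × ℂ) :=
      FiberBundle.continuous_proj (E × ℂ) (TangentSpace 𝓘(ℂ, E × ℂ))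
    exact (hopen.preimage this).mem_nhds ⟨hw, mem_univ z⟩
  have h7 := ContMDiffAt.comp (x := z)
      (f := fun t : ℂ => (⟨(w, t), e t⟩ : TangentBundle 𝓘(ℂ, E × ℂ) (E × ℂ))) h6 h4
  refine h7.congr_of_eventuallyEq (Filter.Eventually.of_forall fun t => ?_)
  simp only [Function.comp, tangentMapWithin]
  rw [mfderivWithin_of_isOpen hopen ⟨hw, mem_univ t⟩]
  rfl

/-- gluing of the derivatives -/
theorem Fam.dfam_glue {W : Set E} {g : E → Bool → ℂ → X} (hg : Fam n W g) {w : E} (hw : w ∈ W)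
    (b : Bool) {z : ℂ} (hz : z ≠ 0) (c : E) (a : ℂ) :
    dfam n g (!b) (w, z) (c, a) = dfam n g b (w, z⁻¹) (c, -(z ^ 2)⁻¹ * a) := by
  have hopen : IsOpen (W ×ˢ ({0}ᶜ : Set ℂ)) := hg.isOpen.prod isOpen_compl_singleton
  set φ : E × ℂ → E × ℂ := fun q => (q.1, q.2⁻¹) with hφ
  have h1 : (fun q : E × ℂ => g q.1 (!b) q.2) =ᶠ[𝓝 (w, z)]
      (fun q : E × ℂ => g q.1 b q.2) ∘ φ := by
    filter_upwards [hopen.mem_nhds ⟨hw, by simpa using hz⟩] with q hq
    exact hg.glue q.1 hq.1 b q.2 (by simpa using hq.2)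
  have hφd : HasFDerivAt φ ((ContinuousLinearMap.fst ℂ E ℂ).prod
      ((-(z ^ 2)⁻¹) • (ContinuousLinearMap.snd ℂ E ℂ))) (w, z) := by
    have h2 : HasFDerivAt (fun q : E × ℂ => q.2⁻¹)
        ((-(z ^ 2)⁻¹) • (ContinuousLinearMap.snd ℂ E ℂ)) (w, z) := by
      have h3 : HasDerivAt (fun t : ℂ => t⁻¹) (-(z ^ 2)⁻¹) ((w, z) : E × ℂ).2 := hasDerivAt_inv hz
      exact h3.comp_hasFDerivAt (w, z) hasFDerivAt_snd
    exact hasFDerivAt_fst.prodMk h2
  have h4 : MDifferentiableAt 𝓘(ℂ, E × ℂ) (mI n) (fun q : E × ℂ => g q.1 b q.2) (φ (w, z)) :=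
    (hg.contMDiffAt hw b z⁻¹).mdifferentiableAt (by simp)
  have h5 : MDifferentiableAt 𝓘(ℂ, E × ℂ) 𝓘(ℂ, E × ℂ) φ (w, z) :=
    hφd.differentiableAt.mdifferentiableAt
  have h6 : mfderiv 𝓘(ℂ, E × ℂ) (mI n) ((fun q : E × ℂ => g q.1 b q.2) ∘ φ) (w, z) =
      (mfderiv 𝓘(ℂ, E × ℂ) (mI n) (fun q : E × ℂ => g q.1 b q.2) (φ (w, z))).comp
        (mfderiv 𝓘(ℂ, E × ℂ) 𝓘(ℂ, E × ℂ) φ (w, z)) := mfderiv_comp (w, z) h4 h5
  have h7 : mfderiv 𝓘(ℂ, E × ℂ) (mI n) (fun q : E × ℂ => g q.1 (!b) q.2) (w, z) =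
      mfderiv 𝓘(ℂ, E × ℂ) (mI n) ((fun q : E × ℂ => g q.1 b q.2) ∘ φ) (w, z) := h1.mfderiv_eq
  have h8 : mfderiv 𝓘(ℂ, E × ℂ) 𝓘(ℂ, E × ℂ) φ (w, z) = (ContinuousLinearMap.fst ℂ E ℂ).prod
      ((-(z ^ 2)⁻¹) • (ContinuousLinearMap.snd ℂ E ℂ)) := by
    rw [mfderiv_eq_fderiv]
    exact hφd.fderiv
  unfold dfam
  rw [h7, h6, h8]
  rfl

end

theorem secFam_holds (n : ℕ) (X : Type) [TopologicalSpace X] [T2Space X]
    [ChartedSpace (Model n) X] [IsManifold (mI n) ω X] : St_secFam n X := by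
  intro E _ _ _ W g hg w hw
  refine ⟨hg.isCurve hw, ?_⟩
  intro b z hsurj u _
  obtain ⟨⟨c, a⟩, hca⟩ := hsurj u
  refine ⟨fun b' t => dfam n g b' (w, t) (c, if b' = b then a else -(t ^ 2) * a), ?_, ?_, ?_⟩
  · constructor
    · intro b' t
      apply hg.holAt hw b'
      by_cases hb : b' = b
      · simp only [hb, if_true]
        exact contDiffAt_const
      · simp only [hb, if_false]
        exact contDiffAt_const.prodMk (((contDiffAt_id.pow 2).neg).mul contDiffAt_const)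
    · intro b' t ht
      rw [hg.dfam_glue hw b' ht]
      by_cases hb : b' = b
      · subst hb
        have h1 : ¬ ((!b') = b') := by cases b' <;> simp
        simp only [h1, if_false, if_true]
        congr 2
        field_simp
      · have h1 : (!b') = b := by cases b' <;> cases b <;> simp_all
        simp only [h1, hb, if_false, if_true]
        congr 2
        field_simp
  · intro b' t
    exact (Submodule.mem_top : _ ∈ (⊤ : Submodule ℂ (TangentSpace (mI n) (g w b' t))))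
  · simp only [if_true]
    exact hca

end Crest.Agent.R266.St4
end

-- ▼ part R266/A/KerRank
section

/-!
R266 / A / KerRank (helper272): node `St_kerRank` of step 4 of S0404: semicontinuity, identity
theorem and constant rank theorem for kernels of holomorphic matrices.
-/

set_option autoImplicit false

open scoped Manifold ContDiff Topology
open Set Filter Module
open Crest.AlgGeometry.HolSplit

namespace Crest.Agent.R266.St4

namespace KR

open Crest.Agent.R266.SardAux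

section pure

variable {k l : ℕ}

theorem finrank_ker_add (A : (Fin k → ℂ) →L[ℂ] (Fin l → ℂ)) :
    finrank ℂ (LinearMap.range (A : (Fin k → ℂ) →ₗ[ℂ] (Fin l → ℂ))) +
      finrank ℂ (LinearMap.ker (A : (Fin k → ℂ) →ₗ[ℂ] (Fin l → ℂ))) = k := by
  have := LinearMap.finrank_range_add_finrank_ker (A : (Fin k → ℂ) →ₗ[ℂ] (Fin l → ℂ))
  simpa using this

theorem eventually_finrank_ker_le {Y : Type*} [TopologicalSpace Y]
    {Φ : Y → ((Fin k → ℂ) →L[ℂ] (Fin l → ℂ))} {x : Y} (hΦ : ContinuousAt Φ x) :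
    ∀ᶠ y in 𝓝 x, finrank ℂ (LinearMap.ker (Φ y : (Fin k → ℂ) →ₗ[ℂ] (Fin l → ℂ))) ≤
      finrank ℂ (LinearMap.ker (Φ x : (Fin k → ℂ) →ₗ[ℂ] (Fin l → ℂ))) := by
  obtain ⟨s, p, hsp⟩ := exists_minor_ne_zero (A := Φ x) le_rfl
  have h1 : ∀ᶠ y in 𝓝 x, minor s p (Φ y) ≠ 0 :=
    ((continuous_minor s p).continuousAt.comp hΦ).eventually_ne hsp
  filter_upwards [h1] with y hy
  have h2 := le_finrank_of_minor_ne_zero hy
  have h3 := finrank_ker_add (Φ y)
  have h4 := finrank_ker_add (Φ x)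
  omega

/-- a general form of `SardAux.analyticAt_minor` -/
theorem analyticAt_minor' {E G : Type*} [NormedAddCommGroup E] [NormedSpace ℂ E]
    [NormedAddCommGroup G] [NormedSpace ℂ G] {Y : Type*} [NormedAddCommGroup Y] [NormedSpace ℂ Y]
    {r : ℕ} (s : Fin r → E) (p : Fin r → (G →L[ℂ] ℂ)) {A : Y → (E →L[ℂ] G)} {x : Y}
    (hA : AnalyticAt ℂ A x) : AnalyticAt ℂ (fun x => minor s p (A x)) x := by
  unfold minor
  simp only [Matrix.det_apply]
  apply Finset.analyticAt_fun_sum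
  intro σ _
  apply AnalyticAt.const_smul
  apply Finset.analyticAt_fun_prod
  intro i _
  simp only [Matrix.of_apply]
  exact ((p (σ i)).analyticAt _).comp
    (((ContinuousLinearMap.apply ℂ G (s i)).analyticAt _).comp hA)

end pure

section link

variable {n : ℕ} {X : Type} [TopologicalSpace X] [ChartedSpace (Model n) X]
  [IsManifold (mI n) ω X]
variable {F G : Dist n X} {U O : Set X} {k l : ℕ} {V : Fin k → (x : X) → TangentSpace (mI n) x}
  {Φ : X → ((Fin k → ℂ) →L[ℂ] (Fin l → ℂ))}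

/-- the frame as a linear map -/
noncomputable def frameMap (V : Fin k → (x : X) → TangentSpace (mI n) x) (y : X) :
    (Fin k → ℂ) →ₗ[ℂ] TangentSpace (mI n) y :=
  Fintype.linearCombination ℂ (fun i => V i y)


theorem frameMap_injective (hV : FrameOn F O k V) {y : X} (hy : y ∈ O) :
    Function.Injective (frameMap V y) := by
  have := hV.indep y hy
  rw [linearIndependent_iff_injective_fintypeLinearCombination] at this
  exact this

theorem frameMap_range (hV : FrameOn F O k V) {y : X} (hy : y ∈ O) :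
    LinearMap.range (frameMap V y) = F y := by
  rw [← hV.span y hy]
  exact Fintype.range_linearCombination ℂ _

theorem eq_map (hV : FrameOn F O k V) (hGF : ∀ y ∈ O, G y ≤ F y)
    (hΦ : ∀ y ∈ O, ∀ a : Fin k → ℂ, (∑ i, a i • V i y) ∈ G y ↔ Φ y a = 0) {y : X} (hy : y ∈ O) :
    G y = (LinearMap.ker (Φ y : (Fin k → ℂ) →ₗ[ℂ] (Fin l → ℂ))).map (frameMap V y) := by
  ext u
  constructor
  · intro hu
    have h1 : u ∈ LinearMap.range (frameMap V y) := by
      rw [frameMap_range hV hy]; exact hGF y hy hu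
    obtain ⟨a, rfl⟩ := h1
    exact ⟨a, (hΦ y hy a).mp hu, rfl⟩
  · rintro ⟨a, ha, rfl⟩
    exact (hΦ y hy a).mpr ha

theorem finrank_eq (hV : FrameOn F O k V) (hGF : ∀ y ∈ O, G y ≤ F y)
    (hΦ : ∀ y ∈ O, ∀ a : Fin k → ℂ, (∑ i, a i • V i y) ∈ G y ↔ Φ y a = 0) {y : X} (hy : y ∈ O) :
    finrank ℂ (G y) = finrank ℂ (LinearMap.ker (Φ y : (Fin k → ℂ) →ₗ[ℂ] (Fin l → ℂ))) := by
  rw [eq_map hV hGF hΦ hy]
  exact (LinearEquiv.finrank_eq (Submodule.equivMapOfInjective _ (frameMap_injective hV hy) _)).symm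

theorem exists_data (h : IsKer F G U) (hGF : ∀ x ∈ U, G x ≤ F x) {x : X} (hx : x ∈ U) :
    ∃ (O : Set X) (k l : ℕ) (V : Fin k → (x : X) → TangentSpace (mI n) x)
    (Φ : X → ((Fin k → ℂ) →L[ℂ] (Fin l → ℂ))),
    x ∈ O ∧ O ⊆ U ∧ IsOpen O ∧ (∀ i, IsHolVectorFieldOn O (V i)) ∧
    ContMDiffOn (mI n) 𝓘(ℂ, (Fin k → ℂ) →L[ℂ] (Fin l → ℂ)) ω Φ O ∧
    (∀ y ∈ O, Function.Injective (frameMap V y)) ∧
    (∀ y ∈ O, G y = (LinearMap.ker (Φ y : (Fin k → ℂ) →ₗ[ℂ] (Fin l → ℂ))).map (frameMap V y)) ∧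
    (∀ y ∈ O, finrank ℂ (G y) = finrank ℂ (LinearMap.ker (Φ y : (Fin k → ℂ) →ₗ[ℂ] (Fin l → ℂ)))) := by
  obtain ⟨O, k, l, V, Φ, hxO, hOU, hV, hΦ, hiff⟩ := h.2 x hx
  exact ⟨O, k, l, V, Φ, hxO, hOU, hV.isOpen, hV.hol, hΦ, fun y hy => frameMap_injective hV hy,
    fun y hy => eq_map hV (fun z hz => hGF z (hOU hz)) hiff hy,
    fun y hy => finrank_eq hV (fun z hz => hGF z (hOU hz)) hiff hy⟩

theorem part1 (h : IsKer F G U) (hGF : ∀ x ∈ U, G x ≤ F x) {x : X} (hx : x ∈ U) :
    ∀ᶠ y in 𝓝 x, finrank ℂ (G y) ≤ finrank ℂ (G x) := by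
  obtain ⟨O, k, l, V, Φ, hxO, hOU, hO, -, hΦ, -, -, hfr⟩ := exists_data h hGF hx
  have hc : ContinuousAt Φ x := hΦ.continuousOn.continuousAt (hO.mem_nhds hxO)
  filter_upwards [hO.mem_nhds hxO, eventually_finrank_ker_le hc] with y hy hle
  rw [hfr y hy, hfr x hxO]
  exact hle

theorem part2 (h : IsKer F G U) (hGF : ∀ x ∈ U, G x ≤ F x) {x : X} (hx : x ∈ U) :
    ∃ B : Set X, IsOpen B ∧ x ∈ B ∧ B ⊆ U ∧ ∀ (r : ℕ) (O : Set X), IsOpen O →
    O.Nonempty → O ⊆ B → (∀ y ∈ O, r ≤ finrank ℂ (G y)) →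
    ∀ y ∈ B, r ≤ finrank ℂ (G y) := by
  obtain ⟨O, k, l, V, Φ, hxO, hOU, hO, -, hΦ, -, -, hfr⟩ := exists_data h hGF hx
  set c := chartAt (Model n) x with hc
  have hO₁ : IsOpen (c.target ∩ c.symm ⁻¹' O) := c.isOpen_inter_preimage_symm hO
  have hcx : c x ∈ c.target ∩ c.symm ⁻¹' O :=
    ⟨c.map_source (mem_chart_source _ x), by
      simpa [c.left_inv (mem_chart_source _ x)] using hxO⟩
  obtain ⟨ε, hε, hball⟩ := Metric.isOpen_iff.mp hO₁ _ hcx
  set B : Set X := c.source ∩ c ⁻¹' Metric.ball (c x) ε with hB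
  have hBo : IsOpen B := c.isOpen_inter_preimage Metric.isOpen_ball
  have hBO : B ⊆ O := by
    intro y hy
    have h1 := (hball hy.2).2
    rw [mem_preimage, c.left_inv hy.1] at h1
    exact h1
  have hsymm : ContMDiffOn 𝓘(ℂ, Model n) (mI n) ω c.symm c.target :=
    contMDiffOn_chart_symm (I := mI n) (n := ω) (x := x)
  have hΨ : AnalyticOnNhd ℂ (fun z => Φ (c.symm z)) (Metric.ball (c x) ε) := by
    intro z hz
    have h1 : ContMDiffOn 𝓘(ℂ, Model n) 𝓘(ℂ, (Fin k → ℂ) →L[ℂ] (Fin l → ℂ)) ω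
        (fun z => Φ (c.symm z)) (c.target ∩ c.symm ⁻¹' O) :=
      hΦ.comp (hsymm.mono inter_subset_left) (fun z hz => hz.2)
    rw [contMDiffOn_iff_contDiffOn] at h1
    exact (h1.contDiffAt (hO₁.mem_nhds (hball hz))).analyticAt
  refine ⟨B, hBo, ⟨mem_chart_source _ x, Metric.mem_ball_self hε⟩, hBO.trans hOU, ?_⟩
  intro r O' hO' hne hO'B hr y₁ hy₁
  by_contra hlt
  push Not at hlt
  obtain ⟨y₀, hy₀⟩ := hne
  have hk₀ := finrank_ker_add (Φ y₀)
  have hk₁ := finrank_ker_add (Φ y₁)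
  have hr₀ := hr y₀ hy₀
  rw [hfr y₀ (hBO (hO'B hy₀))] at hr₀
  rw [hfr y₁ (hBO hy₁)] at hlt
  obtain ⟨s, p, hsp⟩ := exists_minor_ne_zero (r := k - r + 1) (A := Φ y₁) (by omega)
  have hz : ∀ y ∈ O', minor s p (Φ y) = 0 := by
    intro y hy
    by_contra hne
    have h1 := le_finrank_of_minor_ne_zero hne
    have h2 := finrank_ker_add (Φ y)
    have h3 := hr y hy
    rw [hfr y (hBO (hO'B hy))] at h3
    omega
  have hana : AnalyticOnNhd ℂ (fun z => minor s p (Φ (c.symm z))) (Metric.ball (c x) ε) :=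
    fun z hz => analyticAt_minor' s p (hΨ z hz)
  have hy₀s : y₀ ∈ c.source := (hO'B hy₀).1
  have hev : (fun z => minor s p (Φ (c.symm z))) =ᶠ[𝓝 (c y₀)] 0 := by
    have h1 : ∀ᶠ z in 𝓝 (c y₀), c.symm z ∈ O' := by
      have := c.symm.continuousAt (x := c y₀) (c.map_source hy₀s)
      apply this.eventually_mem
      rw [c.left_inv hy₀s]
      exact hO'.mem_nhds hy₀
    filter_upwards [h1] with z hz'
    exact hz _ hz'
  have hall := hana.eqOn_zero_of_preconnected_of_eventuallyEq_zero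
    (convex_ball _ _).isPreconnected (hO'B hy₀).2 hev hy₁.2
  simp only [c.left_inv hy₁.1] at hall
  exact hsp hall

/-- holomorphic combinations of holomorphic fields -/
theorem hol_comb {O' : Set X} (hV : ∀ i, IsHolVectorFieldOn O' (V i)) {a : X → (Fin k → ℂ)}
    (ha : ContMDiffOn (mI n) 𝓘(ℂ, Fin k → ℂ) ω a O') :
    IsHolVectorFieldOn O' (fun y => frameMap V y (a y)) := by
  have h1 : ∀ i, ContMDiffOn (mI n) 𝓘(ℂ, ℂ) ω (fun y => a y i) O' := by
    intro i
    have h2 : ContMDiff 𝓘(ℂ, Fin k → ℂ) 𝓘(ℂ, ℂ) ω (fun v : Fin k → ℂ => v i) :=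
      (ContinuousLinearMap.proj (R := ℂ) (φ := fun _ : Fin k => ℂ) i).contMDiff
    exact h2.comp_contMDiffOn ha
  have h3 : ∀ i, IsHolVectorFieldOn O' (fun y => a y i • V i y) := fun i =>
    ContMDiffOn.smul_section (h1 i) (hV i)
  exact ContMDiffOn.sum_section (s := Finset.univ) (t := fun i y => a y i • V i y)
    (fun i _ => h3 i)

theorem part3 (h : IsKer F G U) (hGF : ∀ x ∈ U, G x ≤ F x) {r : ℕ} {Ω : Set X}
    (hΩ : IsOpen Ω) (hΩU : Ω ⊆ U) (hr : ∀ y ∈ Ω, finrank ℂ (G y) = r) : IsSub G Ω := by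
  classical
  refine ⟨hΩ, ?_⟩
  intro x hx
  obtain ⟨O, k, l, V, Φ, hxO, hOU, hO, hV, hΦ, hinj, heq, hfr⟩ := exists_data h hGF (hΩU hx)
  have hk := finrank_ker_add (Φ x)
  rw [← hfr x hxO, hr x hx] at hk
  set ρ := finrank ℂ (LinearMap.range (Φ x : (Fin k → ℂ) →ₗ[ℂ] (Fin l → ℂ))) with hρ
  obtain ⟨s, p, hsp⟩ := exists_minor_ne_zero (r := ρ) (A := Φ x) le_rfl
  let P : (Fin l → ℂ) →L[ℂ] (Fin ρ → ℂ) := ContinuousLinearMap.pi p
  let T : (Fin k → ℂ) →L[ℂ] (Fin ρ → ℂ) := P.comp (Φ x)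
  have hTrange : LinearMap.range (T : (Fin k → ℂ) →ₗ[ℂ] (Fin ρ → ℂ)) = ⊤ := by
    have h1 : LinearIndependent ℂ (Matrix.of fun i j => p i (Φ x (s j))).col :=
      Matrix.linearIndependent_cols_of_det_ne_zero hsp
    have hspan : Submodule.span ℂ (range (Matrix.of fun i j => p i (Φ x (s j))).col) = ⊤ :=
      h1.span_eq_top_of_card_eq_finrank' (by simp)
    rw [eq_top_iff, ← hspan, Submodule.span_le]
    rintro _ ⟨j, rfl⟩
    exact ⟨s j, rfl⟩
  let K : Submodule ℂ (Fin k → ℂ) := LinearMap.ker (T : (Fin k → ℂ) →ₗ[ℂ] (Fin ρ → ℂ))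
  obtain ⟨g, hg⟩ := LinearMap.exists_leftInverse_of_injective K.subtype
    (LinearMap.ker_eq_bot.mpr Subtype.val_injective)
  let π : (Fin k → ℂ) →L[ℂ] K := LinearMap.toContinuousLinearMap g
  have hπK : ∀ x : K, π x = x := fun x => LinearMap.congr_fun hg x
  have hπsurj : Function.Surjective π := fun x => ⟨x, hπK x⟩
  have hcompl : IsCompl (LinearMap.ker (T : (Fin k → ℂ) →ₗ[ℂ] (Fin ρ → ℂ)))
      (LinearMap.ker (π : (Fin k → ℂ) →ₗ[ℂ] K)) := LinearMap.isCompl_of_proj hπK
  let e' : (Fin k → ℂ) ≃L[ℂ] (Fin ρ → ℂ) × K :=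
    ContinuousLinearMap.equivProdOfSurjectiveOfIsCompl T π hTrange
      (LinearMap.range_eq_top.mpr hπsurj) hcompl
  let Λ : X → ((Fin k → ℂ) →L[ℂ] (Fin ρ → ℂ) × K) := fun y => (P.comp (Φ y)).prod π
  have he' : (e' : (Fin k → ℂ) →L[ℂ] (Fin ρ → ℂ) × K) = Λ x := by
    ext x <;> rfl
  have hKr : finrank ℂ K = r := by
    have h1 := LinearMap.finrank_range_add_finrank_ker (T : (Fin k → ℂ) →ₗ[ℂ] (Fin ρ → ℂ))
    rw [hTrange, finrank_top, finrank_fin_fun, finrank_fin_fun] at h1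
    have : finrank ℂ K = finrank ℂ (LinearMap.ker (T : (Fin k → ℂ) →ₗ[ℂ] (Fin ρ → ℂ))) := rfl
    omega
  let b : Basis (Fin r) ℂ K := finBasisOfFinrankEq ℂ K hKr
  -- smoothness of `Λ`
  let L : ((Fin k → ℂ) →L[ℂ] (Fin l → ℂ)) → ((Fin k → ℂ) →L[ℂ] (Fin ρ → ℂ) × K) :=
    fun A => (P.comp A).prod π
  have hL : ContDiff ℂ ω L := by
    rw [contDiff_clm_apply_iff]
    intro v
    exact (P.contDiff.comp (contDiff_id.clm_apply contDiff_const)).prodMk contDiff_const
  have hΛc : ContinuousAt Λ x :=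
    hL.continuous.continuousAt.comp (hΦ.continuousOn.continuousAt (hO.mem_nhds hxO))
  have hΦc : ContinuousAt Φ x := hΦ.continuousOn.continuousAt (hO.mem_nhds hxO)
  have hev1 : ∀ᶠ y in 𝓝 x, minor s p (Φ y) ≠ 0 :=
    ((continuous_minor s p).continuousAt.comp hΦc).eventually_ne hsp
  have hev2 : ∀ᶠ y in 𝓝 x, Λ y ∈ range ((↑) : ((Fin k → ℂ) ≃L[ℂ] (Fin ρ → ℂ) × K) →
      ((Fin k → ℂ) →L[ℂ] (Fin ρ → ℂ) × K)) := by
    apply hΛc.eventually_mem
    rw [← he']
    exact ContinuousLinearEquiv.nhds e'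
  set O' : Set X := (Ω ∩ O) ∩ interior {y | minor s p (Φ y) ≠ 0 ∧ Λ y ∈ range ((↑) :
      ((Fin k → ℂ) ≃L[ℂ] (Fin ρ → ℂ) × K) → ((Fin k → ℂ) →L[ℂ] (Fin ρ → ℂ) × K))} with hO'
  have hO'o : IsOpen O' := (hΩ.inter hO).inter isOpen_interior
  have hxO' : x ∈ O' := ⟨⟨hx, hxO⟩, mem_interior_iff_mem_nhds.mpr (hev1.and hev2)⟩
  have hO'm : ∀ y ∈ O', minor s p (Φ y) ≠ 0 := fun y hy => (interior_subset hy.2).1
  have hO'e : ∀ y ∈ O', ∃ e : (Fin k → ℂ) ≃L[ℂ] (Fin ρ → ℂ) × K,
      (e : (Fin k → ℂ) →L[ℂ] (Fin ρ → ℂ) × K) = Λ y := fun y hy => (interior_subset hy.2).2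
  let a : Fin r → X → (Fin k → ℂ) := fun j y => (Λ y).inverse ((0 : Fin ρ → ℂ), b j)
  have ha : ∀ y ∈ O', ∀ j, Λ y (a j y) = ((0 : Fin ρ → ℂ), b j) := by
    intro y hy j
    obtain ⟨e, he⟩ := hO'e y hy
    show Λ y ((Λ y).inverse _) = _
    rw [← he, ContinuousLinearMap.inverse_equiv]
    exact e.apply_symm_apply _
  have haker : ∀ y ∈ O', ∀ j, Φ y (a j y) = 0 := by
    intro y hy j
    have h1 := congrArg Prod.fst (ha y hy j)
    have h2 : ∀ i, p i (Φ y (a j y)) = 0 := fun i => congrFun h1 i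
    refine apply_eq_zero_of_minor (hO'm y hy) ?_ h2
    have h3 := finrank_ker_add (Φ y)
    rw [← hfr y hy.1.2, hr y hy.1.1] at h3
    omega
  have haπ : ∀ y ∈ O', ∀ j, π (a j y) = b j := fun y hy j => congrArg Prod.snd (ha y hy j)
  have haC : ∀ j, ContMDiffOn (mI n) 𝓘(ℂ, Fin k → ℂ) ω (a j) O' := by
    intro j y hy
    obtain ⟨e, he⟩ := hO'e y hy
    have h1 : ContMDiffAt (mI n) 𝓘(ℂ, (Fin k → ℂ) →L[ℂ] (Fin l → ℂ)) ω Φ y :=
      hΦ.contMDiffAt (hO.mem_nhds hy.1.2)
    have h2 : ContMDiffAt (mI n) 𝓘(ℂ, (Fin k → ℂ) →L[ℂ] (Fin ρ → ℂ) × K) ω Λ y :=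
      (hL.contMDiff (Φ y)).comp y h1
    have h3 : ContDiffAt ℂ ω (ContinuousLinearMap.inverse :
        ((Fin k → ℂ) →L[ℂ] (Fin ρ → ℂ) × K) → _) (Λ y) := by
      rw [← he]; exact contDiffAt_map_inverse e
    have h4 : ContMDiffAt (mI n) 𝓘(ℂ, ((Fin ρ → ℂ) × K) →L[ℂ] (Fin k → ℂ)) ω
        (fun y => (Λ y).inverse) y := h3.contMDiffAt.comp y h2
    have h5 : ContMDiff 𝓘(ℂ, ((Fin ρ → ℂ) × K) →L[ℂ] (Fin k → ℂ)) 𝓘(ℂ, Fin k → ℂ) ω
        (fun B : ((Fin ρ → ℂ) × K) →L[ℂ] (Fin k → ℂ) => B ((0 : Fin ρ → ℂ), b j)) :=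
      ContDiff.contMDiff (contDiff_id.clm_apply contDiff_const)
    exact ((h5 _).comp y h4).contMDiffWithinAt
  have hind : ∀ y ∈ O', LinearIndependent ℂ (fun j => frameMap V y (a j y)) := by
    intro y hy
    have h1 : LinearIndependent ℂ (fun j => a j y) := by
      refine LinearIndependent.of_comp (π : (Fin k → ℂ) →ₗ[ℂ] K) ?_
      have h2 : ((π : (Fin k → ℂ) →ₗ[ℂ] K) ∘ fun j => a j y) = b := by
        funext j; exact haπ y hy j
      rw [h2]
      exact b.linearIndependent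
    exact h1.map' _ (LinearMap.ker_eq_bot.mpr (hinj y hy.1.2))
  refine ⟨O', r, fun j y => frameMap V y (a j y), hxO', fun y hy => hy.1.1, ⟨hO'o, ?_, hind, ?_⟩⟩
  · intro j
    exact hol_comb (fun i => (hV i).mono fun y hy => hy.1.2) (haC j)
  · intro y hy
    have hfd : FiniteDimensional ℂ (TangentSpace (mI n) y) :=
      inferInstanceAs (FiniteDimensional ℂ (Model n))
    apply Submodule.eq_of_le_of_finrank_eq
    · rw [Submodule.span_le, heq y hy.1.2]
      rintro _ ⟨j, rfl⟩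
      exact ⟨a j y, haker y hy j, rfl⟩
    · rw [finrank_span_eq_card (hind y hy), hr y hy.1.1, Fintype.card_fin]

end link

end KR

/-- **(K2)** semicontinuity, identity theorem and constant rank theorem for kernels. -/
theorem kerRank_holds (n : ℕ) (X : Type) [TopologicalSpace X] [T2Space X]
    [ChartedSpace (Model n) X] [IsManifold (mI n) ω X] : St_kerRank n X := by
  intro F G U hGF h
  exact ⟨fun x hx => KR.part1 h hGF hx, fun x hx => KR.part2 h hGF hx,
    fun r O hO hOU hr => KR.part3 h hGF hO hOU hr⟩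

end Crest.Agent.R266.St4
end

-- ▼ part R266/A/KerClosed
section

/-!
R266 / A / KerClosed (helper719): `St_kerClosed`.
-/

set_option autoImplicit false

open scoped Manifold ContDiff Topology
open Set Filter
open Crest.AlgGeometry.HolSplit

namespace Crest.Agent.R266.St4

theorem kerClosed_holds (n : ℕ) (X : Type) [TopologicalSpace X] [T2Space X]
    [ChartedSpace (Model n) X] [IsManifold (mI n) ω X] : St_kerClosed n X := by
  intro F G U hK g s z hzU hs hF hG
  have hF' : ∀ᶠ y in 𝓝 z, s y ∈ toM F (g y) := hF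
  have hG' : ∃ᶠ y in 𝓝[≠] z, s y ∈ toM G (g y) := hG
  change ∀ᶠ y in 𝓝 z, s y ∈ toM G (g y)
  obtain ⟨O, k, l, V, Φ, hxO, hOU, hV, hΦc, hΦ⟩ := hK.2 (g z) hzU
  have hΦ' : ∀ y ∈ O, ∀ a : Fin k → ℂ, (∑ i, a i • vv (V i) y) ∈ toM G y ↔ Φ y a = 0 := hΦ
  have hgz : ContMDiffAt 𝓘(ℂ, ℂ) (mI n) ω g z := hs.curve
  have hO : ∀ᶠ t in 𝓝 z, g t ∈ O := hgz.continuousAt.preimage_mem_nhds (hV.isOpen.mem_nhds hxO)
  -- coefficients
  have hex : ∀ t, ∃ a : Fin k → ℂ, (g t ∈ O → s t ∈ toM F (g t) →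
      s t = ∑ i, a i • vv (V i) (g t)) := by
    intro t
    by_cases h : g t ∈ O ∧ s t ∈ toM F (g t)
    · have h2 := h.2
      rw [← span_iff.1 (hV.span _ h.1)] at h2
      obtain ⟨a, ha⟩ := (Submodule.mem_span_range_iff_exists_fun ℂ).1 h2
      exact ⟨a, fun _ _ => ha.symm⟩
    · exact ⟨0, fun h1 h2 => absurd ⟨h1, h2⟩ h⟩
  choose a ha using hex
  have haA : AnalyticAt ℂ a z := by
    refine coeff_along (g := g) (e := fun i t => vv (V i) (g t))
      (s := s) ?_ hs ?_ a ?_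
    · intro i
      exact holAt_field hV.isOpen (hV.hol i) hxO hgz
    · exact hV.indep _ hxO
    · filter_upwards [hO, hF'] with t h1 h2
      exact ha t h1 h2
  have hΦA : AnalyticAt ℂ (fun t => Φ (g t)) z := by
    have h1 : ContMDiffAt (mI n) 𝓘(ℂ, (Fin k → ℂ) →L[ℂ] (Fin l → ℂ)) ω Φ (g z) :=
      (hΦc (g z) hxO).contMDiffAt (hV.isOpen.mem_nhds hxO)
    have h2 := h1.comp z hgz
    rw [contMDiffAt_iff_contDiffAt] at h2
    exact h2.analyticAt
  have hA : AnalyticAt ℂ (fun t => Φ (g t) (a t)) z := analyticAt_clm_apply' hΦA haA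
  have hiff : ∀ᶠ t in 𝓝 z, (s t ∈ toM G (g t) ↔ Φ (g t) (a t) = 0) := by
    filter_upwards [hO, hF'] with t h1 h2
    rw [ha t h1 h2]
    exact hΦ' (g t) h1 (a t)
  have hfreq : ∃ᶠ t in 𝓝[≠] z, Φ (g t) (a t) = 0 := by
    refine (hG'.and_eventually (hiff.filter_mono nhdsWithin_le_nhds)).mono ?_
    rintro t ⟨h1, h2⟩
    exact h2.1 h1
  have hev := hA.frequently_zero_iff_eventually_zero.1 hfreq
  filter_upwards [hev, hiff] with t h1 h2
  exact h2.2 h1

end Crest.Agent.R266.St4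
end

-- ▼ part R266/A/OpenImage
section

/-!
R266 / A / OpenImage: nodes `St_submOpen` and `St_openImage` of Step 4 of S0404.
-/

set_option autoImplicit false

open scoped Manifold ContDiff Topology
open Set Filter
open Crest.AlgGeometry.HolSplit

namespace Crest.Agent.R266.St4

variable (n : ℕ) (X : Type) [TopologicalSpace X] [T2Space X] [ChartedSpace (Model n) X]
  [IsManifold (mI n) ω X]

omit [T2Space X] in
theorem submOpen_holds : St_submOpen n X := by
  intro E _ _ _ W g hF b p hp hs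
  have hop : IsOpen (W ×ˢ (univ : Set ℂ)) := hF.isOpen.prod isOpen_univ
  have h := SD.isOpen_surj (I := mI n) hop (hF.hol b)
  filter_upwards [h.mem_nhds ⟨hp, hs⟩] with q hq
  exact hq.2

variable {n X} in
omit [T2Space X] in
/-- a holomorphic map is open at submersive points -/
theorem image_mem_nhds_of_surj {E : Type*} [NormedAddCommGroup E] [NormedSpace ℂ E]
    [CompleteSpace E] {O : Set E} (hO : IsOpen O) {f : E → X}
    (hf : ContMDiffOn 𝓘(ℂ, E) (mI n) ω f O) {p : E} (hp : p ∈ O)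
    (hs : Function.Surjective (mfderiv 𝓘(ℂ, E) (mI n) f p)) : f '' O ∈ 𝓝 (f p) := by
  obtain ⟨hop, han, hiff⟩ := SD.local_form hO hf (f p)
  have hpV : p ∈ O ∩ f ⁻¹' (chartAt (Model n) (f p)).source := ⟨hp, mem_chart_source _ _⟩
  have hs' := (hiff p hpV).2 hs
  have hst := (han p hpV).hasStrictFDerivAt
  have hmap := hst.map_nhds_eq_of_surj (LinearMap.range_eq_top.2 hs')
  have himg : (fun x => extChartAt (mI n) (f p) (f x)) ''
      (O ∩ f ⁻¹' (chartAt (Model n) (f p)).source) ∈ 𝓝 (extChartAt (mI n) (f p) (f p)) := by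
    rw [← hmap]; exact image_mem_map (hop.mem_nhds hpV)
  have hc : ContinuousAt (extChartAt (mI n) (f p)) (f p) := continuousAt_extChartAt _
  have h1 := hc.preimage_mem_nhds himg
  filter_upwards [h1, (chartAt (Model n) (f p)).open_source.mem_nhds (mem_chart_source _ _)]
    with x hx hxs
  obtain ⟨q, hq, hqx⟩ := hx
  refine ⟨q, hq.1, ?_⟩
  exact (extChartAt (mI n) (f p)).injOn (by simpa using hq.2) (by simpa using hxs) hqx

omit [T2Space X] in
theorem openImage_holds : St_openImage n X := by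
  intro E _ _ _ W g hF b O hO hne hOW
  obtain ⟨p, hpO, hs⟩ := hF.subm b O hO hne hOW
  have hf : ContMDiffOn 𝓘(ℂ, E × ℂ) (mI n) ω (fun q : E × ℂ => g q.1 b q.2) O :=
    (hF.hol b).mono hOW
  have : CompleteSpace (E × ℂ) := FiniteDimensional.complete ℂ (E × ℂ)
  refine ⟨interior ((fun q : E × ℂ => g q.1 b q.2) '' O), isOpen_interior,
    ⟨g p.1 b p.2, ?_⟩, interior_subset⟩
  rw [mem_interior_iff_mem_nhds]
  exact image_mem_nhds_of_surj hO hf hpO hs

end Crest.Agent.R266.St4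
end

-- ▼ part R266/A/Wire404
section

/-!
R266 / A / Wire404 (helper744): S0404 from `St_subE` and `St_goodE₁`.
-/

set_option autoImplicit false

open scoped Manifold ContDiff Topology
open Set Metric Filter
open Crest.AlgGeometry.HolSplit
open Crest.Agent.R266.St4

namespace Crest.Agent.R266.F404

theorem nodes_of (n : ℕ) (X : Type) [TopologicalSpace X] [T2Space X]
    [ChartedSpace (Model n) X] [IsManifold (mI n) ω X]
    (hs : St_subE n X) (hg : St_goodE₁ n X) : Nodes n X where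
  coeff := coeff_holds
  dens := dens_holds n X
  secAdd := secAdd
  secProj := secProj
  secVel := secVel
  secFam := secFam_holds n X
  bracket := bracket_holds n X
  isKer := isKer_holds n X
  kerRank := kerRank_holds n X
  kerClosed := kerClosed_holds n X
  openImage := openImage_holds n X
  submOpen := submOpen_holds n X
  subE := hs
  goodE₁ := hg

theorem wire404 {n : ℕ} {X : Type} [TopologicalSpace X] [T2Space X] [SecondCountableTopology X]
    [CompactSpace X] [ConnectedSpace X] [ChartedSpace (Model n) X] [IsManifold (mI n) ω X]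
    (hproj : IsProjective n X) (hrc : IsRationallyConnected n X)
    (hs : St_subE n X) (hg : St_goodE₁ n X) (S : Splitting n X) :
    S.FirstIntegrable ∧ S.SecondIntegrable :=
  pre404 hproj hrc (minGood_of_nodes (nodes_of n X hs hg)) S

end Crest.Agent.R266.F404
end

-- ▼ part R266/A/SubE2
section

/-!
R266 / A / SubE2 (helper744): `E₁`, `E₂`, `F ⊔ E₂` are holomorphic subbundles.
-/

set_option autoImplicit false

open scoped Manifold ContDiff Topology
open Set Filter
open Crest.AlgGeometry.HolSplit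
open Crest.Agent.R266.St4

namespace Crest.Agent.R266.F404

variable {n : ℕ} {X : Type} [TopologicalSpace X] [T2Space X] [ChartedSpace (Model n) X]
  [IsManifold (mI n) ω X]

omit [T2Space X] [ChartedSpace (Model n) X] [IsManifold (mI n) ω X] [TopologicalSpace X] in
theorem span_gen {k : ℕ} {w : Fin k → Model n} {P : Model n →L[ℂ] Model n}
    (h : LinearIndependent ℂ w) (hw : ∀ i, w i ∈ LinearMap.range P.toLinearMap)
    (hk : Module.finrank ℂ (LinearMap.range P.toLinearMap) = k) :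
    Submodule.span ℂ (Set.range w) = LinearMap.range P.toLinearMap := by
  apply Submodule.eq_of_le_of_finrank_eq
  · rw [Submodule.span_le]
    rintro _ ⟨i, rfl⟩
    exact hw i
  · rw [finrank_span_eq_card h, Fintype.card_fin, hk]

theorem isSub_E₁ (S : Splitting n X) : IsSub (E₁ S) (univ : Set X) := by
  refine ⟨isOpen_univ, fun x₀ _ => ?_⟩
  -- basis of the range at x₀
  set R₀ : Submodule ℂ (Model n) := LinearMap.range (pr S x₀).toLinearMap with hR₀
  set k := Module.finrank ℂ R₀ with hk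
  let bs := Module.finBasis ℂ R₀
  let v : Fin k → Model n := fun i => (bs i : Model n)
  have hvli : LinearIndependent ℂ v := bs.linearIndependent.map' R₀.subtype (Submodule.ker_subtype _)
  have hvR : ∀ i, pr S x₀ (v i) = v i := by
    intro i
    obtain ⟨w, hw⟩ := (bs i).2
    have h1 : pr S x₀ w = v i := hw
    rw [← h1, pr_idem]
  set c := chartAt (Model n) x₀ with hc
  have hx₀ : x₀ ∈ c.source := mem_chart_source _ x₀
  -- the open condition
  have hcont : ContinuousOn (fun y => fun i => Pc S x₀ y (v i)) c.target := by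
    rw [continuousOn_pi]
    intro i
    exact ((Pc_contDiffOn S x₀).continuousOn).clm_apply continuousOn_const
  have hopen : IsOpen (c.target ∩ (fun y => fun i => Pc S x₀ y (v i)) ⁻¹'
      {f : Fin k → Model n | LinearIndependent ℂ f}) :=
    hcont.isOpen_inter_preimage c.open_target isOpen_setOfPred_linearIndependent
  have hopen2 := c.isOpen_inter_preimage hopen
  have hrk := (rk_locallyConstant S).isOpen_fiber (rk S x₀)
  refine ⟨(c.source ∩ c ⁻¹' (c.target ∩ (fun y => fun i => Pc S x₀ y (v i)) ⁻¹'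
      {f : Fin k → Model n | LinearIndependent ℂ f})) ∩ {x | rk S x = rk S x₀}, k,
    fun i => pfield S x₀ (v i), ⟨⟨hx₀, c.map_source hx₀, ?_⟩, rfl⟩, subset_univ _,
    hopen2.inter hrk, ?_, ?_, ?_⟩
  · -- independence at the centre
    have h1 : (fun i => Pc S x₀ (c x₀) (v i)) = v := by
      funext i
      have h2 := Pc_at S hx₀ (v i)
      have h3 : Pc S x₀ (c x₀) = pr S x₀ := Pc_self S x₀
      rw [h3]
      exact hvR i
    rw [mem_preimage, Set.mem_ofPred_eq]
    rw [h1]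
    exact hvli
  · intro i
    exact hol_mono (pfield_hol S x₀ (v i)) (fun x hx => hx.1.1)
  · intro x hx
    have h1 : LinearIndependent ℂ (fun i => Pc S x₀ (c x) (v i)) := hx.1.2.2
    have h2 : (fun i => Pc S x₀ (c x) (v i)) =
        (tcc x x₀ x).toLinearMap ∘ (fun i => (pfield S x₀ (v i) x : Model n)) := by
      funext i
      have h3 := Vc_pfield S (c.map_source hx.1.1) (v i)
      rw [← h3]
      unfold Vc
      rw [c.left_inv hx.1.1]
      rfl
    rw [h2] at h1
    exact h1.of_comp _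
  · intro x hx
    have h1 : LinearIndependent ℂ (fun i => (pfield S x₀ (v i) x : Model n)) := by
      have h1 : LinearIndependent ℂ (fun i => Pc S x₀ (c x) (v i)) := hx.1.2.2
      have h2 : (fun i => Pc S x₀ (c x) (v i)) =
          (tcc x x₀ x).toLinearMap ∘ (fun i => (pfield S x₀ (v i) x : Model n)) := by
        funext i
        have h3 := Vc_pfield S (c.map_source hx.1.1) (v i)
        rw [← h3]
        unfold Vc
        rw [c.left_inv hx.1.1]
        rfl
      rw [h2] at h1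
      exact h1.of_comp _
    exact span_gen (w := fun i => (pfield S x₀ (v i) x : Model n)) (P := pr S x) h1
      (fun i => ⟨cfield x₀ (v i) x, rfl⟩) hx.2

theorem isSub_E₂ (S : Splitting n X) : IsSub (E₂ S) (univ : Set X) := by
  have h := isSub_E₁ (swapS S)
  have h2 : E₁ (swapS S) = E₂ S := funext fun x => E₁_swap S x
  rwa [h2] at h

theorem subE2_holds (n : ℕ) (X : Type) [TopologicalSpace X] [T2Space X]
    [ChartedSpace (Model n) X] [IsManifold (mI n) ω X] : St_subE n X := by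
  intro S
  refine ⟨isSub_E₁ S, isSub_E₂ S, fun F U hF hle => ?_⟩
  have h2 : IsSub (E₂ S) U := by
    have := isSub_inter (isSub_E₂ S) hF.1
    rwa [univ_inter] at this
  exact isSub_sup hF h2 fun x hx => disj_of_le S (hle x hx) le_rfl

end Crest.Agent.R266.F404
end

-- ▼ part R266/A/Nab
section

/-!
R266 / A / Nab (helper609): the partial connection of `E₂` along curves tangent to `E₁`.
-/

set_option autoImplicit false

open scoped Manifold ContDiff Topology
open Set Filter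
open Crest.AlgGeometry.HolSplit

namespace Crest.Agent.R266.St4

variable {n : ℕ} {X : Type} [TopologicalSpace X] [ChartedSpace (Model n) X]
  [IsManifold (mI n) ω X]

/-- change of charts -/
theorem hasFDerivAt_change {x x₀ : X} {y : Model n} (hy : y ∈ (chartAt (Model n) x).target)
    (hy₀ : (chartAt (Model n) x).symm y ∈ (chartAt (Model n) x₀).source) :
    HasFDerivAt (chartAt (Model n) x₀ ∘ (chartAt (Model n) x).symm)
      (tcc x x₀ ((chartAt (Model n) x).symm y)) y := by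
  have h := hasFDerivWithinAt_tangentCoordChange (I := mI n) (x := x) (y := x₀)
    (z := (chartAt (Model n) x).symm y) (by
      simp only [extChartAt_source]
      exact ⟨(chartAt (Model n) x).map_target hy, hy₀⟩)
  have h1 : (extChartAt (mI n) x) ((chartAt (Model n) x).symm y) = y := by
    simp only [extChartAt, OpenPartialHomeomorph.extend_coe, Function.comp_apply]
    exact (chartAt (Model n) x).right_inv hy
  rw [h1] at h
  simp only [ModelWithCorners.range_eq_univ, hasFDerivWithinAt_univ] at h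
  exact h

theorem contDiffAt_change {x x₀ : X} {y : Model n} (hy : y ∈ (chartAt (Model n) x).target)
    (hy₀ : (chartAt (Model n) x).symm y ∈ (chartAt (Model n) x₀).source) :
    ContDiffAt ℂ ω (chartAt (Model n) x₀ ∘ (chartAt (Model n) x).symm) y := by
  have h := (contMDiffAt_chart' hy₀).comp y (contMDiffAt_chart_symm' hy)
  rw [contMDiffAt_iff_contDiffAt] at h
  exact h

/-- the partial connection, in the chart at `x₀` -/
noncomputable def nabc (S : Splitting n X) (x₀ : X) (g : ℂ → X) (s : ℂ → Model n) (z : ℂ) :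
    Model n :=
  deriv (sc x₀ g s) z - Pc S x₀ (gc n x₀ g z) (deriv (sc x₀ g s) z)
    - (fderiv ℂ (Pc S x₀) (gc n x₀ g z) (sc x₀ g s z)) (deriv (gc n x₀ g) z)

/-- the partial connection -/
noncomputable def nab (S : Splitting n X) (g : ℂ → X) (s : ℂ → Model n) (z : ℂ) : Model n :=
  nabc S (g z) g s z

/-- chart independence -/
theorem nab_chart (S : Splitting n X) {x₀ : X} {g : ℂ → X} {s : ℂ → Model n} {z : ℂ}
    (hs : HolAt n g s z) (hv : pr S (g z) (vel n g z) = vel n g z)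
    (hz : g z ∈ (chartAt (Model n) x₀).source) :
    tcc (g z) x₀ (g z) (nab S g s z) = nabc S x₀ g s z := by
  have hg := hs.base
  set x := g z with hx
  have hzx : g z ∈ (chartAt (Model n) x).source := mem_chart_source _ _
  have hy : gc n x g z ∈ (chartAt (Model n) x).target := (chartAt (Model n) x).map_source hzx
  have hsymm : (chartAt (Model n) x).symm (gc n x g z) = g z := (chartAt (Model n) x).left_inv hzx
  set ψ : Model n → Model n := chartAt (Model n) x₀ ∘ (chartAt (Model n) x).symm with hψdef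
  -- good neighbourhood
  have hnb : ∀ᶠ y in 𝓝 (gc n x g z), y ∈ (chartAt (Model n) x).target ∧
      (chartAt (Model n) x).symm y ∈ (chartAt (Model n) x₀).source := by
    have ho : IsOpen ((chartAt (Model n) x).target ∩
        (chartAt (Model n) x).symm ⁻¹' (chartAt (Model n) x₀).source) :=
      (chartAt (Model n) x).isOpen_inter_preimage_symm (chartAt (Model n) x₀).open_source
    refine ho.mem_nhds ⟨hy, ?_⟩
    rw [mem_preimage, hsymm]; exact hz
  have hψ : ContDiffAt ℂ 2 ψ (gc n x g z) :=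
    (contDiffAt_change (x := x) (x₀ := x₀) hy (by rw [hsymm]; exact hz)).of_le le_top
  have hγ : AnalyticAt ℂ (gc n x g) z := gc_analytic hg hzx
  have hσ : AnalyticAt ℂ (sc x g s) z := hs.sc_analytic hzx
  have hP : DifferentiableAt ℂ (Pc S x) (gc n x g z) :=
    ((Pc_contDiffOn S x).contDiffAt ((chartAt (Model n) x).open_target.mem_nhds hy)).differentiableAt
      (by simp)
  have hψz : ψ (gc n x g z) = gc n x₀ g z := by
    simp only [hψdef, Function.comp_apply, hsymm]; rfl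
  have hQ : DifferentiableAt ℂ (Pc S x₀) (ψ (gc n x g z)) := by
    rw [hψz]
    exact ((Pc_contDiffOn S x₀).contDiffAt ((chartAt (Model n) x₀).open_target.mem_nhds
      ((chartAt (Model n) x₀).map_source hz))).differentiableAt (by simp)
  have hcomm : ∀ᶠ y in 𝓝 (gc n x g z), ∀ v,
      Pc S x₀ (ψ y) (fderiv ℂ ψ y v) = fderiv ℂ ψ y (Pc S x y v) := by
    filter_upwards [hnb] with y hy' v
    have hw1 : (chartAt (Model n) x).symm y ∈ (chartAt (Model n) x).source :=
      (chartAt (Model n) x).map_target hy'.1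
    rw [(hasFDerivAt_change hy'.1 hy'.2).fderiv]
    have h1 : (chartAt (Model n) x₀).symm (ψ y) = (chartAt (Model n) x).symm y :=
      (chartAt (Model n) x₀).left_inv hy'.2
    rw [Pc_apply, Pc_apply, h1, tcc_comp hw1 hy'.2 (mem_chart_source _ _),
      tcc_comp (mem_chart_source _ _) hw1 hy'.2]
  have hPv : Pc S x (gc n x g z) (deriv (gc n x g) z) = deriv (gc n x g) z := by
    rw [← vel_chart hg hzx]
    have := Pc_sc S (g := g) (z := z) (vel n g) hzx
    unfold sc at this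
    rw [this]
    exact congrArg (tcc (g z) x (g z)) hv
  have key := L3.nabla_change (ψ := ψ) (P := Pc S x) (Q := Pc S x₀) (γ := gc n x g)
    (σ := sc x g s) (z := z) hψ hP hQ hγ.differentiableAt hσ.differentiableAt hcomm hPv
  -- identify the transported section
  have hnbz : ∀ᶠ t in 𝓝 z, g t ∈ (chartAt (Model n) x).source ∧
      g t ∈ (chartAt (Model n) x₀).source :=
    (eventually_mem_source hg.continuousAt hzx).and (eventually_mem_source hg.continuousAt hz)
  have h2 : ∀ t, g t ∈ (chartAt (Model n) x).source → g t ∈ (chartAt (Model n) x₀).source →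
      fderiv ℂ ψ (gc n x g t) (sc x g s t) = sc x₀ g s t := by
    intro t ht ht₀
    have hs1 : (chartAt (Model n) x).symm (gc n x g t) = g t := (chartAt (Model n) x).left_inv ht
    have h3 := (hasFDerivAt_change (x := x) (x₀ := x₀) (y := gc n x g t)
      ((chartAt (Model n) x).map_source ht) (by rw [hs1]; exact ht₀)).fderiv
    rw [hs1] at h3
    rw [h3]
    unfold sc
    rw [tcc_comp (mem_chart_source _ _) ht ht₀]
  have h3 : (fun t => fderiv ℂ ψ (gc n x g t) (sc x g s t)) =ᶠ[𝓝 z] sc x₀ g s := by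
    filter_upwards [hnbz] with t ht using h2 t ht.1 ht.2
  have h4 : ψ ∘ gc n x g =ᶠ[𝓝 z] gc n x₀ g := by
    filter_upwards [hnbz] with t ht
    show chartAt (Model n) x₀ ((chartAt (Model n) x).symm (chartAt (Model n) x (g t))) = _
    rw [(chartAt (Model n) x).left_inv ht.1]; rfl
  have h5 : fderiv ℂ ψ (gc n x g z) = tcc x x₀ (g z) := by
    have h3 := (hasFDerivAt_change (x := x) (x₀ := x₀) (y := gc n x g z)
      ((chartAt (Model n) x).map_source hzx) (by rw [hsymm]; exact hz)).fderiv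
    rwa [hsymm] at h3
  rw [h3.deriv_eq, h4.deriv_eq, hψz, h2 z hzx hz, h5] at key
  exact key.symm

theorem Pc_differentiableAt' (S : Splitting n X) {x₀ : X} {g : ℂ → X} {z : ℂ}
    (hz : g z ∈ (chartAt (Model n) x₀).source) :
    DifferentiableAt ℂ (Pc S x₀) (gc n x₀ g z) :=
  ((Pc_contDiffOn S x₀).contDiffAt ((chartAt (Model n) x₀).open_target.mem_nhds
      ((chartAt (Model n) x₀).map_source hz))).differentiableAt (by simp)

theorem Pc_deriv_gc (S : Splitting n X) {x₀ : X} {g : ℂ → X} {z : ℂ}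
    (hg : ContMDiffAt 𝓘(ℂ, ℂ) (mI n) ω g z) (hv : pr S (g z) (vel n g z) = vel n g z)
    (hz : g z ∈ (chartAt (Model n) x₀).source) :
    Pc S x₀ (gc n x₀ g z) (deriv (gc n x₀ g) z) = deriv (gc n x₀ g) z := by
  rw [← vel_chart hg hz]
  have := Pc_sc S (g := g) (z := z) (vel n g) hz
  unfold sc at this
  rw [this]
  exact congrArg (tcc (g z) x₀ (g z)) hv

theorem Pc_nabc (S : Splitting n X) {x₀ : X} {g : ℂ → X} {s : ℂ → Model n} {z : ℂ}
    (hg : ContMDiffAt 𝓘(ℂ, ℂ) (mI n) ω g z) (hv : pr S (g z) (vel n g z) = vel n g z)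
    (hz : g z ∈ (chartAt (Model n) x₀).source) :
    Pc S x₀ (gc n x₀ g z) (nabc S x₀ g s z) = 0 := by
  have hy : gc n x₀ g z ∈ (chartAt (Model n) x₀).target := (chartAt (Model n) x₀).map_source hz
  have h1 := Pc_deriv_gc S hg hv hz
  have hid : ∀ᶠ y in 𝓝 (gc n x₀ g z), ∀ v, Pc S x₀ y (Pc S x₀ y v) = Pc S x₀ y v := by
    filter_upwards [(chartAt (Model n) x₀).open_target.mem_nhds hy] with y hy' v
    exact Pc_idem S hy' v
  have h2 := fderiv_idem (Pc_differentiableAt' S hz) hid (sc x₀ g s z) (deriv (gc n x₀ g) z)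
  rw [h1] at h2
  have h3 : Pc S x₀ (gc n x₀ g z)
      ((fderiv ℂ (Pc S x₀) (gc n x₀ g z) (sc x₀ g s z)) (deriv (gc n x₀ g) z)) = 0 := by
    simpa using h2
  unfold nabc
  rw [map_sub, map_sub, h3, Pc_idem S hy, sub_self, sub_zero]

theorem pr_nab (S : Splitting n X) {g : ℂ → X} {s : ℂ → Model n} {z : ℂ}
    (hg : ContMDiffAt 𝓘(ℂ, ℂ) (mI n) ω g z) (hv : pr S (g z) (vel n g z) = vel n g z) :
    pr S (g z) (nab S g s z) = 0 := by
  have hz := mem_chart_source (Model n) (g z)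
  have h1 := Pc_nabc (s := s) S hg hv hz
  have h2 : nabc S (g z) g s z = sc (g z) g (nab S g s) z := (tcc_self hz _).symm
  rw [h2, Pc_sc S _ hz, sc_zero_iff hz] at h1
  exact h1

theorem nabc_analytic (S : Splitting n X) {x₀ : X} {g : ℂ → X} {s : ℂ → Model n} {z : ℂ}
    (hs : HolAt n g s z) (hz : g z ∈ (chartAt (Model n) x₀).source) :
    AnalyticAt ℂ (nabc S x₀ g s) z := by
  have hy : gc n x₀ g z ∈ (chartAt (Model n) x₀).target := (chartAt (Model n) x₀).map_source hz
  have h1 : AnalyticAt ℂ (Pc S x₀) (gc n x₀ g z) := by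
    rw [← contDiffAt_omega_iff]
    exact (Pc_contDiffOn S x₀).contDiffAt ((chartAt (Model n) x₀).open_target.mem_nhds hy)
  have hγ : AnalyticAt ℂ (gc n x₀ g) z := gc_analytic hs.base hz
  have hσ : AnalyticAt ℂ (sc x₀ g s) z := hs.sc_analytic hz
  have h2 : AnalyticAt ℂ (fun t => fderiv ℂ (Pc S x₀) (gc n x₀ g t)) z := h1.fderiv.comp hγ
  exact (hσ.deriv.sub (L3.analyticAt_clm_apply (Pc_gc_analytic S hs.base hz) hσ.deriv)).sub
    (L3.analyticAt_clm_apply (L3.analyticAt_clm_apply h2 hσ) hγ.deriv)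

theorem HolAt.nab (S : Splitting n X) {g : ℂ → X} {s : ℂ → Model n}
    (hs : ∀ z, HolAt n g s z) (hv : ∀ z, pr S (g z) (vel n g z) = vel n g z) (z : ℂ) :
    HolAt n g (nab S g s) z := by
  have hz := mem_chart_source (Model n) (g z)
  rw [holAt_iff_chart hz]
  refine ⟨(hs z).base, ?_⟩
  refine (nabc_analytic S (hs z) hz).congr ?_
  filter_upwards [eventually_mem_source (hs z).base.continuousAt hz] with y hy
  exact (nab_chart S (hs y) (hv y) hy).symm

theorem deriv_comp_inv' {F : Type*} [NormedAddCommGroup F] [NormedSpace ℂ F] {f f' : ℂ → F} {z : ℂ}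
    (hz : z ≠ 0) (hf : DifferentiableAt ℂ f z⁻¹) (h : ∀ᶠ y in 𝓝 z, f' y = f y⁻¹) :
    deriv f' z = (-(z ^ 2)⁻¹) • deriv f z⁻¹ := by
  rw [Filter.EventuallyEq.deriv_eq (f₁ := f') (f := fun y => f y⁻¹) h]
  have h1 := HasDerivAt.scomp z hf.hasDerivAt (hasDerivAt_inv hz)
  exact h1.deriv

theorem nab_inv (S : Splitting n X) {g g' : ℂ → X} {s s' : ℂ → Model n}
    (hs : ∀ z, HolAt n g s z) (hgg : ∀ z, z ≠ 0 → g' z = g z⁻¹)
    (hss : ∀ z, z ≠ 0 → s' z = s z⁻¹) {z : ℂ} (hz : z ≠ 0) :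
    nab S g' s' z = (-(z ^ 2)⁻¹) • nab S g s z⁻¹ := by
  have hx := hgg z hz
  have hsrc : g z⁻¹ ∈ (chartAt (Model n) (g z⁻¹)).source := mem_chart_source _ _
  have hne : ∀ᶠ y in 𝓝 z, y ≠ 0 := isOpen_ne.mem_nhds hz
  have h1 : ∀ᶠ y in 𝓝 z, sc (g z⁻¹) g' s' y = sc (g z⁻¹) g s y⁻¹ := by
    filter_upwards [hne] with y hy
    unfold sc
    rw [hgg y hy, hss y hy]
  have h2 : ∀ᶠ y in 𝓝 z, gc n (g z⁻¹) g' y = gc n (g z⁻¹) g y⁻¹ := by
    filter_upwards [hne] with y hy
    unfold gc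
    rw [hgg y hy]
  have h3 := deriv_comp_inv' hz ((hs z⁻¹).sc_analytic hsrc).differentiableAt h1
  have h4 := deriv_comp_inv' hz (gc_analytic (hs z⁻¹).base hsrc).differentiableAt h2
  unfold nab nabc
  rw [hx, h3, h4, h1.self_of_nhds, h2.self_of_nhds]
  simp only [map_smul, smul_sub]

/-- the operator `(z - z₀)² ∇` on global sections -/
noncomputable def raise (S : Splitting n X) (g : Bool → ℂ → X) (s : Bool → ℂ → Model n)
    (b₀ : Bool) (z₀ : ℂ) : Bool → ℂ → Model n := fun b z =>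
  if b = b₀ then (z - z₀) ^ 2 • nab S (g b) (s b) z
  else (-(1 - z₀ * z) ^ 2) • nab S (g b) (s b) z

theorem raise_self (S : Splitting n X) (g : Bool → ℂ → X) (s : Bool → ℂ → Model n)
    (b₀ : Bool) (z₀ : ℂ) : raise S g s b₀ z₀ b₀ = fun z => (z - z₀) ^ 2 • nab S (g b₀) (s b₀) z := by
  funext z
  simp [raise]

theorem raise_not (S : Splitting n X) (g : Bool → ℂ → X) (s : Bool → ℂ → Model n)
    (b₀ : Bool) (z₀ : ℂ) :
    raise S g s b₀ z₀ (!b₀) = fun z => (-(1 - z₀ * z) ^ 2) • nab S (g (!b₀)) (s (!b₀)) z := by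
  funext z
  have hb : ((!b₀) = b₀) = False := by cases b₀ <;> simp
  simp only [raise, hb, if_false]

theorem isSec_raise (S : Splitting n X) {g : Bool → ℂ → X} (hg : IsCurve n g)
    (hv : ∀ b z, pr S (g b z) (vel n (g b) z) = vel n (g b) z)
    {s : Bool → ℂ → Model n} (hs : IsSec n g s) (b₀ : Bool) (z₀ : ℂ) :
    IsSec n g (raise S g s b₀ z₀) := by
  refine isSec_of_pair b₀ ?_ ?_ ?_
  · intro z
    rw [raise_self]
    exact HolAt.smul ((analyticAt_id.sub analyticAt_const).pow 2)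
      (HolAt.nab S (fun z => hs.hol b₀ z) (hv b₀) z)
  · intro z
    rw [raise_not]
    exact HolAt.smul ((analyticAt_const.sub (analyticAt_const.mul analyticAt_id)).pow 2).neg
      (HolAt.nab S (fun z => hs.hol (!b₀) z) (hv (!b₀)) z)
  · intro z hz
    rw [raise_self, raise_not]
    simp only
    rw [nab_inv S (fun z => hs.hol b₀ z) (fun y hy => hg.glue b₀ y hy)
      (fun y hy => hs.glue b₀ y hy) hz, smul_smul]
    congr 1
    field_simp

theorem pr_raise (S : Splitting n X) {g : Bool → ℂ → X} (hg : IsCurve n g)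
    (hv : ∀ b z, pr S (g b z) (vel n (g b) z) = vel n (g b) z)
    (s : Bool → ℂ → Model n) (b₀ : Bool) (z₀ : ℂ) (b : Bool) (z : ℂ) :
    pr S (g b z) (raise S g s b₀ z₀ b z) = 0 := by
  unfold raise
  split_ifs
  · rw [map_smul, pr_nab S (hg.hol b z) (hv b z), smul_zero]
  · rw [map_smul, pr_nab S (hg.hol b z) (hv b z), smul_zero]

/-- vanishing order of a section at a point -/
noncomputable def ordS (g : Bool → ℂ → X) (s : Bool → ℂ → Model n) (b : Bool) (z : ℂ) : ℕ∞ :=
  analyticOrderAt (sc (g b z) (g b) (s b)) z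

theorem ordS_raise (S : Splitting n X) {g : Bool → ℂ → X}
    (hv : ∀ b z, pr S (g b z) (vel n (g b) z) = vel n (g b) z)
    {s : Bool → ℂ → Model n} (hs : IsSec n g s)
    (h2 : ∀ b z, pr S (g b z) (s b z) = 0) (b₀ : Bool) (z₀ : ℂ) {K : ℕ} (hK : K ≠ 0)
    (hord : ordS g s b₀ z₀ = K) : ordS g (raise S g s b₀ z₀) b₀ z₀ = (K + 1 : ℕ) := by
  set x₀ := g b₀ z₀ with hx₀
  have hz : g b₀ z₀ ∈ (chartAt (Model n) x₀).source := mem_chart_source _ _
  have hbase := (hs.hol b₀ z₀).base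
  have hσ : AnalyticAt ℂ (sc x₀ (g b₀) (s b₀)) z₀ := (hs.hol b₀ z₀).sc_analytic hz
  have hγ : AnalyticAt ℂ (gc n x₀ (g b₀)) z₀ := gc_analytic hbase hz
  have hA : AnalyticAt ℂ (fun t => ContinuousLinearMap.id ℂ (Model n) - Pc S x₀ (gc n x₀ (g b₀) t)) z₀ :=
    analyticAt_const.sub (Pc_gc_analytic S hbase hz)
  have h1 : AnalyticAt ℂ (Pc S x₀) (gc n x₀ (g b₀) z₀) := by
    rw [← contDiffAt_omega_iff]
    exact (Pc_contDiffOn S x₀).contDiffAt ((chartAt (Model n) x₀).open_target.mem_nhds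
      ((chartAt (Model n) x₀).map_source hz))
  have h2' : AnalyticAt ℂ (fun t => fderiv ℂ (Pc S x₀) (gc n x₀ (g b₀) t)) z₀ := h1.fderiv.comp hγ
  have hsrc := eventually_mem_source hbase.continuousAt hz
  have hAσ : ∀ᶠ t in 𝓝 z₀, (ContinuousLinearMap.id ℂ (Model n) - Pc S x₀ (gc n x₀ (g b₀) t))
      (sc x₀ (g b₀) (s b₀) t) = sc x₀ (g b₀) (s b₀) t := by
    filter_upwards [hsrc] with t ht
    have h3 := Pc_sc S (s b₀) ht
    have h4 : sc x₀ (g b₀) (fun y => pr S (g b₀ y) (s b₀ y)) t = 0 := by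
      rw [sc_zero_iff ht]; exact h2 b₀ t
    rw [h4] at h3
    simp [h3]
  have key := L3.order_nabla2 hK hσ hA h2' hγ.deriv hAσ hord
  unfold ordS
  rw [← key]
  refine analyticOrderAt_congr ?_
  filter_upwards [hsrc] with t ht
  have h5 : sc x₀ (g b₀) (raise S g s b₀ z₀ b₀) t
      = (t - z₀) ^ 2 • sc x₀ (g b₀) (nab S (g b₀) (s b₀)) t := by
    rw [raise_self]
    exact map_smul (tcc (g b₀ t) x₀ (g b₀ t)) _ _
  rw [h5]
  congr 1
  have h6 : sc x₀ (g b₀) (nab S (g b₀) (s b₀)) t = nabc S x₀ (g b₀) (s b₀) t :=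
    nab_chart S (hs.hol b₀ t) (hv b₀ t) ht
  rw [h6]
  rfl

end Crest.Agent.R266.St4
end

-- ▼ part R266/A/OrdBound
section

/-!
R266 / A / OrdBound (helper609): a global section of `g^* T_X` over `ℙ¹` with a zero of order
`> 2 d` (`d` the degree of the curve in projective space) vanishes identically.
-/

set_option autoImplicit false

open scoped Manifold ContDiff Topology
open Set Filter
open Crest.AlgGeometry.HolSplit
open Crest.Agent.R266.Rat Crest.Agent.R266.Emb

namespace Crest.Agent.R266.St4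

section pure

/-- change of homogeneous coordinates in the bivector `K ∧ dK(v)` -/
theorem wedge_change {E : Type*} [NormedAddCommGroup E] [NormedSpace ℂ E] {N : ℕ}
    {Kp Kq : E → CN N} {y : E} (hp : DifferentiableAt ℂ Kp y) (hq : DifferentiableAt ℂ Kq y)
    (hrel : ∀ᶠ y' in 𝓝 y, ∃ c : ℂ, Kq y' = c • Kp y') {l : ℂ} (hl : Kq y = l • Kp y)
    (v : E) (i j : Fin (N + 1)) :
    Kq y i * (fderiv ℂ Kq y v) j - Kq y j * (fderiv ℂ Kq y v) i
      = l ^ 2 * (Kp y i * (fderiv ℂ Kp y v) j - Kp y j * (fderiv ℂ Kp y v) i) := by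
  have hcomp : ∀ (K : E → CN N) (i : Fin (N + 1)), DifferentiableAt ℂ K y →
      HasFDerivAt (fun y' => K y' i) ((ContinuousLinearMap.proj i).comp (fderiv ℂ K y)) y := by
    intro K i hK
    exact (ContinuousLinearMap.proj (R := ℂ) (φ := fun _ : Fin (N + 1) => ℂ) i).hasFDerivAt.comp y
      hK.hasFDerivAt
  -- differentiate `Kq i * Kp j = Kq j * Kp i`
  have h1 := (hcomp Kq i hq).mul (hcomp Kp j hp)
  have h2 := (hcomp Kq j hq).mul (hcomp Kp i hp)
  have heq : (fun y' => Kq y' i * Kp y' j) =ᶠ[𝓝 y] fun y' => Kq y' j * Kp y' i := by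
    filter_upwards [hrel] with y' hy'
    obtain ⟨c, hc⟩ := hy'
    rw [hc]
    simp only [Pi.smul_apply, smul_eq_mul]
    ring
  have h3 := (h2.congr_of_eventuallyEq heq).unique h1
  have h4 := congrArg (fun L : E →L[ℂ] ℂ => L v) h3
  simp at h4
  have e1 : Kq y i = l * Kp y i := by rw [hl]; rfl
  have e2 : Kq y j = l * Kp y j := by rw [hl]; rfl
  rw [e1, e2] at h4 ⊢
  linear_combination l * h4

end pure

variable {n N : ℕ} {X : Type} [TopologicalSpace X] [ChartedSpace (Model n) X]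
  [IsManifold (mI n) ω X]

/-- an entire lift of a rational curve to homogeneous coordinates, of degree `d` -/
structure Lift (pe : ProjEmbedding n X N) (g : Bool → ℂ → X) (d : ℕ) (p : Bool → ℂ → CN N) :
    Prop where
  diff : ∀ b, Differentiable ℂ (p b)
  glue : ∀ b z, z ≠ 0 → p (!b) z = z ^ d • p b z⁻¹
  onX : ∀ b z, OnX pe (p b z) (g b z)

/-- homogeneous coordinates in a chart -/
noncomputable def Kpe (pe : ProjEmbedding n X N) (q x₀ : X) (y : Model n) : CN N :=
  pe.coords q ((chartAt (Model n) x₀).symm y)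

/-- the differential of the homogeneous coordinates along a curve, applied to a section -/
noncomputable def Dc (pe : ProjEmbedding n X N) (q : X) (g : ℂ → X) (s : ℂ → Model n) (z : ℂ) :
    CN N := mfderiv (mI n) 𝓘(ℂ, CN N) (pe.coords q) (g z) (s z)

theorem Kpe_analytic (pe : ProjEmbedding n X N) {q x₀ : X} {g : ℂ → X} {z : ℂ}
    (hz : g z ∈ (chartAt (Model n) x₀).source) (hq : g z ∈ pe.nbhd q) :
    AnalyticAt ℂ (Kpe pe q x₀) (gc n x₀ g z) := by
  have h1 : (chartAt (Model n) x₀).symm (gc n x₀ g z) = g z := (chartAt (Model n) x₀).left_inv hz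
  exact analyticAt_coords_chart pe q x₀ ((chartAt (Model n) x₀).map_source hz)
    (by rw [h1]; exact hq)

theorem Dc_chart (pe : ProjEmbedding n X N) {q x₀ : X} {g : ℂ → X} (s : ℂ → Model n) {z : ℂ}
    (hz : g z ∈ (chartAt (Model n) x₀).source) (hq : g z ∈ pe.nbhd q) :
    Dc pe q g s z = fderiv ℂ (Kpe pe q x₀) (gc n x₀ g z) (sc x₀ g s z) := by
  have hsymm : (chartAt (Model n) x₀).symm (gc n x₀ g z) = g z :=
    (chartAt (Model n) x₀).left_inv hz
  have h1 : MDifferentiableAt (mI n) (mI n) (chartAt (Model n) x₀) (g z) :=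
    (contMDiffAt_chart' hz).mdifferentiableAt (by simp)
  have h2 : MDifferentiableAt (mI n) 𝓘(ℂ, CN N) (Kpe pe q x₀) (chartAt (Model n) x₀ (g z)) :=
    (Kpe_analytic pe hz hq).differentiableAt.mdifferentiableAt
  have h3 := mfderiv_comp (g z) h2 h1
  have h4 : (Kpe pe q x₀ ∘ chartAt (Model n) x₀) =ᶠ[𝓝 (g z)] pe.coords q := by
    filter_upwards [(chartAt (Model n) x₀).open_source.mem_nhds hz] with w hw
    show pe.coords q ((chartAt (Model n) x₀).symm (chartAt (Model n) x₀ w)) = _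
    rw [(chartAt (Model n) x₀).left_inv hw]
  rw [h4.mfderiv_eq] at h3
  have h5 := mfderiv_chartAt_eq_tangentCoordChange (I := mI n) (x := g z) (y := x₀) hz
  have h6 := congrArg (fun L : Model n →L[ℂ] CN N => L (s z)) h3
  have h7 : Dc pe q g s z = (mfderiv (mI n) 𝓘(ℂ, CN N) (Kpe pe q x₀) (chartAt (Model n) x₀ (g z)))
    ((mfderiv (mI n) (mI n) (chartAt (Model n) x₀) (g z)) (s z)) := h6
  rw [h7, h5, mfderiv_eq_fderiv]
  rfl

/-- the bivector `K ∧ dK(s)` -/
noncomputable def wd (pe : ProjEmbedding n X N) (q : X) (g : ℂ → X) (s : ℂ → Model n) (z : ℂ)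
    (i j : Fin (N + 1)) : ℂ :=
  pe.coords q (g z) i * Dc pe q g s z j - pe.coords q (g z) j * Dc pe q g s z i

theorem wd_change (pe : ProjEmbedding n X N) {p q : X} {g : ℂ → X} (s : ℂ → Model n) {z : ℂ}
    (hp : g z ∈ pe.nbhd p) (hq : g z ∈ pe.nbhd q) {l : ℂ}
    (hl : pe.coords q (g z) = l • pe.coords p (g z)) (i j : Fin (N + 1)) :
    wd pe q g s z i j = l ^ 2 * wd pe p g s z i j := by
  have hz := mem_chart_source (Model n) (g z)
  have hsymm : (chartAt (Model n) (g z)).symm (gc n (g z) g z) = g z :=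
    (chartAt (Model n) (g z)).left_inv hz
  have hy : gc n (g z) g z ∈ (chartAt (Model n) (g z)).target :=
    (chartAt (Model n) (g z)).map_source hz
  have e1 : Kpe pe q (g z) (gc n (g z) g z) = pe.coords q (g z) := by
    unfold Kpe; rw [hsymm]
  have e2 : Kpe pe p (g z) (gc n (g z) g z) = pe.coords p (g z) := by
    unfold Kpe; rw [hsymm]
  have hrel : ∀ᶠ y' in 𝓝 (gc n (g z) g z), ∃ c : ℂ, Kpe pe q (g z) y' = c • Kpe pe p (g z) y' := by
    have ho : IsOpen ((chartAt (Model n) (g z)).target ∩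
        (chartAt (Model n) (g z)).symm ⁻¹' (pe.nbhd p ∩ pe.nbhd q)) :=
      (chartAt (Model n) (g z)).isOpen_inter_preimage_symm
        ((pe.isOpen_nbhd p).inter (pe.isOpen_nbhd q))
    have hm : gc n (g z) g z ∈ ((chartAt (Model n) (g z)).target ∩
        (chartAt (Model n) (g z)).symm ⁻¹' (pe.nbhd p ∩ pe.nbhd q)) := by
      refine ⟨hy, ?_⟩
      rw [mem_preimage, hsymm]; exact ⟨hp, hq⟩
    filter_upwards [ho.mem_nhds hm] with y' hy'
    exact pe.compatible p q _ hy'.2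
  have h := wedge_change (Kpe_analytic pe hz hp).differentiableAt
    (Kpe_analytic pe hz hq).differentiableAt hrel (l := l) (by rw [e1, e2]; exact hl)
    (sc (g z) g s z) i j
  unfold wd
  rw [Dc_chart pe s hz hp, Dc_chart pe s hz hq]
  rw [e1, e2] at h
  exact h

/-- vanishing bivector means vanishing vector -/
theorem eq_zero_of_wd (pe : ProjEmbedding n X N) {q : X} {g : ℂ → X} (s : ℂ → Model n) {z : ℂ}
    (hq : g z ∈ pe.nbhd q) (h : ∀ i j, wd pe q g s z i j = 0) : s z = 0 := by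
  refine pe.immersive q (g z) hq (s z) ?_
  refine prop_of_wedge (pe.ne_zero q (g z) hq) (fun i j => ?_)
  have := h j i
  unfold wd at this
  have h2 := sub_eq_zero.1 this
  show Dc pe q g s z i * pe.coords q (g z) j = Dc pe q g s z j * pe.coords q (g z) i
  rw [mul_comm, h2, mul_comm]

section lift

variable {pe : ProjEmbedding n X N} {g : Bool → ℂ → X} {d : ℕ} {p : Bool → ℂ → CN N}

/-- the scalar relating the lift and the homogeneous coordinates at the point -/
noncomputable def scal (L : Lift pe g d p) (b : Bool) (z : ℂ) : ℂ :=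
  ((L.onX b z).exists_coords (pe.mem_nbhd (g b z))).choose

theorem scal_ne (L : Lift pe g d p) (b : Bool) (z : ℂ) : scal L b z ≠ 0 :=
  ((L.onX b z).exists_coords (pe.mem_nbhd (g b z))).choose_spec.1

theorem scal_eq (L : Lift pe g d p) (b : Bool) (z : ℂ) :
    p b z = scal L b z • pe.coords (g b z) (g b z) :=
  ((L.onX b z).exists_coords (pe.mem_nbhd (g b z))).choose_spec.2

/-- the bivector `p ∧ dp(s)`, an entire function -/
noncomputable def Bv (L : Lift pe g d p) (s : Bool → ℂ → Model n) (i j : Fin (N + 1)) (b : Bool)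
    (z : ℂ) : ℂ := scal L b z ^ 2 * wd pe (g b z) (g b) (s b) z i j

theorem Bv_eq (L : Lift pe g d p) (s : Bool → ℂ → Model n) (i j : Fin (N + 1)) (b : Bool)
    {z : ℂ} {q : X} (hq : g b z ∈ pe.nbhd q) {c : ℂ} (hc : p b z = c • pe.coords q (g b z)) :
    Bv L s i j b z = c ^ 2 * wd pe q (g b) (s b) z i j := by
  obtain ⟨l, hl⟩ := pe.compatible (g b z) q (g b z) ⟨pe.mem_nbhd _, hq⟩
  have h1 := wd_change pe (s b) (pe.mem_nbhd (g b z)) hq hl i j
  have h2 := scal_eq L b z
  rw [hc, hl, smul_smul] at h2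
  have hne := pe.ne_zero (g b z) (g b z) (pe.mem_nbhd _)
  have h3 : c * l = scal L b z := smul_left_injective ℂ hne h2
  unfold Bv
  rw [h1, ← h3]
  ring

theorem Bv_glue (hg : IsCurve n g) (L : Lift pe g d p) {s : Bool → ℂ → Model n}
    (hs : IsSec n g s) (i j : Fin (N + 1)) (b : Bool) {z : ℂ} (hz : z ≠ 0) :
    Bv L s i j (!b) z = z ^ (2 * d) * Bv L s i j b z⁻¹ := by
  have h1 := hg.glue b z hz
  have h2 := hs.glue b z hz
  have h3 := L.glue b z hz
  have h4 := scal_eq L b z⁻¹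
  have hq : g (!b) z ∈ pe.nbhd (g b z⁻¹) := by rw [h1]; exact pe.mem_nbhd _
  have hc : p (!b) z = (z ^ d * scal L b z⁻¹) • pe.coords (g b z⁻¹) (g (!b) z) := by
    rw [h3, h1, h4, smul_smul]
  rw [Bv_eq L s i j (!b) hq hc]
  unfold Bv wd Dc
  rw [h1, h2]
  ring

/-- local form of the bivector: an analytic linear expression in the coordinates of `s` -/
theorem Bv_local (hg : IsCurve n g) (L : Lift pe g d p) (b : Bool) (z₁ : ℂ)
    (i j : Fin (N + 1)) : ∃ R : ℂ → Model n → ℂ,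
      (∀ h : ℂ → Model n, AnalyticAt ℂ h z₁ → AnalyticAt ℂ (fun t => R t (h t)) z₁) ∧
      (∀ t (c : ℂ) v, R t (c • v) = c * R t v) ∧
      ∀ s : Bool → ℂ → Model n, ∀ᶠ t in 𝓝 z₁,
        Bv L s i j b t = R t (sc (g b z₁) (g b) (s b) t) := by
  set x := g b z₁ with hx
  have hzx : g b z₁ ∈ (chartAt (Model n) x).source := mem_chart_source _ _
  have hqx : g b z₁ ∈ pe.nbhd x := pe.mem_nbhd _
  have hbase : ContMDiffAt 𝓘(ℂ, ℂ) (mI n) ω (g b) z₁ := hg.hol b z₁
  have hγ : AnalyticAt ℂ (gc n x (g b)) z₁ := gc_analytic hbase hzx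
  have hK : AnalyticAt ℂ (Kpe pe x x) (gc n x (g b) z₁) := Kpe_analytic pe hzx hqx
  have hKg : AnalyticAt ℂ (fun t => Kpe pe x x (gc n x (g b) t)) z₁ := hK.comp hγ
  have hKi : ∀ i, AnalyticAt ℂ (fun t => Kpe pe x x (gc n x (g b) t) i) z₁ := fun i =>
    ((ContinuousLinearMap.proj (R := ℂ) (φ := fun _ : Fin (N + 1) => ℂ) i).analyticAt _).comp hKg
  have hDK : AnalyticAt ℂ (fun t => fderiv ℂ (Kpe pe x x) (gc n x (g b) t)) z₁ :=
    hK.fderiv.comp hγ
  have hKz : ∀ t, g b t ∈ (chartAt (Model n) x).source →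
      Kpe pe x x (gc n x (g b) t) = pe.coords x (g b t) := by
    intro t ht
    show pe.coords x ((chartAt (Model n) x).symm (chartAt (Model n) x (g b t))) = _
    rw [(chartAt (Model n) x).left_inv ht]
  -- a nonvanishing coordinate
  obtain ⟨i₀, hi₀⟩ : ∃ i₀, Kpe pe x x (gc n x (g b) z₁) i₀ ≠ 0 := by
    have := pe.ne_zero x (g b z₁) hqx
    rw [← hKz z₁ hzx] at this
    exact Function.ne_iff.1 this
  have hpi : AnalyticAt ℂ (fun t => p b t i₀) z₁ := by
    have h1 : AnalyticAt ℂ (p b) z₁ := (L.diff b).analyticAt z₁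
    exact ((ContinuousLinearMap.proj (R := ℂ) (φ := fun _ : Fin (N + 1) => ℂ) i₀).analyticAt
      _).comp h1
  have hcan : AnalyticAt ℂ (fun t => p b t i₀ / Kpe pe x x (gc n x (g b) t) i₀) z₁ :=
    hpi.div (hKi i₀) hi₀
  refine ⟨fun t v => (p b t i₀ / Kpe pe x x (gc n x (g b) t) i₀) ^ 2 *
    (Kpe pe x x (gc n x (g b) t) i * (fderiv ℂ (Kpe pe x x) (gc n x (g b) t) v) j
      - Kpe pe x x (gc n x (g b) t) j * (fderiv ℂ (Kpe pe x x) (gc n x (g b) t) v) i), ?_, ?_, ?_⟩
  · intro h hh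
    have h1 := L3.analyticAt_clm_apply hDK hh
    have h2 : ∀ i, AnalyticAt ℂ (fun t => (fderiv ℂ (Kpe pe x x) (gc n x (g b) t) (h t)) i) z₁ :=
      fun i => ((ContinuousLinearMap.proj (R := ℂ) (φ := fun _ : Fin (N + 1) => ℂ) i).analyticAt
        _).comp h1
    exact (hcan.pow 2).mul (((hKi i).mul (h2 j)).sub ((hKi j).mul (h2 i)))
  · intro t c v
    simp only [map_smul, Pi.smul_apply, smul_eq_mul]
    ring
  · intro s
    have hne : ∀ᶠ t in 𝓝 z₁, Kpe pe x x (gc n x (g b) t) i₀ ≠ 0 :=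
      (hKi i₀).continuousAt.eventually_ne hi₀
    have hnb : ∀ᶠ t in 𝓝 z₁, g b t ∈ pe.nbhd x :=
      hbase.continuousAt.eventually ((pe.isOpen_nbhd x).mem_nhds hqx)
    filter_upwards [hne, hnb, eventually_mem_source hbase.continuousAt hzx] with t h1 h2 h3
    have h4 := hKz t h3
    obtain ⟨c, _, hc⟩ := (L.onX b t).exists_coords h2
    have h5 : c = p b t i₀ / Kpe pe x x (gc n x (g b) t) i₀ := by
      rw [eq_div_iff h1, hc, ← h4]; rfl
    rw [Bv_eq L s i j b h2 hc, h5]
    unfold wd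
    rw [Dc_chart pe (s b) h3 h2, h4]

theorem Bv_differentiable (hg : IsCurve n g) (L : Lift pe g d p) {s : Bool → ℂ → Model n}
    (hs : IsSec n g s) (i j : Fin (N + 1)) (b : Bool) : Differentiable ℂ (Bv L s i j b) := by
  intro z₁
  obtain ⟨R, hR1, -, hR3⟩ := Bv_local hg L b z₁ i j
  have h1 := hR1 _ ((hs.hol b z₁).sc_analytic (mem_chart_source _ _))
  exact h1.differentiableAt.congr_of_eventuallyEq (hR3 s)

end lift

end Crest.Agent.R266.St4
end

-- ▼ part R266/A/GoodE1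
section

/-!
R266 / A / GoodE1 (helper609): along a rational curve tangent to `E₁` a global section of
`g^* E₂` with a zero vanishes identically; `E₁` is good.
-/

set_option autoImplicit false

open scoped Manifold ContDiff Topology
open Set Filter
open Crest.AlgGeometry.HolSplit
open Crest.Agent.R266.Rat Crest.Agent.R266.Emb

namespace Crest.Agent.R266.St4

variable {n N : ℕ} {X : Type} [TopologicalSpace X] [ChartedSpace (Model n) X]
  [IsManifold (mI n) ω X]

theorem sec_zero_of_order {pe : ProjEmbedding n X N} {g : Bool → ℂ → X} {d : ℕ}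
    {p : Bool → ℂ → CN N} (hg : IsCurve n g) (L : Lift pe g d p) {s : Bool → ℂ → Model n}
    (hs : IsSec n g s) (b₀ : Bool) (z₀ : ℂ) (h : ((2 * d + 1 : ℕ) : ℕ∞) ≤ ordS g s b₀ z₀) :
    ∀ b z, s b z = 0 := by
  have hσ : AnalyticAt ℂ (sc (g b₀ z₀) (g b₀) (s b₀)) z₀ :=
    (hs.hol b₀ z₀).sc_analytic (mem_chart_source _ _)
  obtain ⟨a, ha, haσ⟩ := (natCast_le_analyticOrderAt hσ).1 h
  have hB0 : ∀ i j z, Bv L s i j b₀ z = 0 := by
    intro i j
    obtain ⟨R, hR1, hR2, hR3⟩ := Bv_local hg L b₀ z₀ i j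
    have hd0 := Bv_differentiable hg L hs i j b₀
    have hd1 := Bv_differentiable hg L hs i j (!b₀)
    -- bound of the other chart on the unit disc
    obtain ⟨C, hC⟩ := (isCompact_closedBall (0 : ℂ) 1).exists_bound_of_continuousOn
      hd1.continuous.continuousOn
    refine L3.eq_zero_of_growth (C := C) (m := 2 * d) hd0 ?_ (hR1 a ha) (z₀ := z₀) ?_
    · intro z hz
      have hz0 : z ≠ 0 := by
        intro h; rw [h, norm_zero] at hz; linarith
      have h1 := Bv_glue hg L hs i j (!b₀) (z := z) hz0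
      rw [Bool.not_not] at h1
      rw [h1, norm_mul, norm_pow, mul_comm]
      refine mul_le_mul_of_nonneg_right (hC _ ?_) (by positivity)
      rw [mem_closedBall_zero_iff, norm_inv]
      exact inv_le_one_of_one_le₀ hz
    · filter_upwards [hR3 s, haσ] with t h1 h2
      rw [h1, h2, hR2, smul_eq_mul]
  have hB1 : ∀ i j z, Bv L s i j (!b₀) z = 0 := by
    intro i j
    have hd1 := Bv_differentiable hg L hs i j (!b₀)
    have h1 : ∀ z, z ≠ 0 → Bv L s i j (!b₀) z = 0 := by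
      intro z hz
      rw [Bv_glue hg L hs i j b₀ hz, hB0, mul_zero]
    intro z
    by_cases hz : z = 0
    · subst hz
      have h2 : Tendsto (Bv L s i j (!b₀)) (𝓝[≠] 0) (𝓝 (Bv L s i j (!b₀) 0)) :=
        (hd1.continuous.tendsto 0).mono_left nhdsWithin_le_nhds
      have h3 : Tendsto (Bv L s i j (!b₀)) (𝓝[≠] 0) (𝓝 0) := by
        refine tendsto_const_nhds.congr' ?_
        filter_upwards [self_mem_nhdsWithin] with z hz using (h1 z hz).symm
      exact tendsto_nhds_unique h2 h3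
    · exact h1 z hz
  intro b z
  refine eq_zero_of_wd pe (s b) (pe.mem_nbhd (g b z)) fun i j => ?_
  have h1 : Bv L s i j b z = 0 := by
    rcases Bool.eq_or_eq_not b b₀ with rfl | rfl
    · exact hB0 i j z
    · exact hB1 i j z
  unfold Bv at h1
  exact (mul_eq_zero.1 h1).resolve_left (pow_ne_zero _ (scal_ne L b z))

theorem exists_lift_curve (pe : ProjEmbedding n X N) {g : Bool → ℂ → X} (hg : IsCurve n g) :
    ∃ (d : ℕ) (p : Bool → ℂ → CN N), Lift pe g d p := by
  obtain ⟨d, q, hq, hl⟩ := P1.p1_poly_onX pe (g false) (g true) (hg.hol false) (hg.hol true)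
    (fun z hz => hg.glue false z hz)
  have hdiff : ∀ q : Cf N d, Differentiable ℂ (pev q) := by
    intro q
    rw [differentiable_pi]
    intro i
    unfold pev
    fun_prop
  refine ⟨d, fun b => if b then pev (revc q) else pev q, ?_, ?_, ?_⟩
  · intro b
    cases b
    · simpa using hdiff q
    · simpa using hdiff (revc q)
  · intro b z hz
    cases b
    · simpa using pev_revc q hz
    · have := pev_revc (revc q) hz
      rw [revc_revc] at this
      simpa using this
  · intro b z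
    cases b
    · simpa using hq z
    · simp only [if_true]
      by_cases hz : z = 0
      · subst hz
        have : pev (revc q) 0 = fun i => q i (Fin.last d) := by
          funext i
          unfold pev revc
          rw [Finset.sum_eq_single (0 : Fin (d + 1))]
          · simp [Fin.rev_zero]
          · intro j _ hj
            have : (j : ℕ) ≠ 0 := fun h => hj (Fin.ext h)
            simp [this]
          · simp
        rw [this]
        exact hl
      · rw [pev_revc q hz]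
        have h1 := (hq z⁻¹).smul (pow_ne_zero d hz)
        have h2 : g true z = g false z⁻¹ := hg.glue false z hz
        rw [h2]
        exact h1

/-- (L3): along a rational curve tangent to `E₁`, a global section of `E₂` with a zero is `0` -/
theorem sec_zero (pe : ProjEmbedding n X N) (S : Splitting n X) {g : Bool → ℂ → X}
    (hg : IsCurve n g) (hv : ∀ b z, pr S (g b z) (vel n (g b) z) = vel n (g b) z)
    {s : Bool → ℂ → Model n} (hs : IsSec n g s) (h2 : ∀ b z, pr S (g b z) (s b z) = 0)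
    {b₀ : Bool} {z₀ : ℂ} (h0 : s b₀ z₀ = 0) : ∀ b z, s b z = 0 := by
  classical
  obtain ⟨d, p, L⟩ := exists_lift_curve pe hg
  by_contra hne
  -- sections with a zero of exact order `K` at the point
  let Q : ℕ → Prop := fun K => K ≠ 0 ∧ ∃ s : Bool → ℂ → Model n, IsSec n g s ∧
    (∀ b z, pr S (g b z) (s b z) = 0) ∧ ordS g s b₀ z₀ = K
  have hbd : ∀ K, Q K → K ≤ 2 * d := by
    rintro K ⟨hK, s, hs, hs2, hord⟩
    by_contra hlt
    push Not at hlt
    have h1 := sec_zero_of_order hg L hs b₀ z₀ (by rw [hord]; exact_mod_cast hlt)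
    have h3 : ordS g s b₀ z₀ = ⊤ := by
      unfold ordS
      rw [analyticOrderAt_eq_top]
      refine Eventually.of_forall fun z => ?_
      unfold sc
      rw [h1, map_zero]
    rw [h3] at hord
    exact ENat.top_ne_natCast K hord
  have hstep : ∀ K, Q K → Q (K + 1) := by
    rintro K ⟨hK, s, hs, hs2, hord⟩
    exact ⟨Nat.succ_ne_zero K, raise S g s b₀ z₀, isSec_raise S hg hv hs b₀ z₀,
      pr_raise S hg hv s b₀ z₀, ordS_raise S hv hs hs2 b₀ z₀ hK hord⟩
  -- the order of `s`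
  obtain ⟨K, hK⟩ : ∃ K : ℕ, ordS g s b₀ z₀ = K := by
    by_cases ht : ordS g s b₀ z₀ = ⊤
    · exact absurd (sec_zero_of_order hg L hs b₀ z₀ (by rw [ht]; exact le_top)) hne
    · exact ⟨(ordS g s b₀ z₀).toNat, (ENat.natCast_toNat ht).symm⟩
  have hK0 : K ≠ 0 := by
    rintro rfl
    have hσ : AnalyticAt ℂ (sc (g b₀ z₀) (g b₀) (s b₀)) z₀ :=
      (hs.hol b₀ z₀).sc_analytic (mem_chart_source _ _)
    have h1 : sc (g b₀ z₀) (g b₀) (s b₀) z₀ ≠ 0 := by
      rw [← hσ.analyticOrderAt_eq_zero]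
      exact_mod_cast hK
    apply h1
    unfold sc
    rw [h0, map_zero]
  have hall : ∀ m, Q (K + m) := by
    intro m
    induction m with
    | zero => exact ⟨hK0, s, hs, h2, hK⟩
    | succ m ih => exact hstep _ ih
  have := hbd _ (hall (2 * d + 1))
  omega

end Crest.Agent.R266.St4
end

-- ▼ part R266/A/GoodE1X

/-!
R266 / A / GoodE1X (helper609): `goodE₁_holds : St_goodE₁ n X`, i.e. `E₁` has a complement by
global sections along rational curves tangent to `E₁`.
-/

set_option autoImplicit false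

open scoped Manifold ContDiff Topology
open Set Filter
open Crest.AlgGeometry.HolSplit

namespace Crest.Agent.R266.St4

variable {n : ℕ} {X : Type} [TopologicalSpace X] [ChartedSpace (Model n) X]
  [IsManifold (mI n) ω X]

/-- the trace as a continuous function of the endomorphism -/
theorem continuous_trace_clm : Continuous (fun A : Model n →L[ℂ] Model n =>
    LinearMap.trace ℂ (Model n) A.toLinearMap) := by
  let L : (Model n →L[ℂ] Model n) →ₗ[ℂ] ℂ :=
    (LinearMap.trace ℂ (Model n)).comp (ContinuousLinearMap.coeLM ℂ)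
  exact L.continuous_of_finiteDimensional

theorem trace_pr_eq (S : Splitting n X) {x₀ : X} {g : ℂ → X} {z : ℂ}
    (hz : g z ∈ (chartAt (Model n) x₀).source) :
    LinearMap.trace ℂ (Model n) (pr S (g z)).toLinearMap =
      LinearMap.trace ℂ (Model n) (Pc S x₀ (gc n x₀ g z)).toLinearMap := by
  have hsymm : (chartAt (Model n) x₀).symm (gc n x₀ g z) = g z :=
    (chartAt (Model n) x₀).left_inv hz
  set T : Model n →ₗ[ℂ] Model n := (tcc (g z) x₀ (g z)).toLinearMap
  set T' : Model n →ₗ[ℂ] Model n := (tcc x₀ (g z) (g z)).toLinearMap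
  set A : Model n →ₗ[ℂ] Model n := (pr S (g z)).toLinearMap
  have h1 : (Pc S x₀ (gc n x₀ g z)).toLinearMap = T ∘ₗ (A ∘ₗ T') := by
    ext1 v
    show Pc S x₀ (gc n x₀ g z) v = tcc (g z) x₀ (g z) (pr S (g z) (tcc x₀ (g z) (g z) v))
    rw [Pc_apply, hsymm]
  have h2 : T' ∘ₗ T = LinearMap.id := by
    ext1 v
    exact tcc_cancel' hz v
  rw [h1, LinearMap.trace_comp_comm', LinearMap.comp_assoc, h2, LinearMap.comp_id]

theorem continuous_trace_pr (S : Splitting n X) {g : ℂ → X}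
    (hg : ContMDiff 𝓘(ℂ, ℂ) (mI n) ω g) :
    Continuous (fun z => LinearMap.trace ℂ (Model n) (pr S (g z)).toLinearMap) := by
  rw [continuous_iff_continuousAt]
  intro z₀
  have hz := mem_chart_source (Model n) (g z₀)
  have h1 : ContinuousAt (fun z => LinearMap.trace ℂ (Model n)
      (Pc S (g z₀) (gc n (g z₀) g z)).toLinearMap) z₀ :=
    ContinuousAt.comp (f := fun z => Pc S (g z₀) (gc n (g z₀) g z))
      (g := fun A : Model n →L[ℂ] Model n => LinearMap.trace ℂ (Model n) A.toLinearMap)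
      continuous_trace_clm.continuousAt (Pc_gc_analytic S (hg z₀) hz).continuousAt
  refine h1.congr ?_
  filter_upwards [eventually_mem_source (hg z₀).continuousAt hz] with z hz'
  exact (trace_pr_eq S hz').symm

theorem isProj_pr (S : Splitting n X) (x : X) :
    LinearMap.IsProj (LinearMap.range (pr S x).toLinearMap) (pr S x).toLinearMap := by
  refine ⟨fun v => ⟨v, rfl⟩, ?_⟩
  rintro _ ⟨v, rfl⟩
  exact pr_idem S x v

theorem trace_pr (S : Splitting n X) (x : X) :
    LinearMap.trace ℂ (Model n) (pr S x).toLinearMap =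
      (Module.finrank ℂ (LinearMap.range (pr S x).toLinearMap) : ℂ) :=
  (isProj_pr S x).trace

theorem norm_natCast_sub (a b : ℕ) : ‖(a : ℂ) - (b : ℂ)‖ = |(a : ℝ) - (b : ℝ)| := by
  have h : ((a : ℂ) - (b : ℂ)) = (((a : ℝ) - (b : ℝ) : ℝ) : ℂ) := by push_cast; rfl
  rw [h, Complex.norm_real, Real.norm_eq_abs]

/-- the rank of `E₁` is constant along a curve -/
theorem finrank_range_const (S : Splitting n X) {g : Bool → ℂ → X} (hg : IsCurve n g)
    (b b' : Bool) (z z' : ℂ) : Module.finrank ℂ (LinearMap.range (pr S (g b z)).toLinearMap) =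
      Module.finrank ℂ (LinearMap.range (pr S (g b' z')).toLinearMap) := by
  have h1 : ∀ b, ∀ z z', Module.finrank ℂ (LinearMap.range (pr S (g b z)).toLinearMap) =
      Module.finrank ℂ (LinearMap.range (pr S (g b z')).toLinearMap) := by
    intro b z z'
    have hlc : IsLocallyConstant
        (fun z => Module.finrank ℂ (LinearMap.range (pr S (g b z)).toLinearMap)) := by
      rw [IsLocallyConstant.iff_eventually_eq]
      intro z₀
      have h2 := (continuous_trace_pr S (hg.hol b)).tendsto z₀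
      have h3 := h2.eventually (Metric.ball_mem_nhds _ (show (0 : ℝ) < 1 by norm_num))
      filter_upwards [h3] with z hz
      rw [trace_pr, trace_pr, dist_eq_norm] at hz
      by_contra hne
      have h4 : (1 : ℝ) ≤ |(Module.finrank ℂ (LinearMap.range (pr S (g b z)).toLinearMap) : ℝ) -
          (Module.finrank ℂ (LinearMap.range (pr S (g b z₀)).toLinearMap) : ℝ)| := by
        have h5 : (1 : ℤ) ≤ |(Module.finrank ℂ (LinearMap.range (pr S (g b z)).toLinearMap) : ℤ) -
          (Module.finrank ℂ (LinearMap.range (pr S (g b z₀)).toLinearMap) : ℤ)| := by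
          apply Int.one_le_abs
          intro h6
          exact hne (by omega)
        exact_mod_cast h5
      have h6 : ‖(Module.finrank ℂ (LinearMap.range (pr S (g b z)).toLinearMap) : ℂ) -
          (Module.finrank ℂ (LinearMap.range (pr S (g b z₀)).toLinearMap) : ℂ)‖ =
          |(Module.finrank ℂ (LinearMap.range (pr S (g b z)).toLinearMap) : ℝ) -
          (Module.finrank ℂ (LinearMap.range (pr S (g b z₀)).toLinearMap) : ℝ)| := by
        exact norm_natCast_sub _ _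
      rw [h6] at hz
      linarith
    exact hlc.apply_eq_of_preconnectedSpace z z'
  have h2 : g (!b) 1 = g b 1 := by
    have := hg.glue b 1 one_ne_zero
    rwa [inv_one] at this
  rcases Bool.eq_or_eq_not b' b with rfl | rfl
  · exact h1 _ _ _
  · rw [h1 b z 1, h1 (!b) z' 1, h2]

theorem finrank_ker_const (S : Splitting n X) {g : Bool → ℂ → X} (hg : IsCurve n g)
    (b b' : Bool) (z z' : ℂ) : Module.finrank ℂ (LinearMap.ker (pr S (g b z)).toLinearMap) =
      Module.finrank ℂ (LinearMap.ker (pr S (g b' z')).toLinearMap) := by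
  have h1 := LinearMap.finrank_range_add_finrank_ker (pr S (g b z)).toLinearMap
  have h2 := LinearMap.finrank_range_add_finrank_ker (pr S (g b' z')).toLinearMap
  have h3 := finrank_range_const S hg b b' z z'
  omega

theorem sum_apply_sec' {ι : Type*} (f : Finset ι) (s : ι → Bool → ℂ → Model n) (b : Bool)
    (z : ℂ) : (∑ i ∈ f, s i) b z = ∑ i ∈ f, s i b z := by
  rw [Finset.sum_apply, Finset.sum_apply]

/-- `E₁` is good along rational curves tangent to `E₁` -/
theorem goodE₁_holds (n : ℕ) (X : Type) [TopologicalSpace X] [T2Space X]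
    [ChartedSpace (Model n) X] [IsManifold (mI n) ω X] : St_goodE₁ n X := by
  classical
  rintro S ⟨N, ⟨pe⟩⟩ g hg hvel ⟨b₁, z₁, hspan⟩
  have hv : ∀ b z, pr S (g b z) (vel n (g b) z) = vel n (g b) z := by
    intro b z
    obtain ⟨v, hv⟩ := hvel b z
    have h1 : pr S (g b z) (v : Model n) = vel n (g b) z := hv
    have h2 := pr_idem S (g b z) (v : Model n)
    rw [h1] at h2
    exact h2
  set x₁ := g b₁ z₁ with hx₁
  set K₁ : Submodule ℂ (Model n) := LinearMap.ker (pr S x₁).toLinearMap with hK₁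
  set q := Module.finrank ℂ K₁ with hq
  let e : Module.Basis (Fin q) ℂ K₁ := Module.finBasis ℂ K₁
  -- sections through the basis of `E₂`
  have hex : ∀ j : Fin q, ∃ s : Bool → ℂ → Model n, IsSec n g s ∧
      (∀ b z, pr S (g b z) (s b z) = 0) ∧ s b₁ z₁ = (e j : Model n) := by
    intro j
    obtain ⟨t, ht, -, htv⟩ := hspan (e j : Model n) trivial
    refine ⟨t + (-1 : ℂ) • (fun b z => pr S (g b z) (t b z)),
      isSec_add ht (isSec_smul (-1) (isSec_proj S hg ht)), ?_, ?_⟩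
    · intro b z
      simp only [Pi.add_apply, Pi.smul_apply]
      rw [map_add, map_smul, pr_idem]
      simp
    · simp only [Pi.add_apply, Pi.smul_apply]
      have h1 : pr S (g b₁ z₁) (e j : Model n) = 0 := (e j).2
      have h2 : t b₁ z₁ = (e j : Model n) := htv
      rw [h2, h1, smul_zero, add_zero]
  choose τ hτ hτ0 hτe using hex
  have hindep : ∀ b z, LinearIndependent ℂ (fun j => τ j b z) := by
    intro b z
    rw [Fintype.linearIndependent_iff]
    intro c hc j
    have hsec : IsSec n g (∑ j, c j • τ j) :=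
      isSec_sum_all Finset.univ hg (fun i _ => isSec_smul (c i) (hτ i))
    have h2 : ∀ b z, pr S (g b z) ((∑ j, c j • τ j) b z) = 0 := by
      intro b z
      rw [sum_apply_sec', map_sum]
      refine Finset.sum_eq_zero fun i _ => ?_
      simp only [Pi.smul_apply]
      rw [map_smul, hτ0, smul_zero]
    have h0 : (∑ j, c j • τ j) b z = 0 := by
      rw [sum_apply_sec']
      exact hc
    have h3 := sec_zero pe S hg hv hsec h2 h0 b₁ z₁
    rw [sum_apply_sec'] at h3
    have h4 : ∑ j, c j • (e j : Model n) = 0 := by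
      rw [← h3]
      refine Finset.sum_congr rfl fun i _ => ?_
      simp only [Pi.smul_apply, hτe]
    have h5 : ∑ j, c j • e j = 0 := by
      apply Subtype.ext
      simpa using h4
    exact Fintype.linearIndependent_iff.1 e.linearIndependent c h5 j
  refine ⟨q, τ, hτ, fun b z => ⟨hindep b z, ?_⟩⟩
  have hspan_eq : Submodule.span ℂ (Set.range fun j => τ j b z)
      = LinearMap.ker (pr S (g b z)).toLinearMap := by
    apply Submodule.eq_of_le_of_finrank_eq
    · rw [Submodule.span_le]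
      rintro _ ⟨j, rfl⟩
      exact hτ0 j b z
    · rw [finrank_span_eq_card (hindep b z), Fintype.card_fin, hq, hK₁, hx₁]
      exact finrank_ker_const S hg b₁ b z₁ z
  have hcompl : IsCompl (LinearMap.range (pr S (g b z)).toLinearMap)
      (Submodule.span ℂ (Set.range fun j => τ j b z)) := by
    rw [hspan_eq]
    exact (isProj_pr S (g b z)).isCompl
  exact hcompl

end Crest.Agent.R266.St4
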