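import Crest.Agent.R266.A.St4Coeff2

-- ▼ part R266/A/MinGood1
section

/-! R266 / A / MinGood1 (helper576): per-curve part of `St_minGood`. -/

set_option autoImplicit false

open scoped Manifold ContDiff Topology
open Set Filter
open Crest.AlgGeometry.HolSplit

namespace Crest.Agent.R266.St4

/-- the nodes used by `minGood` -/
structure Nodes (n : ℕ) (X : Type) [TopologicalSpace X] [T2Space X] [ChartedSpace (Model n) X]
    [IsManifold (mI n) ω X] : Prop where
  coeff : St_coeff n X
  dens : St_dens n X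
  secAdd : St_secAdd n X
  secProj : St_secProj n X
  secVel : St_secVel n X
  secFam : St_secFam n X
  bracket : St_bracket n X
  isKer : St_isKer n X
  kerRank : St_kerRank n X
  kerClosed : St_kerClosed n X
  openImage : St_openImage n X
  submOpen : St_submOpen n X
  subE : St_subE n X
  goodE₁ : St_goodE₁ n X

variable {n : ℕ} {X : Type} [TopologicalSpace X] [T2Space X] [ChartedSpace (Model n) X]
  [IsManifold (mI n) ω X]

theorem spanAt_iff {K : Dist n X} {g : Bool → ℂ → X} {b : Bool} {z : ℂ} : SpanAt g K b z ↔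
    ∀ u ∈ toM K (g b z), ∃ s : Bool → ℂ → Model n, IsSec n g s ∧ SecIn g s K ∧ s b z = u :=
  Iff.rfl

theorem secIn_iff {K : Dist n X} {g : Bool → ℂ → X} {s : Bool → ℂ → Model n} : SecIn g s K ↔
    ∀ b z, s b z ∈ toM K (g b z) := Iff.rfl

theorem isSec_zero {g : Bool → ℂ → X} (N : Nodes n X) (hg : IsCurve n g) {s : Bool → ℂ → Model n}
    (hs : IsSec n g s) : IsSec n g 0 := by
  have := (N.secAdd g hg).2 0 s hs
  simpa using this

theorem isSec_sum {g : Bool → ℂ → X} (N : Nodes n X) (hg : IsCurve n g) {ι : Type*}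
    (f : Finset ι) {s₀ : Bool → ℂ → Model n} (h0 : IsSec n g s₀)
    {s : ι → Bool → ℂ → Model n} (hs : ∀ i ∈ f, IsSec n g (s i)) (c : ι → ℂ) :
    IsSec n g (∑ i ∈ f, c i • s i) := by
  classical
  induction f using Finset.induction_on with
  | empty => simpa using isSec_zero N hg h0
  | insert a f ha ih =>
    rw [Finset.sum_insert ha]
    refine (N.secAdd g hg).1 _ _ ((N.secAdd g hg).2 _ _ (hs a (Finset.mem_insert_self a f))) ?_
    exact ih fun i hi => hs i (Finset.mem_insert_of_mem hi)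

theorem sum_apply_sec {ι : Type*} (f : Finset ι) (s : ι → Bool → ℂ → Model n) (c : ι → ℂ)
    (b : Bool) (z : ℂ) : (∑ i ∈ f, c i • s i) b z = ∑ i ∈ f, c i • s i b z := by
  classical
  induction f using Finset.induction_on with
  | empty => simp
  | insert a f ha ih => rw [Finset.sum_insert ha, Finset.sum_insert ha, ← ih]; rfl

/-- a section is, modulo constant combinations of the good sections, a section with values in
`H` -/
theorem sec_coeff (N : Nodes n X) {U : Set X} {H : Dist n X} {g : Bool → ℂ → X} {q : ℕ}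
    {τ : Fin q → Bool → ℂ → Model n} (hH : IsSub H U) (hg : IsCurve n g)
    (hU : ∀ b z, g b z ∈ U) (hτ : ∀ j, IsSec n g (τ j))
    (hc : ∀ b z, LinearIndependent ℂ (fun j => τ j b z) ∧
      IsCompl (toM H (g b z)) (Submodule.span ℂ (Set.range fun j => τ j b z)))
    {s : Bool → ℂ → Model n} (hs : IsSec n g s) :
    ∃ c : Fin q → ℂ, ∀ b z, s b z - ∑ j, c j • τ j b z ∈ toM H (g b z) := by
  refine N.coeff U H g q τ s hH hg hU hτ hc ?_ ?_
  · intro b z
    refine ⟨s b, hs.hol b z, Eventually.of_forall fun t => ?_⟩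
    have : s b t - s b t ∈ toM H (g b t) := by simp
    exact this
  · intro b z hz
    have : s (!b) z - s b z⁻¹ ∈ toM H (g b z⁻¹) := by
      rw [hs.glue b z hz]; simp
    exact this

/-- if in addition `s` lies in `H` at one point, it lies in `H` everywhere -/
theorem sec_in (N : Nodes n X) {U : Set X} {H : Dist n X} {g : Bool → ℂ → X}
    (hH : IsSub H U) (hg : IsCurve n g)
    (hU : ∀ b z, g b z ∈ U) (hG : Good g H)
    {s : Bool → ℂ → Model n} (hs : IsSec n g s) {b₀ : Bool} {z₀ : ℂ}
    (h0 : s b₀ z₀ ∈ toM H (g b₀ z₀)) : SecIn g s H := by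
  obtain ⟨q, τ, hτ, hc⟩ := hG
  have hc' : ∀ b z, LinearIndependent ℂ (fun j => τ j b z) ∧
      IsCompl (toM H (g b z)) (Submodule.span ℂ (Set.range fun j => τ j b z)) := hc
  obtain ⟨c, hcc⟩ := sec_coeff N hH hg hU hτ hc' hs
  have h1 : s b₀ z₀ - ∑ j, (0 : Fin q → ℂ) j • τ j b₀ z₀ ∈ toM H (g b₀ z₀) := by simpa using h0
  have h2 : c = 0 := coeff_unique (hc' b₀ z₀).1 (hc' b₀ z₀).2 (hcc b₀ z₀) h1
  intro b z
  have h3 := hcc b z
  rw [h2] at h3
  have h4 : s b z ∈ toM H (g b z) := by simpa using h3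
  exact h4

/-- spanning passes to good subbundles -/
theorem spanAt_good (N : Nodes n X) {U : Set X} {H : Dist n X} {g : Bool → ℂ → X}
    (hH : IsSub H U) (hg : IsCurve n g) (hU : ∀ b z, g b z ∈ U) (hG : Good g H)
    {b : Bool} {z : ℂ} (h : SpanAt g (fun _ => ⊤ : Dist n X) b z) : SpanAt g H b z := by
  refine spanAt_iff.2 fun u hu => ?_
  obtain ⟨s, hs, -, hsu⟩ := spanAt_iff.1 h u trivial
  refine ⟨s, hs, ?_, hsu⟩
  refine sec_in N hH hg hU hG hs (b₀ := b) (z₀ := z) ?_
  rw [hsu]
  exact hu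

theorem mem_E₁ {S : Splitting n X} {x : X} {v : Model n} :
    v ∈ toM (E₁ S) x ↔ pr S x v = v := by
  constructor
  · rintro ⟨u, rfl⟩
    exact S.idem x u
  · intro h
    exact ⟨v, h⟩

theorem mem_E₂ {S : Splitting n X} {x : X} {v : Model n} :
    v ∈ toM (E₂ S) x ↔ pr S x v = 0 := Iff.rfl

/-- the distribution `F ⊔ E₂` -/
noncomputable def HH (S : Splitting n X) (F : Dist n X) : Dist n X := fun x => F x ⊔ E₂ S x

theorem toM_HH (S : Splitting n X) (F : Dist n X) (x : X) :
    toM (HH S F) x = toM F x ⊔ toM (E₂ S) x := rfl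

theorem mem_HH {S : Splitting n X} {F : Dist n X} {x : X} (hF : toM F x ≤ toM (E₁ S) x)
    {v : Model n} : v ∈ toM (HH S F) x ↔ pr S x v ∈ toM F x := by
  rw [toM_HH]
  constructor
  · intro h
    obtain ⟨f, hf, e, he, rfl⟩ := Submodule.mem_sup.1 h
    rw [map_add, mem_E₁.1 (hF hf), mem_E₂.1 he, add_zero]
    exact hf
  · intro h
    refine Submodule.mem_sup.2 ⟨pr S x v, h, v - pr S x v, ?_, add_sub_cancel _ _⟩
    rw [mem_E₂, map_sub, pr_idem, sub_self]

/-- spanning of `F` from spanning of `F ⊔ E₂` -/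
theorem spanAt_F (N : Nodes n X) {S : Splitting n X} {F : Dist n X} {g : Bool → ℂ → X}
    (hg : IsCurve n g) (hF : ∀ b z, toM F (g b z) ≤ toM (E₁ S) (g b z))
    {b : Bool} {z : ℂ} (h : SpanAt g (HH S F) b z) : SpanAt g F b z := by
  refine spanAt_iff.2 fun u hu => ?_
  have h1 : u ∈ toM (HH S F) (g b z) := by
    rw [mem_HH (hF b z), mem_E₁.1 (hF b z hu)]
    exact hu
  obtain ⟨s, hs, hsH, hsu⟩ := spanAt_iff.1 h u h1
  refine ⟨fun b z => pr S (g b z) (s b z), N.secProj S g hg s hs, ?_, ?_⟩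
  · intro b' z'
    exact (mem_HH (hF b' z')).1 (hsH b' z')
  · show pr S (g b z) (s b z) = u
    rw [hsu]
    exact mem_E₁.1 (hF b z hu)

/-- spanning at one point implies spanning on a dense set (constant rank) -/
theorem spanAt_dense (N : Nodes n X) {K : Dist n X} {g : Bool → ℂ → X} (hg : IsCurve n g)
    {k : ℕ} (hk : ∀ b z, Module.finrank ℂ (toM K (g b z)) = k)
    {b₀ : Bool} {z₀ : ℂ} (h : SpanAt g K b₀ z₀) (b : Bool) : Dense {z | SpanAt g K b z} := by
  have h := spanAt_iff.1 h
  obtain ⟨s0, hs0, -, -⟩ := h 0 (Submodule.zero_mem (toM K (g b₀ z₀)))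
  let bs := Module.finBasisOfFinrankEq ℂ (toM K (g b₀ z₀)) (hk b₀ z₀)
  choose s hs hsK hsu using fun i : Fin k => h (bs i : Model n) (bs i).2
  have hind : LinearIndependent ℂ (fun i => s i b₀ z₀) := by
    have h1 : (fun i => s i b₀ z₀) = fun i => ((bs i : toM K (g b₀ z₀)) : Model n) :=
      funext fun i => hsu i
    rw [h1]
    exact bs.linearIndependent.map' (toM K (g b₀ z₀)).subtype (Submodule.ker_subtype _)
  refine (N.dens g k s hg hs ⟨b₀, z₀, hind⟩ b).mono ?_
  intro z hz
  have hz' : LinearIndependent ℂ (fun i => s i b z) := hz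
  have hsp : Submodule.span ℂ (Set.range fun i => s i b z) = toM K (g b z) := by
    apply Submodule.eq_of_le_of_finrank_eq
    · rw [Submodule.span_le]
      rintro _ ⟨i, rfl⟩
      exact hsK i b z
    · rw [finrank_span_eq_card hz', hk b z]
      simp
  refine spanAt_iff.2 fun u hu => ?_
  have hu' : u ∈ Submodule.span ℂ (Set.range fun i => s i b z) := by rw [hsp]; exact hu
  obtain ⟨c, hc⟩ := (Submodule.mem_span_range_iff_exists_fun ℂ).1 hu'
  refine ⟨∑ i, c i • s i, isSec_sum N hg _ hs0 (fun i _ => hs i) c, ?_, ?_⟩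
  · refine secIn_iff.2 fun b' z' => ?_
    rw [sum_apply_sec]
    exact Submodule.sum_mem _ fun i _ => Submodule.smul_mem _ _ (hsK i b' z')
  · rw [sum_apply_sec]; exact hc

end Crest.Agent.R266.St4
end

-- ▼ part R266/A/MinGood2
section

/-! R266 / A / MinGood2 (helper576): per-curve descent. -/

set_option autoImplicit false

open scoped Manifold ContDiff Topology
open Set Filter
open Crest.AlgGeometry.HolSplit

namespace Crest.Agent.R266.St4

variable {n : ℕ} {X : Type} [TopologicalSpace X] [T2Space X] [ChartedSpace (Model n) X]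
  [IsManifold (mI n) ω X]

/-- membership in `kerD` -/
theorem kerD_le (F K : Dist n X) (x : X) : toM (kerD F K) x ≤ toM F x := by
  have : Submodule.span ℂ (kerSet F K x) ≤ F x := Submodule.span_le.2 fun u hu => hu.1
  exact this

/-- if a section of `F` lies in the kernel at one point then it lies in the kernel everywhere -/
theorem ker_of_one (N : Nodes n X) {U : Set X} {F K : Dist n X} (hF : IsSub F U) (hK : IsSub K U)
    (hFK : ∀ x ∈ U, toM F x ≤ toM K x) {g : Bool → ℂ → X} (hg : IsCurve n g)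
    (hU : ∀ b z, g b z ∈ U) (hG : Good g K) (hKd : ∀ b, Dense {z | SpanAt g K b z})
    {s : Bool → ℂ → Model n} (hs : IsSec n g s) (hsF : SecIn g s F) {b₁ : Bool} {z₁ : ℂ}
    (h1 : s b₁ z₁ ∈ toM (kerD F K) (g b₁ z₁)) : SecIn g s (kerD F K) := by
  obtain ⟨B, hB1, hB2, hB3⟩ := N.bracket F K U hF hK hFK
  have hker := (N.isKer F K U hF hK hFK).1
  have hmem : ∀ x ∈ U, ∀ u : Model n, u ∈ toM (kerD F K) x ↔
      (u ∈ toM F x ∧ ∀ v ∈ toM K x, B x u v ∈ toM K x) := by
    intro x hx u
    have h2 : (kerD F K x : Set (TangentSpace (mI n) x)) = _ := (hker x hx).trans (hB1 x hx)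
    have h3 := Set.ext_iff.1 h2 u
    exact h3
  obtain ⟨q, τ, hτ, hc⟩ := hG
  have hc' : ∀ b z, LinearIndependent ℂ (fun j => τ j b z) ∧
      IsCompl (toM K (g b z)) (Submodule.span ℂ (Set.range fun j => τ j b z)) := hc
  have hsF' := secIn_iff.1 hsF
  -- vanishing of the bracket with every section of K
  have hvan : ∀ t : Bool → ℂ → Model n, IsSec n g t → SecIn g t K → ∀ b z,
      B (g b z) (s b z) (t b z) ∈ toM K (g b z) := by
    intro t ht htK
    have htK' := secIn_iff.1 htK
    obtain ⟨c, hcc⟩ := N.coeff U K g q τ (fun b z => B (g b z) (s b z) (t b z)) hK hg hU hτ hc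
      (by
        intro b z
        exact hB3 (g b) (s b) (t b) z (hU b z) (hs.hol b z) (ht.hol b z)
          (Eventually.of_forall fun y => hsF b y) (Eventually.of_forall fun y => htK b y))
      (by
        intro b z hz
        have : B (g (!b) z) (s (!b) z) (t (!b) z) - B (g b z⁻¹) (s b z⁻¹) (t b z⁻¹) ∈
            toM K (g b z⁻¹) := by
          rw [hg.glue b z hz, hs.glue b z hz, ht.glue b z hz]
          simp
        exact this)
    have hcc' : ∀ b z, B (g b z) (s b z) (t b z) - ∑ j, c j • τ j b z ∈ toM K (g b z) := hcc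
    have h2 : B (g b₁ z₁) (s b₁ z₁) (t b₁ z₁) ∈ toM K (g b₁ z₁) :=
      ((hmem _ (hU b₁ z₁) _).1 h1).2 _ (htK' b₁ z₁)
    have h3 : B (g b₁ z₁) (s b₁ z₁) (t b₁ z₁) - ∑ j, (0 : Fin q → ℂ) j • τ j b₁ z₁ ∈
        toM K (g b₁ z₁) := by simpa using h2
    have h4 : c = 0 := coeff_unique (hc' b₁ z₁).1 (hc' b₁ z₁).2 (hcc' b₁ z₁) h3
    intro b z
    have h5 := hcc' b z
    rw [h4] at h5
    simpa using h5
  -- at spanning points
  have hspan : ∀ b z, SpanAt g K b z → s b z ∈ toM (kerD F K) (g b z) := by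
    intro b z h
    rw [hmem _ (hU b z)]
    refine ⟨hsF' b z, fun v hv => ?_⟩
    obtain ⟨t, ht, htK, htv⟩ := spanAt_iff.1 h v hv
    rw [← htv]
    exact hvan t ht htK b z
  refine secIn_iff.2 fun b z => ?_
  have hd : ∃ᶠ y in 𝓝[≠] z, s b y ∈ toM (kerD F K) (g b y) := by
    have h2 : z ∈ closure ({z | SpanAt g K b z} \ {z}) := (hKd b).sdiff_singleton z z
    rw [mem_closure_iff_frequently] at h2
    rw [frequently_nhdsWithin_iff]
    refine h2.mono ?_
    rintro y ⟨hy1, hy2⟩
    exact ⟨hspan b y hy1, hy2⟩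
  have h3 := N.kerClosed F (kerD F K) U (N.isKer F K U hF hK hFK).2 (g b) (s b) z (hU b z)
    (hs.hol b z) (Eventually.of_forall fun y => hsF b y) hd
  exact h3.self_of_nhds

/-- linear algebra: a complement of a subspace inside another one -/
theorem exists_compl_family {M : Type*} [AddCommGroup M] [Module ℂ M] [FiniteDimensional ℂ M]
    {G F : Submodule ℂ M} (hGF : G ≤ F) : ∃ (m : ℕ) (u : Fin m → M), (∀ i, u i ∈ F) ∧
      LinearIndependent ℂ u ∧ Disjoint G (Submodule.span ℂ (Set.range u)) ∧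
      G ⊔ Submodule.span ℂ (Set.range u) = F ∧
      Module.finrank ℂ G + m = Module.finrank ℂ F := by
  obtain ⟨C₀, hC₀⟩ := Submodule.exists_isCompl G
  have hd : Disjoint G (C₀ ⊓ F) := hC₀.disjoint.mono_right inf_le_left
  have hs : G ⊔ C₀ ⊓ F = F := by
    rw [← sup_inf_assoc_of_le C₀ hGF, hC₀.sup_eq_top, top_inf_eq]
  let bs := Module.finBasis ℂ (C₀ ⊓ F : Submodule ℂ M)
  have hsp : Submodule.span ℂ (Set.range fun i => ((bs i : (C₀ ⊓ F : Submodule ℂ M)) : M)) =
      C₀ ⊓ F := by
    have h1 := bs.span_eq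
    have h2 := congrArg (Submodule.map (C₀ ⊓ F : Submodule ℂ M).subtype) h1
    rw [Submodule.map_span, Submodule.map_top, Submodule.range_subtype, ← Set.range_comp] at h2
    exact h2
  refine ⟨Module.finrank ℂ (C₀ ⊓ F : Submodule ℂ M), fun i => bs i, fun i => (bs i).2.2,
    bs.linearIndependent.map' (C₀ ⊓ F : Submodule ℂ M).subtype (Submodule.ker_subtype _), ?_, ?_,
    ?_⟩
  · rw [hsp]; exact hd
  · rw [hsp]; exact hs
  · have h1 := Submodule.finrank_sup_add_finrank_inf_eq G (C₀ ⊓ F)
    rw [hs, hd.eq_bot, finrank_bot, add_zero] at h1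
    exact h1.symm

/-- per-curve descent: `F = G ⊕ span s_i` at every point of the curve -/
theorem descent_curve (N : Nodes n X) {U : Set X} {F K : Dist n X} (hF : IsSub F U)
    (hK : IsSub K U) (hFK : ∀ x ∈ U, toM F x ≤ toM K x) {k : ℕ}
    (hk : ∀ x ∈ U, Module.finrank ℂ (toM F x) = k) {g : Bool → ℂ → X} (hg : IsCurve n g)
    (hU : ∀ b z, g b z ∈ U) (hG : Good g K) (hKd : ∀ b, Dense {z | SpanAt g K b z})
    (hFd : ∀ b, Dense {z | SpanAt g F b z}) :
    ∃ (m : ℕ) (s : Fin m → Bool → ℂ → Model n), (∀ i, IsSec n g (s i)) ∧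
      (∀ b z, LinearIndependent ℂ (fun i => s i b z) ∧
        Disjoint (toM (kerD F K) (g b z)) (Submodule.span ℂ (Set.range fun i => s i b z)) ∧
        toM (kerD F K) (g b z) ⊔ Submodule.span ℂ (Set.range fun i => s i b z) =
          toM F (g b z) ∧
        Module.finrank ℂ (toM (kerD F K) (g b z)) + m = k) := by
  obtain ⟨z₀, hz₀⟩ := (hFd false).nonempty
  have hz₀' := spanAt_iff.1 hz₀
  obtain ⟨s0, hs0, -, -⟩ := hz₀' 0 (Submodule.zero_mem _)
  obtain ⟨m, u, huF, hui, hud, hus, hum⟩ := exists_compl_family (kerD_le F K (g false z₀))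
  choose s hs hsF hsu using fun i => hz₀' (u i) (huF i)
  have hsF' := fun i => secIn_iff.1 (hsF i)
  have hcomb : ∀ c : Fin m → ℂ, IsSec n g (∑ i, c i • s i) :=
    fun c => isSec_sum N hg _ hs0 (fun i _ => hs i) c
  have hcombF : ∀ c : Fin m → ℂ, SecIn g (∑ i, c i • s i) F := by
    intro c
    refine secIn_iff.2 fun b z => ?_
    rw [sum_apply_sec]
    exact Submodule.sum_mem _ fun i _ => Submodule.smul_mem _ _ (hsF' i b z)
  -- independence modulo the kernel everywhere
  have hA : ∀ b z (c : Fin m → ℂ), ∑ i, c i • s i b z ∈ toM (kerD F K) (g b z) → c = 0 := by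
    intro b z c h
    have h1 : (∑ i, c i • s i) b z ∈ toM (kerD F K) (g b z) := by rw [sum_apply_sec]; exact h
    have h2 := secIn_iff.1 (ker_of_one N hF hK hFK hg hU hG hKd (hcomb c) (hcombF c) h1)
      false z₀
    rw [sum_apply_sec] at h2
    simp only [hsu] at h2
    have h3 : ∑ i, c i • u i ∈ Submodule.span ℂ (Set.range u) :=
      Submodule.sum_mem _ fun j _ => Submodule.smul_mem _ _ (Submodule.subset_span ⟨j, rfl⟩)
    have h4 := Submodule.disjoint_def.1 hud _ h2 h3
    funext j
    exact Fintype.linearIndependent_iff.1 hui c h4 j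
  have hind : ∀ b z, LinearIndependent ℂ (fun i => s i b z) := by
    intro b z
    rw [Fintype.linearIndependent_iff]
    intro c hc
    have := hA b z c (by rw [hc]; exact Submodule.zero_mem _)
    intro i
    rw [this]; rfl
  have hdis : ∀ b z, Disjoint (toM (kerD F K) (g b z))
      (Submodule.span ℂ (Set.range fun i => s i b z)) := by
    intro b z
    rw [Submodule.disjoint_def]
    intro v hv hv'
    obtain ⟨c, hc⟩ := (Submodule.mem_span_range_iff_exists_fun ℂ).1 hv'
    have := hA b z c (by rw [hc]; exact hv)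
    rw [← hc, this]
    simp
  have hle : ∀ b z, toM (kerD F K) (g b z) ⊔ Submodule.span ℂ (Set.range fun i => s i b z) ≤
      toM F (g b z) := by
    intro b z
    refine sup_le (kerD_le F K _) (Submodule.span_le.2 ?_)
    rintro _ ⟨i, rfl⟩
    exact hsF' i b z
  have hdim : ∀ b z, Module.finrank ℂ (toM (kerD F K) (g b z) ⊔
      Submodule.span ℂ (Set.range fun i => s i b z) : Submodule ℂ (Model n)) =
      Module.finrank ℂ (toM (kerD F K) (g b z)) + m := by
    intro b z
    have h1 := Submodule.finrank_sup_add_finrank_inf_eq (toM (kerD F K) (g b z))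
      (Submodule.span ℂ (Set.range fun i => s i b z))
    rw [(hdis b z).eq_bot, finrank_bot, add_zero, finrank_span_eq_card (hind b z),
      Fintype.card_fin] at h1
    exact h1
  -- at spanning points the sum is everything
  have hB : ∀ b z, SpanAt g F b z → Module.finrank ℂ (toM (kerD F K) (g b z)) + m = k := by
    intro b z h
    have h1 : toM F (g b z) ≤ toM (kerD F K) (g b z) ⊔
        Submodule.span ℂ (Set.range fun i => s i b z) := by
      intro v hv
      obtain ⟨t, ht, htF, htv⟩ := spanAt_iff.1 h v hv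
      have h2 : t false z₀ ∈ toM (kerD F K) (g false z₀) ⊔ Submodule.span ℂ (Set.range u) := by
        rw [hus]; exact secIn_iff.1 htF false z₀
      obtain ⟨a, ha, b', hb', hab⟩ := Submodule.mem_sup.1 h2
      obtain ⟨c, hc⟩ := (Submodule.mem_span_range_iff_exists_fun ℂ).1 hb'
      have hsec : IsSec n g (t + (-1 : ℂ) • ∑ i, c i • s i) :=
        (N.secAdd g hg).1 _ _ ht ((N.secAdd g hg).2 _ _ (hcomb c))
      have hval : ∀ b z, (t + (-1 : ℂ) • ∑ i, c i • s i) b z = t b z - ∑ i, c i • s i b z := by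
        intro b z
        have : (t + (-1 : ℂ) • ∑ i, c i • s i) b z =
          t b z + (-1 : ℂ) • ((∑ i, c i • s i) b z) := rfl
        rw [this, sum_apply_sec]
        module
      have hsecF : SecIn g (t + (-1 : ℂ) • ∑ i, c i • s i) F := by
        refine secIn_iff.2 fun b z => ?_
        rw [hval]
        exact Submodule.sub_mem _ (secIn_iff.1 htF b z)
          (Submodule.sum_mem _ fun i _ => Submodule.smul_mem _ _ (hsF' i b z))
      have h3 : (t + (-1 : ℂ) • ∑ i, c i • s i) false z₀ ∈ toM (kerD F K) (g false z₀) := by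
        rw [hval]
        simp only [hsu]
        rw [hc, ← hab]
        simpa using ha
      have h4 := secIn_iff.1 (ker_of_one N hF hK hFK hg hU hG hKd hsec hsecF h3) b z
      rw [hval, htv] at h4
      have h5 : v = (v - ∑ i, c i • s i b z) + ∑ i, c i • s i b z := by abel
      rw [h5]
      refine Submodule.add_mem _ (Submodule.mem_sup_left h4) (Submodule.mem_sup_right ?_)
      exact Submodule.sum_mem _ fun j _ => Submodule.smul_mem _ _ (Submodule.subset_span ⟨j, rfl⟩)
    have h2 := le_antisymm (hle b z) h1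
    rw [← hdim b z, h2, hk _ (hU b z)]
  -- in general by semicontinuity
  have hC : ∀ b z, Module.finrank ℂ (toM (kerD F K) (g b z)) + m = k := by
    intro b z
    have h1 := (N.kerRank F (kerD F K) U (fun x _ => kerD_le F K x)
      (N.isKer F K U hF hK hFK).2).1 (g b z) (hU b z)
    have h2 : ∀ᶠ t in 𝓝 z, Module.finrank ℂ (toM (kerD F K) (g b t)) ≤
        Module.finrank ℂ (toM (kerD F K) (g b z)) :=
      ((hg.hol b z).continuousAt.eventually h1)
    have h3 : ∃ t, SpanAt g F b t ∧ Module.finrank ℂ (toM (kerD F K) (g b t)) ≤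
        Module.finrank ℂ (toM (kerD F K) (g b z)) := by
      have h4 : z ∈ closure {z | SpanAt g F b z} := hFd b z
      rw [mem_closure_iff_frequently] at h4
      exact (h4.and_eventually h2).exists
    obtain ⟨t, ht1, ht2⟩ := h3
    have h5 := hB b t ht1
    have h6 : Module.finrank ℂ (toM (kerD F K) (g b z)) + m ≤ k := by
      rw [← hdim b z, ← hk _ (hU b z)]
      exact Submodule.finrank_mono (hle b z)
    omega
  refine ⟨m, s, hs, fun b z => ⟨hind b z, hdis b z, ?_, hC b z⟩⟩
  apply Submodule.eq_of_le_of_finrank_eq (hle b z)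
  rw [hdim b z, hC b z, hk _ (hU b z)]

end Crest.Agent.R266.St4
end

-- ▼ part R266/A/MinGood3

/-! R266 / A / MinGood3 (helper576): descent over the family. -/

set_option autoImplicit false

open scoped Manifold ContDiff Topology
open Set Filter
open Crest.AlgGeometry.HolSplit

namespace Crest.Agent.R266.St4

section la

variable {M : Type*} [AddCommGroup M] [Module ℂ M]

theorem compl_step {G E F : Submodule ℂ M} {m q : ℕ} {u : Fin m → M} {t : Fin q → M}
    (hu : LinearIndependent ℂ u) (hGu : Disjoint G (Submodule.span ℂ (Set.range u)))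
    (hF : G ⊔ Submodule.span ℂ (Set.range u) = F) (ht : LinearIndependent ℂ t)
    (hc : IsCompl (F ⊔ E) (Submodule.span ℂ (Set.range t))) (hFE : Disjoint F E) :
    LinearIndependent ℂ (fun j : Fin (m + q) => Sum.elim u t (finSumFinEquiv.symm j)) ∧
    IsCompl (G ⊔ E) (Submodule.span ℂ
      (Set.range (fun j : Fin (m + q) => Sum.elim u t (finSumFinEquiv.symm j)))) := by
  have huF : Submodule.span ℂ (Set.range u) ≤ F := by rw [← hF]; exact le_sup_right
  have h1 : LinearIndependent ℂ (Sum.elim u t) :=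
    LinearIndependent.sum_type hu ht (hc.disjoint.mono_left (huF.trans le_sup_left))
  have hr : Set.range (fun j : Fin (m + q) => Sum.elim u t (finSumFinEquiv.symm j)) =
      Set.range u ∪ Set.range t := by
    have h2 : (fun j : Fin (m + q) => Sum.elim u t (finSumFinEquiv.symm j)) =
        Sum.elim u t ∘ finSumFinEquiv.symm := rfl
    rw [h2, Set.range_comp, finSumFinEquiv.symm.range_eq_univ, Set.image_univ, Set.Sum.elim_range]
  refine ⟨h1.comp _ finSumFinEquiv.symm.injective, ?_⟩
  rw [hr, Submodule.span_union]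
  constructor
  · rw [Submodule.disjoint_def]
    intro v hv hv'
    obtain ⟨g, hg, e, he, rfl⟩ := Submodule.mem_sup.1 hv
    obtain ⟨a, ha, b, hb, hab⟩ := Submodule.mem_sup.1 hv'
    have h3 : b = g + e - a := by rw [← hab]; abel
    have hgF : g ∈ F := by rw [← hF]; exact Submodule.mem_sup_left hg
    have h4 : b ∈ F ⊔ E := by
      rw [h3]
      refine Submodule.sub_mem _ (Submodule.add_mem _ (Submodule.mem_sup_left hgF)
        (Submodule.mem_sup_right he)) (Submodule.mem_sup_left (huF ha))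
    have h5 : b = 0 := Submodule.disjoint_def.1 hc.disjoint _ h4 hb
    have h6 : a = g + e := by rw [h5, add_zero] at hab; exact hab
    have h7 : a - g = e := by rw [h6]; abel
    have h8 : e ∈ F := by rw [← h7]; exact Submodule.sub_mem _ (huF ha) hgF
    have h9 : e = 0 := Submodule.disjoint_def.1 hFE _ h8 he
    have h10 : g = a := by rw [h6, h9, add_zero]
    have h11 : g = 0 := Submodule.disjoint_def.1 hGu _ hg (by rw [h10]; exact ha)
    rw [h11, h9, add_zero]
  · rw [codisjoint_iff]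
    have h2 : G ⊔ E ⊔ (Submodule.span ℂ (Set.range u) ⊔ Submodule.span ℂ (Set.range t)) =
        (G ⊔ Submodule.span ℂ (Set.range u)) ⊔ E ⊔ Submodule.span ℂ (Set.range t) := by
      rw [← sup_assoc, sup_right_comm G E]
    rw [h2, hF, hc.sup_eq_top]

end la

variable {n : ℕ} {X : Type} [TopologicalSpace X] [T2Space X] [ChartedSpace (Model n) X]
  [IsManifold (mI n) ω X]

theorem disjoint_E (S : Splitting n X) {F : Submodule ℂ (Model n)} {x : X}
    (hF : F ≤ toM (E₁ S) x) : Disjoint F (toM (E₂ S) x) := by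
  rw [Submodule.disjoint_def]
  intro v hv hv'
  rw [← mem_E₁.1 (hF hv)]
  exact mem_E₂.1 hv'

/-- the rank of a subbundle is constant along a curve -/
theorem rank_const {U : Set X} {K : Dist n X} (hK : IsSub K U) {g : Bool → ℂ → X}
    (hg : IsCurve n g) (hU : ∀ b z, g b z ∈ U) :
    ∃ k, ∀ b z, Module.finrank ℂ (toM K (g b z)) = k := by
  have hloc : ∀ b, IsLocallyConstant (fun z => Module.finrank ℂ (toM K (g b z))) := by
    intro b
    rw [IsLocallyConstant.iff_eventually_eq]
    intro z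
    obtain ⟨O, k, V, hxO, hOU, hV⟩ := hK.2 (g b z) (hU b z)
    have hO : ∀ᶠ t in 𝓝 z, g b t ∈ O :=
      (hg.hol b z).continuousAt.preimage_mem_nhds (hV.isOpen.mem_nhds hxO)
    have hr : ∀ y ∈ O, Module.finrank ℂ (toM K y) = k := by
      intro y hy
      rw [← span_iff.1 (hV.span y hy)]
      have h1 : LinearIndependent ℂ (fun i => vv (V i) y) := hV.indep y hy
      rw [finrank_span_eq_card h1, Fintype.card_fin]
    filter_upwards [hO] with t ht
    rw [hr _ ht, hr _ hxO]
  refine ⟨Module.finrank ℂ (toM K (g false 0)), ?_⟩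
  intro b z
  cases b with
  | false => exact (hloc false).apply_eq_of_isPreconnected isPreconnected_univ trivial trivial
  | true =>
    have h1 : Module.finrank ℂ (toM K (g true z)) = Module.finrank ℂ (toM K (g true 1)) :=
      (hloc true).apply_eq_of_isPreconnected isPreconnected_univ trivial trivial
    have h2 : g true 1 = g false 1 := by
      have := hg.glue false 1 one_ne_zero
      simpa using this
    rw [h1, h2]
    exact (hloc false).apply_eq_of_isPreconnected isPreconnected_univ trivial trivial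

variable {E : Type} [NormedAddCommGroup E] [NormedSpace ℂ E] [FiniteDimensional ℂ E]

theorem Fam.mono {W W' : Set E} {g : E → Bool → ℂ → X} (h : Fam n W g) (hW' : IsOpen W')
    (hs : W' ⊆ W) : Fam n W' g where
  isOpen := hW'
  hol := fun b => (h.hol b).mono (Set.prod_mono hs subset_rfl)
  glue := fun w hw => h.glue w (hs hw)
  subm := fun b O hO hne hsub => h.subm b O hO hne (hsub.trans (Set.prod_mono hs subset_rfl))

/-- the data of the induction -/
structure DD (S : Splitting n X) (U : Set X) (F : Dist n X) (k : ℕ) (W : Set E)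
    (g : E → Bool → ℂ → X) : Prop where
  hW : W.Nonempty
  fam : Fam n W g
  subF : IsSub F U
  leF : ∀ x ∈ U, toM F x ≤ toM (E₁ S) x
  rk : ∀ x ∈ U, Module.finrank ℂ (toM F x) = k
  inU : ∀ w ∈ W, ∀ b z, g w b z ∈ U
  goodH : ∀ w ∈ W, Good (g w) (HH S F)
  goodE : ∀ w ∈ W, Good (g w) (E₁ S)
  span : ∀ w ∈ W, ∃ b z, SpanAt (g w) (fun _ => ⊤ : Dist n X) b z

theorem exists_min_on {α : Type*} {W : Set α} (hW : W.Nonempty) (f : α → ℕ) :
    ∃ w ∈ W, ∀ w' ∈ W, f w ≤ f w' := by
  have h1 : (f '' W).Nonempty := hW.image f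
  obtain ⟨w, hw, hfw⟩ := Nat.sInf_mem h1
  refine ⟨w, hw, fun w' hw' => ?_⟩
  rw [hfw]
  exact Nat.sInf_le ⟨w', hw', rfl⟩

theorem descent (N : Nodes n X) {S : Splitting n X} {U : Set X} {F : Dist n X} {k : ℕ}
    {W : Set E} {g : E → Bool → ℂ → X} (D : DD S U F k W g) {K : Dist n X} (hK : IsSub K U)
    (hFK : ∀ x ∈ U, toM F x ≤ toM K x) (hG : ∀ w ∈ W, Good (g w) K) :
    ∃ (W' : Set E) (U' : Set X) (r : ℕ), IsOpen W' ∧ W'.Nonempty ∧ W' ⊆ W ∧ U' ⊆ U ∧
      IsSub (kerD F K) U' ∧ (∀ x ∈ U', Module.finrank ℂ (toM (kerD F K) x) = r) ∧ r ≤ k ∧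
      (∀ w ∈ W', ∀ b z, g w b z ∈ U') ∧
      ∀ w ∈ W', ∃ (m : ℕ) (s : Fin m → Bool → ℂ → Model n), (∀ i, IsSec n (g w) (s i)) ∧
      (∀ b z, LinearIndependent ℂ (fun i => s i b z) ∧
        Disjoint (toM (kerD F K) (g w b z)) (Submodule.span ℂ (Set.range fun i => s i b z)) ∧
        toM (kerD F K) (g w b z) ⊔ Submodule.span ℂ (Set.range fun i => s i b z) =
          toM F (g w b z)) := by
  have hcurve : ∀ w ∈ W, IsCurve n (g w) := fun w hw => (N.secFam E W g D.fam w hw).1
  have hker := N.isKer F K U D.subF hK hFK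
  have hHsub : IsSub (HH S F) U := (N.subE S).2.2 F U D.subF D.leF
  have hcv : ∀ w ∈ W, ∃ (m : ℕ) (s : Fin m → Bool → ℂ → Model n), (∀ i, IsSec n (g w) (s i)) ∧
      (∀ b z, LinearIndependent ℂ (fun i => s i b z) ∧
        Disjoint (toM (kerD F K) (g w b z)) (Submodule.span ℂ (Set.range fun i => s i b z)) ∧
        toM (kerD F K) (g w b z) ⊔ Submodule.span ℂ (Set.range fun i => s i b z) =
          toM F (g w b z) ∧
        Module.finrank ℂ (toM (kerD F K) (g w b z)) + m = k) := by
    intro w hw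
    obtain ⟨b, z, hbz⟩ := D.span w hw
    have hg := hcurve w hw
    have hKs : SpanAt (g w) K b z := spanAt_good N hK hg (D.inU w hw) (hG w hw) hbz
    have hHs : SpanAt (g w) (HH S F) b z :=
      spanAt_good N hHsub hg (D.inU w hw) (D.goodH w hw) hbz
    have hFs : SpanAt (g w) F b z := spanAt_F N hg (fun b z => D.leF _ (D.inU w hw b z)) hHs
    obtain ⟨kK, hkK⟩ := rank_const hK hg (D.inU w hw)
    exact descent_curve N D.subF hK hFK D.rk hg (D.inU w hw) (hG w hw)
      (fun b => spanAt_dense N hg hkK hKs b)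
      (fun b => spanAt_dense N hg (fun b z => D.rk _ (D.inU w hw b z)) hFs b)
  -- the rank of the kernel along a curve
  have hrk : ∀ w ∈ W, ∀ b z, Module.finrank ℂ (toM (kerD F K) (g w b z)) =
      Module.finrank ℂ (toM (kerD F K) (g w false 0)) := by
    intro w hw b z
    obtain ⟨m, s, -, h⟩ := hcv w hw
    have h1 := (h b z).2.2.2
    have h2 := (h false 0).2.2.2
    omega
  obtain ⟨w₁, hw₁, hmin⟩ := exists_min_on D.hW
    (fun w => Module.finrank ℂ (toM (kerD F K) (g w false 0)))
  set r := Module.finrank ℂ (toM (kerD F K) (g w₁ false 0)) with hr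
  obtain ⟨hsemi, hident, hconst⟩ := N.kerRank F (kerD F K) U (fun x _ => kerD_le F K x) hker.2
  have hcont : ∀ b, ContinuousOn (fun q : E × ℂ => g q.1 b q.2) (W ×ˢ univ) :=
    fun b => (D.fam.hol b).continuousOn
  set W' : Set E := {w | w ∈ W ∧ Module.finrank ℂ (toM (kerD F K) (g w false 0)) = r} with hW'
  have hW'W : W' ⊆ W := fun w hw => hw.1
  have hW'o : IsOpen W' := by
    rw [isOpen_iff_mem_nhds]
    intro w hw
    have h1 := hsemi (g w false 0) (D.inU w hw.1 false 0)
    have h2 : ContinuousAt (fun w' => g w' false 0) w := by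
      have h3 : ContinuousAt (fun q : E × ℂ => g q.1 false q.2) (w, 0) :=
        (hcont false).continuousAt ((D.fam.isOpen.prod isOpen_univ).mem_nhds ⟨hw.1, trivial⟩)
      have h4 : ContinuousAt (fun w' : E => (w', (0 : ℂ))) w := by fun_prop
      exact ContinuousAt.comp (f := fun w' : E => (w', (0 : ℂ))) h3 h4
    have h5 := h2.eventually h1
    filter_upwards [h5, D.fam.isOpen.mem_nhds hw.1] with w' h6 h7
    refine ⟨h7, ?_⟩
    have h8 := hmin w' h7
    have h9 := hw.2
    have h6' : Module.finrank ℂ (toM (kerD F K) (g w' false 0)) ≤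
      Module.finrank ℂ (toM (kerD F K) (g w false 0)) := h6
    have h8' : r ≤ Module.finrank ℂ (toM (kerD F K) (g w' false 0)) := h8
    omega
  have hfam' : Fam n W' g := D.fam.mono hW'o hW'W
  set U' : Set X := interior {x | x ∈ U ∧ Module.finrank ℂ (toM (kerD F K) x) = r} with hU'
  have hU'sub : ∀ x ∈ U', x ∈ U ∧ Module.finrank ℂ (toM (kerD F K) x) = r :=
    fun x hx => (interior_subset (s := {x | x ∈ U ∧ Module.finrank ℂ (toM (kerD F K) x) = r}) hx :)
  have hin : ∀ w ∈ W', ∀ b z, g w b z ∈ U' := by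
    intro w hw b z
    have hx := D.inU w hw.1 b z
    have hrx : Module.finrank ℂ (toM (kerD F K) (g w b z)) = r := by
      rw [hrk w hw.1 b z]; exact hw.2
    obtain ⟨B, hBo, hxB, hBU, hB⟩ := hident (g w b z) hx
    have hΩo : IsOpen ((W' ×ˢ univ) ∩ (fun q : E × ℂ => g q.1 b q.2) ⁻¹' B) :=
      ((hcont b).mono (Set.prod_mono hW'W subset_rfl)).isOpen_inter_preimage
        (hW'o.prod isOpen_univ) hBo
    obtain ⟨O', hO'o, hO'n, hO's⟩ := N.openImage E W' g hfam' b _ hΩo
      ⟨(w, z), ⟨hw, trivial⟩, hxB⟩ inter_subset_left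
    have hge : ∀ y ∈ B, r ≤ Module.finrank ℂ (toM (kerD F K) y) := by
      refine hB r O' hO'o hO'n ?_ ?_
      · intro y hy
        obtain ⟨p, hp, rfl⟩ := hO's hy
        exact hp.2
      · intro y hy
        obtain ⟨p, hp, rfl⟩ := hO's hy
        have h1 := hrk p.1 hp.1.1.1 b p.2
        have h2 := hp.1.1.2
        have h3 : Module.finrank ℂ (toM (kerD F K) (g p.1 b p.2)) = r := by rw [h1]; exact h2
        exact h3.ge
    rw [hU', mem_interior_iff_mem_nhds]
    have h1 := hsemi (g w b z) hx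
    filter_upwards [h1, hBo.mem_nhds hxB] with y hy1 hy2
    refine ⟨hBU hy2, le_antisymm ?_ (hge y hy2)⟩
    have h4 : Module.finrank ℂ (toM (kerD F K) y) ≤
      Module.finrank ℂ (toM (kerD F K) (g w b z)) := hy1
    omega
  refine ⟨W', U', r, hW'o, ⟨w₁, hw₁, rfl⟩, hW'W, fun x hx => (hU'sub x hx).1, ?_,
    fun x hx => (hU'sub x hx).2, ?_, hin, ?_⟩
  · exact hconst r U' isOpen_interior (fun x hx => (hU'sub x hx).1) (fun x hx => (hU'sub x hx).2)
  · have h1 : Module.finrank ℂ (toM (kerD F K) (g w₁ false 0)) ≤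
        Module.finrank ℂ (toM F (g w₁ false 0)) := Submodule.finrank_mono (kerD_le F K _)
    rw [D.rk _ (D.inU w₁ hw₁ false 0)] at h1
    exact h1
  · intro w hw
    obtain ⟨m, s, hs, h⟩ := hcv w (hW'W hw)
    exact ⟨m, s, hs, fun b z => ⟨(h b z).1, (h b z).2.1, (h b z).2.2.1⟩⟩

end Crest.Agent.R266.St4
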